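import Vale.Agent.P277Z.F5.Sk
import Vale.Agent.P277Z.Lift.Inst

/-!
# P277Z, non-vanishing: extension of sections of adjoint divisors
-/

set_option linter.all false

open scoped ENNReal Topology Classical
open Filter Set
open Vale.Agent.P297 (Place)

noncomputable section

namespace Vale.Agent.P277Z.F5

open FI Lift

variable {n N : ℕ} {K : Type} [Field K] [Algebra ℂ K] {M : Mdl n N K}

theorem x1_lg_prod {x : M.F} {ι : Type*} (s : Finset ι) {D : ι → Div K} {t : ι → K}
    (h : ∀ i, LG M x (D i) (t i)) : LG M x (∑ i ∈ s, D i) (∏ i ∈ s, t i) := by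
  induction s using Finset.induction_on with
  | empty => simpa using LG.one
  | insert i s hi ih =>
    rw [Finset.sum_insert hi, Finset.prod_insert hi]
    exact (h i).mul ih

theorem x1_amp_opn (h : Pos M) {A : Div K} (hA : M.Amp A) (D : Div K) :
    ∃ δ : ℝ, 0 < δ ∧ δ < 1 ∧ M.Amp (A + δ • D) := by
  obtain ⟨ε, e0, e1⟩ := h.opn A D hA
  have p : 0 < (ε + 1)⁻¹ := by positivity
  refine ⟨ε / (ε + 1), by positivity, (div_lt_one (by positivity)).2 (lt_add_one _),
    Eq.mp (congrArg M.Amp ?_) (h.add _ _ (h.smul _ _ p e1) (h.smul _ _ (mul_pos e0 p) hA))⟩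
  match_scalars <;> field_simp <;> ring

theorem ext1 (n : ℕ) (h : Box) (hE : EXTK n) : EXT1 n := by
  intro N K _ _ M hM L' _ _ S P s κ L B T hS hP hT hB h1 h2 h3 h4 u hu
  lift T to Finset (Place K) using hT.fin.subset (subset_insert _ _)
  have s1 : M.Snc {P} := ⟨fun Q hQ => hT.snc.1 Q (hQ ▸ mem_insert _ _), fun x =>
    (hT.snc.2 x).imp fun t ht => ⟨ht.1, fun Q hQ => ht.2 Q (hQ ▸ mem_insert _ _)⟩⟩
  have H : Hy s T := ⟨h.loc _ N K M hM, h.loc _ N L' S hS, h.pos _ N K M hM, h.pos _ N L' S hS,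
    h.rst _ N K M hM L' S P s s1, hT.snc, hP⟩
  obtain ⟨δ, d0, d1, d2⟩ := x1_amp_opn H.pM h4 B
  have e0 : ∀ R : T, Finsupp.single (R : Place K) (1 : ℝ) P = 0 := fun R =>
    Finsupp.single_eq_of_ne fun e => H.nP (e ▸ R.2)
  refine hE N K M hM L' S P s κ L T.card (fun j => Finsupp.single (T.equivFin.symm j) 1)
    (fun _ => {1}) (fun j => (1 - δ) * B (T.equivFin.symm j)) u hS s1 hT.can h1 h2 h3
    (fun j => ⟨dv_single (H.snc.1 _ (mem_insert_of_mem _ (T.equivFin.symm j).2)) 1,
      IsInt.single _, e0 _, mul_nonneg (sub_pos.2 d1).le (hB.2 _).1, fun w hw =>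
        Finset.mem_singleton.1 hw ▸ one_mem_single _⟩) (Eq.mp (congrArg M.Amp ?_) d2) hu
    fun y t₀ t k1 k2 => ?_
  · rw [T.equivFin.symm.sum_comp fun R : T => ((1 - δ) * B R) • Finsupp.single (R : Place K) (1 : ℝ),
      Finset.sum_coe_sort T fun R => ((1 - δ) * B R) • Finsupp.single R (1 : ℝ)]
    have e1 : ∑ R ∈ T, B R • Finsupp.single R (1 : ℝ) = B := by
      simp only [Finsupp.smul_single, smul_eq_mul, mul_one]
      exact (Finsupp.sum_of_support_subset B (fun R hR => hB.1 hR) _ (by simp)).symm.trans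
        B.sum_single
    simp only [mul_smul, ← Finset.smul_sum, e1]
    module
  · have a1 := fun Y : JJ s T => lg_eqD (x := y) H.lS (IsInt.single (Y : Place L'))
    refine (lim_snc H.lS Subtype.val_injective H.snc_JJ a1
      (γ := fun Y => (1 - δ) * B ((H.fr 0 0).par Y)) fun Y => ?_).cp ?_
    · nlinarith [(hB.2 ((H.fr 0 0).par Y)).1, (hB.2 ((H.fr 0 0).par Y)).2]
    have a2 := nv_bdd ((k1.res H.lM H.lS H.rst h3).mem H.lS hu)
    have a3 := a2.mul (Cp.prod Finset.univ fun j _ => Cp.neg (l := 𝓝 (y : S.W))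
      (f := fun z => ∏ Y with (H.fr 0 0).par Y = T.equivFin.symm j,
        nv S (eqD S y (Finsupp.single Y 1)) z) (g := nv S (s.res (t j))) (by
        have b1 := (k2 j).res H.lM H.lS H.rst (e0 _)
        rw [H.rs_single 0 0] at b1
        have b2 := (x1_lg_prod _ a1).cp H.lS b1 (one_mem_H0 (Finset.sum_nonneg fun _ _ =>
          Finsupp.single_nonneg.2 zero_le_one))
        simp only [one_mul] at b2
        exact (Cp.of_le ((nv_prod _ fun Y _ => (a1 Y).mem1 H.lS).mono fun z hz => hz.ge)).trans b2)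
      (mul_nonneg (sub_pos.2 d1).le (hB.2 (T.equivFin.symm j)).1))
    simp only [Finset.sum_singleton, one_mul] at a3 ⊢
    refine a3.trans (Cp.of_le (.of_forall fun z => le_of_eq ?_))
    rw [T.equivFin.symm.prod_comp fun R : T => (∏ Y with (H.fr 0 0).par Y = R,
      nv S (eqD S y (Finsupp.single Y 1)) z) ^ (-((1 - δ) * B R)),
      ← Finset.prod_fiberwise Finset.univ (H.fr 0 0).par]
    refine Finset.prod_congr rfl fun R _ => ?_
    rw [← ENNReal.prod_rpow_of_ne_top fun _ _ => nv_ne_top _ _]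
    exact Finset.prod_congr rfl fun Y hY => by rw [(Finset.mem_filter.1 hY).2]

end Vale.Agent.P277Z.F5
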