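import Vale.Agent.P277Z.F5.All
import Vale.Agent.P277Z.F5.Ext1
import Vale.Agent.P277Z.FI.Box
import Vale.Agent.P277Z.FI.All

/-!
# P277Z: finite generation of adjoint rings, unconditionally
-/

namespace Vale.Agent.P277Z.F5

theorem tb : Tb := ⟨FI.box, FI.bertA, fun n => ext1 n FI.box (FI.extkA n)⟩

theorem s5 : FI.S5R := s5r tb

theorem tha (n : ℕ) : FI.THA n := FI.tha_all FI.box s5 n

theorem thb (n : ℕ) : FI.THB n := FI.thb_all FI.box s5 n

theorem thr (n : ℕ) : FI.THR (n + 1) := FI.thr_all FI.box s5 n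

/-- **Finite generation.** -/
theorem fg (n : ℕ) : FG n := FI.fg_all FI.box s5 n

end Vale.Agent.P277Z.F5
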