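import Vale.Agent.P277Z.F5.Sk2

/-!
# P277Z, non-vanishing: the radial extension property
-/

set_option linter.all false

open Set Filter Topology
open Vale.Agent.P297 (Place)

noncomputable section

open Classical

namespace Vale.Agent.P277Z.F5.A

open FI

variable {n N : ℕ} {K : Type} [Field K] [Algebra ℂ K] {M : Mdl n N K}

theorem amp_seg (hP : Pos M) {A B : Div K} (hA : M.Amp A) (hB : M.Amp B) {a b : ℝ} (ha : 0 ≤ a)
    (hb : 0 ≤ b) (h : 0 < a + b) : M.Amp (a • A + b • B) := by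
  rcases ha.eq_or_lt with rfl | ha
  · simpa using hP.smul B b (by simpa using h) hB
  rcases hb.eq_or_lt with rfl | hb
  · simpa using hP.smul A a ha hA
  exact hP.add _ _ (hP.smul A a ha hA) (hP.smul B b hb hB)

theorem amp_ev1 (hP : Pos M) {A : Div K} (hA : M.Amp A) (E : Div K) :
    ∀ᶠ c : ℝ in 𝓝 0, M.Amp (A + c • E) := by
  have key : ∀ E : Div K, ∃ ε : ℝ, 0 < ε ∧ ∀ c, 0 ≤ c → c ≤ ε → M.Amp (A + c • E) := fun E => by
    obtain ⟨ε, h1, h2⟩ := hP.opn A E hA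
    refine ⟨ε, h1, fun c c0 c1 => ?_⟩
    have := amp_seg hP hA h2 (a := 1 - c / ε) (b := c / ε)
      (sub_nonneg.2 ((div_le_one h1).2 c1)) (div_nonneg c0 h1.le) (by simp)
    convert this using 1
    rw [smul_add, smul_smul, div_mul_cancel₀ _ h1.ne', ← add_assoc, ← add_smul]
    simp
  obtain ⟨ε, h1, h2⟩ := key E
  obtain ⟨ε', h3, h4⟩ := key (-E)
  filter_upwards [Ioo_mem_nhds (neg_lt_zero.2 h3) h1] with c hc
  rcases le_total 0 c with h | h
  · exact h2 c h hc.2.le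
  · simpa using h4 (-c) (neg_nonneg.2 h) (by linarith [hc.1])

theorem amp_ev (hP : Pos M) {α ι : Type*} {l : Filter α} (s : Finset ι) (E : ι → Div K)
    {c : α → ι → ℝ} (hc : ∀ i ∈ s, Tendsto (fun a => c a i) l (𝓝 0)) {A : Div K} (hA : M.Amp A) :
    ∀ᶠ a in l, M.Amp (A + ∑ i ∈ s, c a i • E i) := by
  classical
  induction s using Finset.induction_on generalizing A with
  | empty => simpa using Eventually.of_forall fun _ => hA
  | insert i s hi ih =>
    have h2 := hP.smul A (1 / 2) (by norm_num) hA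
    filter_upwards [ih (fun j hj => hc j (Finset.mem_insert_of_mem hj)) h2,
      (hc i (Finset.mem_insert_self _ _)).eventually (amp_ev1 hP h2 (E i))] with a h3 h4
    convert hP.add _ _ h3 h4 using 1
    rw [Finset.sum_insert hi]
    module

theorem Rep.add {D D' G G' : Div K} (h : Rep M D G) (h' : Rep M D' G') :
    Rep M (D + D') (G + G') :=
  ⟨add_nonneg h.1 h'.1, by convert (PrR M).add_mem h.2 h'.2 using 1; abel⟩

theorem Rep.smul {D G : Div K} (h : Rep M D G) {c : ℝ} (hc : 0 ≤ c) : Rep M (c • D) (c • G) :=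
  ⟨smul_nonneg hc h.1, by rw [← smul_sub]; exact (PrR M).smul_mem c h.2⟩

theorem Eff.add {D D' : Div K} (h : Eff M D) (h' : Eff M D') : Eff M (D + D') :=
  let ⟨_, a⟩ := h
  let ⟨_, b⟩ := h'
  ⟨_, Rep.add a b⟩

theorem Eff.smul {D : Div K} (h : Eff M D) {c : ℝ} (hc : 0 ≤ c) : Eff M (c • D) :=
  let ⟨_, a⟩ := h
  ⟨_, Rep.smul a hc⟩

theorem Eff.congr {D D' : Div K} (h : Eff M D) (e : D - D' ∈ PrR M) : Eff M D' :=
  let ⟨G, a⟩ := h
  ⟨G, a.1, by convert (PrR M).add_mem a.2 e using 1; abel⟩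

theorem eff_of {D : Div K} (h : 0 ≤ D) : Eff M D := ⟨D, h, by simp⟩

theorem thr {ι : Type*} (T : Finset ι) (g : ι → ℝ → ℝ) (hg : ∀ i, Continuous (g i)) {τ : ℝ}
    (hτ : 0 ≤ τ) (h0 : ∀ i ∈ T, g i 0 ≤ 1) {e : ι} (he : e ∈ T) (h1 : 1 ≤ g e τ) :
    ∃ t ∈ Icc 0 τ, (∀ i ∈ T, g i t ≤ 1) ∧ ∃ i ∈ T, g i t = 1 := by
  have hc : Continuous fun t => T.sup' ⟨e, he⟩ fun i => g i t :=
    Continuous.finset_sup'_apply _ fun i _ => hg i
  obtain ⟨t, ht, e1⟩ := intermediate_value_Icc hτ hc.continuousOn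
    (show (1 : ℝ) ∈ Icc _ _ from ⟨Finset.sup'_le _ _ h0, h1.trans (Finset.le_sup' (fun i => g i τ) he)⟩)
  refine ⟨t, ht, fun i hi => (Finset.le_sup' (fun i => g i t) hi).trans e1.le, ?_⟩
  obtain ⟨i, hi, e2⟩ := Finset.exists_mem_eq_sup' ⟨e, he⟩ fun i => g i t
  exact ⟨i, hi, e2 ▸ e1⟩

theorem two_sub {α : Type*} {l : Filter α} [l.NeBot] {x : α → ℝ} {y : ℝ} (h : Tendsto x l (𝓝 y))
    (h0 : ∀ᶠ a in l, 0 ≤ x a) : ∀ᶠ a in l, 0 ≤ 2 * x a - y := by
  rcases (ge_of_tendsto h h0).eq_or_lt with e | e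
  · filter_upwards [h0] with a ha
    linarith
  · filter_upwards [h.eventually (lt_mem_nhds (half_lt_self e))] with a ha
    linarith

theorem ulim (U : Ultrafilter ℕ) {x : ℕ → ℝ} {a b : ℝ} (h : ∀ᶠ k in U, x k ∈ Icc a b) :
    ∃ y ∈ Icc a b, Tendsto x U (𝓝 y) :=
  isCompact_Icc.ultrafilter_le_nhds (U.map x) (le_principal_iff.2 h)

theorem core (hA : ∀ (A : Div K) (T : Set (Place K)), M.Dv A → M.Amp A → T.Finite →
      ∃ G, Rep M A G ∧ ∀ P ∈ T, G P = 0) {κ D B S : Div K} {T : Finset (Place K)}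
    (hT : ∀ P ∈ T, ∃ (k : ℕ) (φ : Fin k → Div K →ₗ[ℝ] ℝ),
      (∀ C, Bd1 (T.erase P : Finset _) C → Z M (κ + Finsupp.single P 1 + (D - κ - B) + C) P →
        ∀ i, 0 ≤ φ i (κ + Finsupp.single P 1 + (D - κ - B) + C)) ∧
      ∀ C : Div K, (C.support : Set (Place K)) ⊆ (T.erase P : Finset _) →
        (∀ i, 0 ≤ φ i (κ + Finsupp.single P 1 + (D - κ - B) + C)) →
        Eff M (κ + Finsupp.single P 1 + (D - κ - B) + C))
    (hB : ∀ Q ∈ T, 0 < B Q ∧ B Q < 1) (hB' : ∀ Q ∉ T, B Q = 0) (hS : Rep M D S)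
    (hS' : ∀ Q ∉ T, S Q = 0) {w G : ℕ → Div K} (hw : ∀ Q, Tendsto (fun k => w k Q) atTop (𝓝 0))
    (hw' : ∀ k, ∀ Q ∉ T, w k Q = 0) (hG : ∀ k, Rep M (D + w k) (G k)) :
    ∃ᶠ k in atTop, ∃ β : ℝ, 0 < β ∧ β < 1 ∧ Eff M (D + w k - β • D) := by
  classical
  set U : Ultrafilter ℕ := hyperfilter ℕ
  have hU : (U : Filter ℕ) ≤ atTop := Nat.hyperfilter_le_atTop
  refine Frequently.filter_mono (Eventually.frequently (f := (U : Filter ℕ)) ?_) hU
  replace hw := fun Q => (hw Q).mono_left hU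
  rcases U.em fun k => ∃ Q ∈ (S.support : Set (Place K)), G k Q = 0 with h | h
  swap
  · filter_upwards [h] with k hk
    have h1 : ∀ᶠ β : ℝ in 𝓝 0, ∀ Q ∈ S.support, β * S Q ≤ G k Q := by
      refine (eventually_all_finset _).2 fun Q hQ => ?_
      have h2 : 0 < G k Q := lt_of_le_of_ne ((hG k).1 Q) fun e => hk ⟨Q, hQ, e.symm⟩
      have h3 : Tendsto (fun β : ℝ => β * S Q) (𝓝 0) (𝓝 0) := by
        simpa using (continuous_mul_const (S Q)).tendsto (0 : ℝ)
      exact h3.eventually (ge_mem_nhds h2)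
    obtain ⟨β, ⟨h2, h3⟩, h4⟩ := (((h1.and (gt_mem_nhds one_pos)).filter_mono
      (nhdsWithin_le_nhds (s := Ioi 0))).and self_mem_nhdsWithin).exists
    refine ⟨β, h4, h3, G k - β • S, fun Q => ?_, ?_⟩
    · by_cases hQ : Q ∈ S.support
      · simpa using h2 Q hQ
      · simpa [Finsupp.notMem_support_iff.1 hQ] using (hG k).1 Q
    · convert (PrR M).sub_mem (hG k).2 ((PrR M).smul_mem β hS.2) using 1
      module
  obtain ⟨E, hE, h⟩ := (Ultrafilter.eventually_exists_mem_iff S.support.finite_toSet).1 h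
  have E0 : 0 < S E := lt_of_le_of_ne (hS.1 E) (Finsupp.mem_support_iff.1 hE).symm
  have ET : E ∈ T := by_contra fun e => E0.ne' (hS' E e)
  set τ : ℝ := 2 / S E with hτ
  have τ0 : 0 < τ := by positivity
  let g : ℕ → Place K → ℝ → ℝ := fun k Q t =>
    B Q + w k Q + t * (S Q + w k Q) - (1 + t) * G k Q
  have small : ∀ᶠ k in (U : Filter ℕ), ∀ Q ∈ T, B Q + w k Q ≤ 1 ∧ (1 + τ) * |w k Q| ≤ B Q ∧
      -(S E / 2) ≤ w k Q := by
    refine (eventually_all_finset _).2 fun Q hQ => ?_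
    have h1 : Tendsto (fun k => (1 + τ) * |w k Q|) U (𝓝 0) := by
      simpa using (hw Q).abs.const_mul (1 + τ)
    filter_upwards [(hw Q).eventually (ge_mem_nhds (sub_pos.2 (hB Q hQ).2)),
      h1.eventually (ge_mem_nhds (hB Q hQ).1),
      (hw Q).eventually (le_mem_nhds (neg_lt_zero.2 (half_pos E0)))] with k a b c
    exact ⟨by linarith, b, c⟩
  have pos : ∀ᶠ k in (U : Filter ℕ), ∀ Q ∈ T, ∀ t ∈ Icc 0 τ,
      0 ≤ B Q + w k Q + t * (S Q + w k Q) := by
    filter_upwards [small] with k hk Q hQ t ht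
    have a := (hk Q hQ).2.1
    have b := neg_abs_le (w k Q)
    have c : 0 ≤ S Q := hS.1 Q
    have d := abs_nonneg (w k Q)
    nlinarith [ht.1, ht.2, mul_nonneg ht.1 c, mul_le_mul_of_nonneg_left b ht.1,
      mul_le_mul_of_nonneg_right ht.2 d]
  have ex : ∀ᶠ k in (U : Filter ℕ), ∃ t, t ∈ Icc 0 τ ∧ (∀ Q ∈ T, g k Q t ≤ 1) ∧
      ∃ P ∈ (T : Set (Place K)), g k P t = 1 := by
    filter_upwards [small, pos, h] with k h1 h2 h3
    refine thr T (g k) (fun Q => by simp only [g]; fun_prop) τ0.le (fun Q hQ => ?_) ET ?_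
    · have := (h1 Q hQ).1
      have a : 0 ≤ G k Q := (hG k).1 Q
      simp only [g]
      linarith
    · have a := h2 E ET 0 ⟨le_rfl, τ0.le⟩
      have b := mul_le_mul_of_nonneg_left (h1 E ET).2.2 τ0.le
      have c : τ * S E = 2 := div_mul_cancel₀ _ E0.ne'
      simp only [g, h3]
      nlinarith
  obtain ⟨t, ht⟩ := ex.choice
  obtain ⟨P, hP, hP1⟩ := (Ultrafilter.eventually_exists_mem_iff T.finite_toSet).1
    (ht.mono fun k hk => hk.2.2)
  obtain ⟨t', ht', tl⟩ := ulim U (ht.mono fun k hk => hk.1)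
  let c : ℕ → Place K → ℝ := fun k Q => max (g k Q (t k)) 0
  have hc : ∀ᶠ k in (U : Filter ℕ), ∀ Q ∈ T, c k Q ∈ Icc (0 : ℝ) 1 :=
    ht.mono fun k hk Q hQ => ⟨le_max_right _ _, max_le (hk.2.1 Q hQ) zero_le_one⟩
  choose! c' hc' cl using fun Q (hQ : Q ∈ T) => ulim U (hc.mono fun k hk => hk Q hQ)
  let C : (Place K → ℝ) → Div K := fun c => ∑ Q ∈ T.erase P, c Q • Finsupp.single Q 1
  have Ca : ∀ c Q, C c Q = if Q ∈ T.erase P then c Q else 0 := fun c Q => by
    simp only [C, Finsupp.finset_sum_apply, Finsupp.smul_apply, Finsupp.single_apply, smul_eq_mul,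
      mul_ite, mul_one, mul_zero, Finset.sum_ite_eq']
  let u : (Place K → ℝ) → Div K := fun c => κ + Finsupp.single P 1 + (D - κ - B) + C c
  let F : ℕ → Div K := fun k => D + w k + t k • (S + w k) - u (c k)
  let F' : Div K := D + t' • S - u c'
  have Fa : ∀ k Q, F k Q = B Q + w k Q + t k * (S Q + w k Q) - Finsupp.single P (1 : ℝ) Q -
      C (c k) Q := fun k Q => by simp [F, u]; ring
  have hF : ∀ᶠ k in (U : Filter ℕ), (∀ Q, 0 ≤ F k Q ∧ F k Q ≤ (1 + t k) * G k Q) ∧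
      F k P = (1 + t k) * G k P := by
    filter_upwards [ht, hP1, pos] with k h1 h2 h3
    have e : F k P = (1 + t k) * G k P := by
      rw [Fa, Ca]
      simp only [g] at h2
      simp
      linarith
    have a : ∀ Q, 0 ≤ (1 + t k) * G k Q := fun Q => mul_nonneg (by linarith [h1.1.1]) ((hG k).1 Q)
    refine ⟨fun Q => ?_, e⟩
    by_cases hQ : Q = P
    · rw [hQ, e]; exact ⟨a P, le_rfl⟩
    rw [Fa, Ca, Finsupp.single_eq_of_ne hQ]
    by_cases hQ' : Q ∈ T
    · rw [if_pos (Finset.mem_erase.2 ⟨hQ, hQ'⟩)]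
      have b := h3 Q hQ' _ h1.1
      have d := a Q
      simp only [c, g]
      rcases max_cases (B Q + w k Q + t k * (S Q + w k Q) - (1 + t k) * G k Q) 0 with e | e <;>
        rw [e.1] <;> constructor <;> linarith [e.2]
    · rw [if_neg fun e => hQ' (Finset.mem_of_mem_erase e), hB' Q hQ', hS' Q hQ', hw' k Q hQ']
      simpa using a Q
  have Cl : ∀ ψ : Div K →ₗ[ℝ] ℝ, Tendsto (fun k => ψ (C (c k))) U (𝓝 (ψ (C c'))) := fun ψ => by
    simp only [C, map_sum, map_smul, smul_eq_mul]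
    exact tendsto_finset_sum _ fun Q hQ => (cl Q (Finset.mem_of_mem_erase hQ)).mul_const _
  have Fl : ∀ Q, Tendsto (fun k => F k Q) U (𝓝 (F' Q)) := fun Q => by
    have e : F' Q = B Q + 0 + t' * (S Q + 0) - Finsupp.single P (1 : ℝ) Q - C c' Q := by
      simp [F', u]; ring
    simp only [Fa, e]
    exact (((tendsto_const_nhds.add (hw Q)).add (tl.mul (tendsto_const_nhds.add (hw Q)))).sub
      tendsto_const_nhds).sub (Cl (Finsupp.lapply Q))
  obtain ⟨m, φ, φ1, φ2⟩ := hT P hP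
  have Cs : ∀ c, ((C c).support : Set (Place K)) ⊆ (T.erase P : Finset _) := fun c Q hQ =>
    by_contra fun e => Finsupp.mem_support_iff.1 hQ (by rw [Ca]; exact if_neg e)
  have hu : ∀ᶠ k in (U : Filter ℕ), ∀ i, 0 ≤ φ i (u (c k)) := by
    filter_upwards [hc, hF] with k h1 h2
    refine φ1 _ ⟨Cs _, fun Q => ?_⟩ fun A a1 a2 η η0 => ?_
    · rw [Ca]
      split_ifs with e
      · exact h1 Q (Finset.mem_of_mem_erase e)
      · exact ⟨le_rfl, zero_le_one⟩
    obtain ⟨G', g1, g2⟩ := hA A {P} a1 a2 (finite_singleton _)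
    have r : Rep M (u (c k)) ((1 + t k) • G k - F k) := by
      refine ⟨fun Q => by simpa using (h2.1 Q).2, ?_⟩
      convert (PrR M).sub_mem ((PrR M).smul_mem (1 + t k) (hG k).2)
        ((PrR M).smul_mem (t k) hS.2) using 1
      simp only [F]
      module
    refine ⟨_, Rep.add r g1, ?_⟩
    simp [g2 P rfl, h2.2, η0.le]
  have ul : ∀ i, Tendsto (fun k => φ i (u (c k))) U (𝓝 (φ i (u c'))) := fun i => by
    simp only [u, map_add (φ i) _ (C _)]
    exact tendsto_const_nhds.add (Cl _)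
  have F0 : ∀ᶠ k in (U : Filter ℕ), ∀ Q ∈ F'.support, 0 ≤ 2 * F k Q - F' Q :=
    (eventually_all_finset _).2 fun Q _ => two_sub (Fl Q) (hF.mono fun k hk => (hk.1 Q).1)
  have t0 : ∀ᶠ k in (U : Filter ℕ), (t' - 1) / 2 < t k :=
    tl.eventually (lt_mem_nhds (by linarith [ht'.1]))
  filter_upwards [eventually_all.2 fun i => two_sub (ul i) (hu.mono fun k hk => hk i), F0, hF, t0,
    ht] with k h1 h2 h3 h4 h5
  have e1 : κ + Finsupp.single P 1 + (D - κ - B) + C (fun Q => 2 * c k Q - c' Q) =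
      (2 : ℝ) • u (c k) - u c' := by
    have : C (fun Q => 2 * c k Q - c' Q) = (2 : ℝ) • C (c k) - C c' := by
      simp only [C, Finset.smul_sum, ← Finset.sum_sub_distrib, smul_smul, sub_smul]
    simp only [u, this]
    module
  have e2 := φ2 _ (Cs fun Q => 2 * c k Q - c' Q) fun i => by
    rw [e1, map_sub, map_smul]; exact h1 i
  have e3 : 0 ≤ (2 : ℝ) • F k - F' := fun Q => by
    by_cases hQ : Q ∈ F'.support
    · simpa using h2 Q hQ
    · simpa [Finsupp.notMem_support_iff.1 hQ] using (h3.1 Q).1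
  have p : 0 < 2 * (1 + t k) := by linarith [h5.1.1]
  refine ⟨(1 + t') / (2 * (1 + t k)), div_pos (by linarith [ht'.1]) p,
    (div_lt_one p).2 (by linarith), ?_⟩
  have e4 : Eff M ((2 * (1 + t k)) • (D + w k) - (1 + t') • D) := by
    refine Eff.congr (Eff.add (e1 ▸ e2) (eff_of e3)) ?_
    convert (PrR M).smul_mem (2 * t k - t') hS.2 using 1
    simp only [F, F']
    module
  convert Eff.smul e4 (inv_nonneg.2 p.le) using 1
  rw [smul_sub, smul_smul, smul_smul, inv_mul_cancel₀ p.ne', one_smul, inv_mul_eq_div]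

end Vale.Agent.P277Z.F5.A
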