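import Vale.Agent.P277Z.F5.A1
import Vale.Agent.P277Z.Cvx.Poly
import Vale.Agent.P277Z.Gr.Sat

/-!
# P277Z, non-vanishing: Theorem B from non-vanishing
-/

set_option linter.all false

open Set Filter Topology
open Vale.Agent.P297 (Place)

noncomputable section

open Classical

namespace Vale.Agent.P277Z.F5.A

open FI

variable {n N : ℕ} {K : Type} [Field K] [Algebra ℂ K] {M : Mdl n N K}

theorem rep_self {D : Div K} (h : 0 ≤ D) : Rep M D D := ⟨h, by simp⟩

theorem rad (h : Tb) (hAR : AR n) (hT : T43H n) (hLR : LR n) (hPP : PP n) (hM : M.Proj)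
    {κ B D : Div K} {T : Set (Place K)} (hκ : Lg M κ T) (hB : Bd1 T B) (hD : M.Dv D)
    (hA : M.Amp (D - κ - B)) {ι : Type} [Fintype ι] {E : ι → Div K} (hE : ∀ i, M.Dv (E i))
    {c : ℕ → ι → ℝ} (hc : ∀ i, Tendsto (fun k => c k i) atTop (𝓝 0)) (h0 : Eff M D)
    (h1 : ∀ k, Eff M (D + ∑ i, c k i • E i)) :
    ∃ᶠ k in atTop, ∃ β : ℝ, 0 < β ∧ β < 1 ∧ Eff M (D + ∑ i, c k i • E i - β • D) := by
  obtain ⟨S, hS⟩ := h0
  obtain ⟨a, ha⟩ := hLR N K M hM κ B D T M (Mod.refl M) hκ hB hA hM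
  obtain ⟨M', m, κ', Ψ, T', hM', hκ', -, t1, t2, t3, t4, t5⟩ :=
    ha (S.support ∪ ⋃ i, (E i).support) (S.support.finite_toSet.union
      (finite_iUnion fun i => (E i).support.finite_toSet))
  have hL := h.box.loc n N K M hM
  have hP' := h.box.pos n N K M' hM'
  have hb := h.box.bir n N K M hM M' m hM'
  obtain ⟨-, p1, -, p2⟩ := hPP N K M hM M' m hM'
  set T₀ := hκ'.fin.toFinset
  have mem : ∀ Q, Q ∈ T₀ ↔ Q ∈ T' := fun Q => hκ'.fin.mem_toFinset
  have Ψ0 : ∀ Q ∉ T₀, Ψ Q = 0 := fun Q hQ => by_contra fun e =>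
    hQ ((mem Q).2 (t2 (Finsupp.mem_support_iff.2 e)))
  have dvT : ∀ {X : Div K}, (∀ Q ∉ T₀, X Q = 0) → M'.Dv X := fun hX =>
    dv_iff.2 fun Q hQ => hX Q fun e => hQ (hκ'.snc.1 Q ((mem Q).1 e))
  have off : ∀ X : Div K, (X.support : Set (Place K)) ⊆ S.support ∪ ⋃ i, (E i).support →
      ∀ Q ∉ T₀, M.pull M' X Q = 0 := fun X hX Q hQ => by_contra fun e => by
    by_cases hq : M'.Pr Q
    · exact hQ ((mem Q).2 (t1 Q hq ((pull_supp hL hb X e).imp_left fun e' =>
        hX (Finsupp.mem_support_iff.2 e'))))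
    · exact e (dv_iff.1 (dv_pull X) Q hq)
  set I : Div K := ∑ Q ∈ T₀, Finsupp.single Q 1
  have Ia : ∀ Q, I Q = if Q ∈ T₀ then 1 else 0 := fun Q => by
    simp only [I, Finsupp.finset_sum_apply, Finsupp.single_apply, Finset.sum_ite_eq']
  have e1 : ∀ᶠ δ : ℝ in 𝓝 0, ∀ Q ∈ T₀, δ < 1 - max (Ψ Q) 0 :=
    (eventually_all_finset _).2 fun Q _ => gt_mem_nhds (sub_pos.2 (max_lt (t3 Q) one_pos))
  obtain ⟨δ, ⟨d1, d2⟩, d3⟩ := (((e1.and (amp_ev1 hP' t5 (-I))).filter_mono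
    (nhdsWithin_le_nhds (s := Ioi 0))).and self_mem_nhdsWithin).exists
  set Ψ' : Div K := Ψ ⊔ 0 - Ψ
  have Ψa : ∀ Q, Ψ' Q = max (Ψ Q) 0 - Ψ Q := fun Q => rfl
  have Ψn : 0 ≤ Ψ' := fun Q => sub_nonneg.2 (le_max_left _ _)
  have Ψ1 : ∀ Q ∉ T₀, Ψ' Q = 0 := fun Q hQ => by simp [Ψa, Ψ0 Q hQ]
  have Ba : ∀ Q, (Ψ ⊔ 0 + δ • I) Q = max (Ψ Q) 0 + δ * I Q := fun Q => rfl
  have B0 : ∀ Q ∉ T₀, (Ψ ⊔ 0 + δ • I) Q = 0 := fun Q hQ => by simp [Ba, Ia, hQ, Ψ0 Q hQ]
  have eA : M.pull M' D + Ψ' - κ' - (Ψ ⊔ 0 + δ • I) = M.pull M' D - κ' - Ψ + δ • -I := by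
    simp only [Ψ']; module
  choose G hG using h1
  have key := core (M := M') (hAR N K M' hM').1 (κ := κ') (D := M.pull M' D + Ψ')
    (B := Ψ ⊔ 0 + δ • I) (S := M.pull M' S + Ψ') (T := T₀)
    (w := fun k => ∑ i, c k i • M.pull M' (E i)) (G := fun k => M.pull M' (G k) + Ψ')
    (fun P hP => hT N K M' hM' κ' _ P _ (by simp) hκ'.can (Finset.finite_toSet _)
      (by rw [← Finset.coe_insert, Finset.insert_erase hP, hκ'.fin.coe_toFinset]; exact hκ'.snc)
      (dv_sub (dv_sub (dv_add (dv_pull _) (dvT Ψ1)) hκ'.can.dv) (dvT B0)) (eA ▸ d2))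
    (fun Q hQ => by
      rw [Ba, Ia, if_pos hQ, mul_one]
      exact ⟨by linarith [le_max_right (Ψ Q) 0, d3], by linarith [d1 Q hQ]⟩)
    B0 (Rep.add (p1 _ _ hS) (rep_self Ψn))
    (fun Q hQ => by rw [Finsupp.add_apply, off S subset_union_left Q hQ, Ψ1 Q hQ, add_zero])
    (fun Q => by
      simp only [Finsupp.finset_sum_apply, Finsupp.smul_apply, smul_eq_mul]
      simpa using tendsto_finset_sum Finset.univ fun i _ => (hc i).mul_const (M.pull M' (E i) Q))
    (fun k Q hQ => by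
      simp only [Finsupp.finset_sum_apply, Finsupp.smul_apply, smul_eq_mul]
      exact Finset.sum_eq_zero fun i _ => by
        rw [off (E i) ((subset_iUnion (fun i => ((E i).support : Set (Place K))) i).trans
          subset_union_right) Q hQ, mul_zero])
    (fun k => by
      convert Rep.add (p1 _ _ (hG k)) (rep_self Ψn) using 1
      simp only [← pl_apply hb, map_add, map_sum, map_smul]
      abel)
  refine key.mono fun k ⟨β, b0, b1, b2⟩ => ⟨β, b0, b1, p2 _ (-((1 - β) • Ψ'))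
    (dv_sub (dv_add hD (dv_sum _ fun i _ => dv_smul (hE i) _)) (dv_smul hD _)) (fun Q hQ => ?_)
    (dvT fun Q hQ => by simp [Ψ1 Q hQ]) ?_⟩
  · simp [Ψa, max_eq_left (t4 Q hQ)]
  · convert b2 using 1
    simp only [← pl_apply hb, map_add, map_sum, map_smul, map_sub]
    module

theorem psef_of_eff (hAR : AR n) (hM : M.Proj) {D : Div K} (h : Eff M D) : Psef M D :=
  fun A a1 a2 =>
    let ⟨G, g, _⟩ := (hAR N K M hM).1 A ∅ a1 a2 finite_empty
    Eff.add h ⟨G, g⟩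

theorem Psef.comb {D D' : Div K} (h : Psef M D) (h' : Psef M D') {a b : ℝ} (ha : 0 ≤ a)
    (hb : 0 ≤ b) (e : a + b = 1) : Psef M (a • D + b • D') := fun A a1 a2 => by
  convert Eff.add (Eff.smul (h A a1 a2) ha) (Eff.smul (h' A a1 a2) hb) using 1
  rw [smul_add, smul_add, add_add_add_comm, ← add_smul, e, one_smul]

theorem Psef.smul (hP : Pos M) {D : Div K} (h : Psef M D) {c : ℝ} (hc : 0 < c) :
    Psef M (c • D) := fun A a1 a2 => by
  convert Eff.smul (h (c⁻¹ • A) (dv_smul a1 _) (hP.smul A _ (inv_pos.2 hc) a2)) hc.le using 1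
  rw [smul_add, smul_smul, mul_inv_cancel₀ hc.ne', one_smul]

theorem amp_sum (hP : Pos M) {ι : Type*} (s : Finset ι) {A : ι → Div K} {c : ι → ℝ}
    (hA : ∀ i ∈ s, M.Amp (A i)) (hc : ∀ i ∈ s, 0 ≤ c i) (h : 0 < ∑ i ∈ s, c i) :
    M.Amp (∑ i ∈ s, c i • A i) := by
  induction s using Finset.induction_on with
  | empty => simp at h
  | insert i s hi ih =>
    rw [Finset.sum_insert hi] at h ⊢
    have h1 := fun j hj => hc j (Finset.mem_insert_of_mem hj)
    rcases (Finset.sum_nonneg h1).eq_or_lt with e | e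
    · rw [Finset.sum_eq_zero fun j hj => by
        rw [(Finset.sum_eq_zero_iff_of_nonneg h1).1 e.symm j hj, zero_smul], add_zero]
      exact hP.smul _ _ (by linarith) (hA i (Finset.mem_insert_self _ _))
    · simpa using amp_seg hP (hA i (Finset.mem_insert_self _ _))
        (ih (fun j hj => hA j (Finset.mem_insert_of_mem hj)) h1 e)
        (hc i (Finset.mem_insert_self _ _)) zero_le_one
        (by linarith [hc i (Finset.mem_insert_self _ _)])

theorem adj_comb (hP : Pos M) {κ : Div K} {T : Set (Place K)} {ι : Type} [Fintype ι]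
    {E : ι → Div K} (hE : ∀ i, Adj M κ T (E i)) {a : ι → ℝ} (ha : a ∈ stdSimplex ℝ ι) :
    ∃ (d : ℝ) (B : Div K), 0 < d ∧ Bd1 T B ∧ M.Amp (d⁻¹ • ∑ i, a i • E i - κ - B) := by
  choose d d0 B b1 b2 b3 using hE
  have c0 : ∀ i, 0 ≤ a i * d i := fun i => mul_nonneg (ha.1 i) (d0 i).le
  have p : 0 < ∑ i, a i * d i := by
    refine lt_of_le_of_ne (Finset.sum_nonneg fun i _ => c0 i) fun e => ?_
    have := (Finset.sum_eq_zero_iff_of_nonneg fun i _ => c0 i).1 e.symm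
    have h1 := ha.2
    rw [Finset.sum_eq_zero fun i hi => (mul_eq_zero.1 (this i hi)).resolve_right (d0 i).ne'] at h1
    exact zero_ne_one h1
  set e := ∑ i, a i * d i with he
  refine ⟨e, e⁻¹ • ∑ i, (a i * d i) • B i, p, ⟨fun Q hQ => ?_, fun Q => ?_⟩, ?_⟩
  · by_contra hn
    refine Finsupp.mem_support_iff.1 hQ ?_
    simp only [Finsupp.smul_apply, Finsupp.finset_sum_apply, smul_eq_mul]
    rw [Finset.sum_eq_zero fun i _ => by
      rw [Finsupp.notMem_support_iff.1 fun k => hn (b1 i k), mul_zero], mul_zero]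
  · simp only [Finsupp.smul_apply, Finsupp.finset_sum_apply, smul_eq_mul]
    refine ⟨mul_nonneg (inv_nonneg.2 p.le) (Finset.sum_nonneg fun i _ =>
      mul_nonneg (c0 i) (b2 i Q).1), ?_⟩
    rw [inv_mul_le_one₀ p]
    exact Finset.sum_le_sum fun i _ => mul_le_of_le_one_right (c0 i) (b2 i Q).2
  · convert hP.smul _ e⁻¹ (inv_pos.2 p)
      (amp_sum hP Finset.univ (fun i _ => b3 i) (fun i _ => c0 i) p) using 1
    simp only [smul_sub, Finset.sum_sub_distrib, ← Finset.sum_smul, smul_smul, mul_assoc,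
      mul_inv_cancel₀ (d0 _).ne', mul_one]
    rw [← he, inv_mul_cancel₀ p.ne', one_smul]

theorem nsmul_mem {s : Finset (Div K)} (hs : ∀ L ∈ s, IsInt L) {L : Div K} (hL : IsInt L)
    (h : L ∈ Cone s) : ∃ m : ℕ, 0 < m ∧ m • L ∈ AddSubmonoid.closure (s : Set (Div K)) := by
  obtain ⟨a, a0, e⟩ := h
  set U : Finset (Place K) := s.biUnion Finsupp.support
  choose z hz using hL
  choose y hy using fun X : s => hs X X.2
  obtain ⟨m, m1, m2⟩ := P277Z.Gr.exists_nsmul_mem (fun (X : s) (Q : U) => y X Q)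
    (a := fun Q : U => z Q) (t := fun X => a X) (fun X => a0 X) fun Q => by
      rw [← hz, e, Finsupp.finset_sum_apply, ← Finset.sum_coe_sort]
      simp [hy]
  let ψ : (U → ℤ) →+ Div K :=
    { toFun := fun v => ∑ Q : U, Finsupp.single (Q : Place K) (v Q : ℝ)
      map_zero' := by simp
      map_add' := fun v w => by simp [Finset.sum_add_distrib] }
  have key : ∀ (X : Div K) (v : Place K → ℤ), (∀ Q, X Q = v Q) → (∀ Q ∉ U, X Q = 0) →
      ψ (fun Q => v Q) = X := fun X v h1 h2 => Finsupp.ext fun Q => by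
    change (∑ R : U, Finsupp.single (R : Place K) (v R : ℝ)) Q = _
    rw [Finsupp.finset_sum_apply, Finset.sum_coe_sort U fun R => Finsupp.single R (v R : ℝ) Q]
    simp only [Finsupp.single_apply, Finset.sum_ite_eq']
    split_ifs with k
    exacts [(h1 Q).symm, (h2 Q k).symm]
  have offs : ∀ X ∈ s, ∀ Q ∉ U, X Q = 0 := fun X hX Q hQ =>
    Finsupp.notMem_support_iff.1 fun k => hQ (Finset.mem_biUnion.2 ⟨X, hX, k⟩)
  refine ⟨m, m1, ?_⟩
  rw [← key L z hz fun Q hQ => by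
    rw [e, Finsupp.finset_sum_apply]
    exact Finset.sum_eq_zero fun X hX => by simp [offs X hX Q hQ], ← map_nsmul]
  refine AddSubmonoid.closure_mono ?_ (AddMonoidHom.map_mclosure ψ _ ▸
    AddSubmonoid.mem_map_of_mem ψ m2)
  rintro _ ⟨_, ⟨X, -, rfl⟩, rfl⟩
  rw [key X (y X) (hy X) (offs X X.2)]
  exact X.2

theorem cone_cl {s : Finset (Div K)} {v : Div K} :
    v ∈ Cone s ↔ v ∈ Submodule.span {c : ℝ // 0 ≤ c} (s : Set (Div K)) := by
  rw [Submodule.mem_span_finset]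
  constructor
  · rintro ⟨a, a0, rfl⟩
    exact ⟨fun L => if L ∈ s then ⟨a L, a0 L⟩ else 0, fun L hL => by_contra fun e => hL (if_neg e),
      Finset.sum_congr rfl fun L hL => by simp only [if_pos hL]; rfl⟩
  · rintro ⟨a, -, rfl⟩
    exact ⟨fun L => a L, fun L => (a L).2, rfl⟩

end A

open FI A in
theorem thb_of {n : ℕ} (h : Tb) (hAR : AR n) (hT : T43H n) (hLR : LR n) (hPP : PP n) (hNV : NV n) :
    THB n := by
  intro N K _ _ M hM κ T s hs
  have hP := h.box.pos n N K M hM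
  have hκ : Lg M κ T := ⟨hs.can, hs.fin, hs.snc⟩
  let π : (s → ℝ) →ₗ[ℝ] Div K := Fintype.linearCombination ℝ fun L : s => (L : Div K)
  have πa : ∀ a, π a = ∑ L : s, a L • (L : Div K) := fun a => rfl
  have πd : ∀ a, M.Dv (π a) := fun a => dv_sum _ fun L _ => dv_smul (hs.dv L L.2) _
  set E : Set (s → ℝ) := {a | a ∈ stdSimplex ℝ s ∧ Psef M (π a)}
  have Ecv : Convex ℝ E := fun a ha b hb x y hx hy e =>
    ⟨convex_stdSimplex ℝ s ha.1 hb.1 hx hy e, by
      rw [map_add, map_smul, map_smul]; exact Psef.comb ha.2 hb.2 hx hy e⟩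
  have Ecp : IsCompact E := by
    refine (isCompact_stdSimplex ℝ s).of_isClosed_subset (isClosed_of_closure_subset fun w hw => ?_)
      fun a ha => ha.1
    refine ⟨(isClosed_stdSimplex ℝ s).closure_subset (closure_mono (fun a ha => ha.1) hw),
      fun A a1 a2 => ?_⟩
    obtain ⟨a, h1, h2⟩ := ((mem_closure_iff_frequently.1 hw).and_eventually
      (amp_ev hP (l := 𝓝 w) Finset.univ (fun L : s => (L : Div K)) (c := fun a L => w L - a L)
        (fun L _ => by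
          simpa using (tendsto_const_nhds (x := w L)).sub ((continuous_apply L).tendsto w))
        a2)).exists
    convert h1.2 _ (dv_add a1 (πd (w - a))) h2 using 1
    rw [map_sub]
    abel
  have nv : ∀ a ∈ E, ∃ (d : ℝ) (B : Div K), 0 < d ∧ Bd1 T B ∧ M.Amp (d⁻¹ • π a - κ - B) ∧
      ∀ b ∈ E, Eff M (d⁻¹ • π b) := fun a ha => by
    obtain ⟨d, B, d0, b1, b2⟩ := adj_comb hP (fun L : s => hs.adj L L.2) ha.1
    refine ⟨d, B, d0, b1, b2, fun b hb => ?_⟩
    obtain ⟨d', B', d0', b1', b2'⟩ := adj_comb hP (fun L : s => hs.adj L L.2) hb.1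
    convert Eff.smul (hNV N K M hM κ B' _ T hκ b1' (dv_smul (πd b) _) b2'
      (Psef.smul hP hb.2 (inv_pos.2 d0'))) (mul_pos (inv_pos.2 d0) d0').le using 1
    rw [smul_smul, mul_assoc, mul_inv_cancel₀ d0'.ne', mul_one]
  have fin : (E.extremePoints ℝ).Finite := by
    refine P277Z.Cvx.ext_finite_of_seq Ecp fun v w hv _ hw hl => ?_
    obtain ⟨d, B, d0, b1, b2, b3⟩ := nv w hw
    have lim : ∀ L, Tendsto (fun k => v k L - w L) atTop (𝓝 0) := fun L => by
      simpa using (tendsto_pi_nhds.1 hl L).sub_const (w L)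
    have e : ∀ k, d⁻¹ • π w + ∑ L : s, (d⁻¹ * (v k L - w L)) • (L : Div K) = d⁻¹ • π (v k) :=
      fun k => by
        simp only [πa, Finset.smul_sum, ← Finset.sum_add_distrib, smul_smul, ← add_smul]
        exact Finset.sum_congr rfl fun L _ => by congr 1; ring
    have k1 := rad h hAR hT hLR hPP hM hκ b1 (dv_smul (πd w) _) b2 (fun L : s => hs.dv L L.2)
      (c := fun k L => d⁻¹ * (v k L - w L)) (fun L => by simpa using (lim L).const_mul d⁻¹)
      (b3 w hw) fun k => e k ▸ b3 _ (hv k).1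
    have k2 : ∀ᶠ k in atTop, ∀ L, 0 ≤ 2 * v k L - w L := eventually_all.2 fun L =>
      two_sub (tendsto_pi_nhds.1 hl L) (.of_forall fun k => (hv k).1.1.1 L)
    obtain ⟨k, ⟨β, b0, β1, k3⟩, k4⟩ := (k1.and_eventually k2).exists
    rw [e] at k3
    have hk := (hv k).1
    refine ⟨k, (1 + β) • v k - β • w, ⟨⟨fun L => ?_, ?_⟩, psef_of_eff hAR hM ?_⟩,
      β / (1 + β), 1 / (1 + β), by positivity, by positivity, by field_simp; ring, ?_⟩
    · have := hk.1.1 L
      simp only [Pi.sub_apply, Pi.smul_apply, smul_eq_mul]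
      nlinarith [k4 L]
    · simp only [Pi.sub_apply, Pi.smul_apply, smul_eq_mul, Finset.sum_sub_distrib,
        ← Finset.mul_sum, hk.1.2, hw.1.2]
      ring
    · convert Eff.smul (Eff.add k3 (Eff.smul (b3 _ hk) b0.le)) d0.le using 1
      simp only [map_sub, map_smul, smul_add, smul_sub, smul_comm d β, smul_inv_smul₀ d0.ne']
      module
    · rw [smul_sub, smul_smul, smul_smul, one_div_mul_cancel (by positivity), one_smul,
        one_div_mul_eq_div]
      abel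
  have hull := P277Z.Cvx.eq_hull_ext Ecp Ecv fin
  have gen : ∀ a ∈ E, ∃ s' : Finset (Div K), π a ∈ Cone s' ∧
      ∀ L ∈ s', L ∈ AddSubmonoid.closure (s : Set (Div K)) ∧ M.H0 L ≠ ⊥ := fun a ha => by
    obtain ⟨d, -, d0, -, -, b3⟩ := nv a ha
    obtain ⟨G, hG⟩ := Eff.smul (b3 a ha) d0.le
    rw [smul_smul, mul_inv_cancel₀ d0.ne', one_smul] at hG
    obtain ⟨s', c1, c2⟩ := (hAR N K M hM).2 s ∅ _ G (fun L hL => ⟨hs.dv L hL, hs.int L hL⟩)
      (cone_cl.2 (Submodule.sum_mem _ fun L _ => Submodule.smul_mem _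
        (⟨a L, ha.1.1 L⟩ : {c : ℝ // 0 ≤ c}) (Submodule.subset_span L.2))) hG (by simp)
    exact ⟨s', c1, fun L hL => ⟨(c2 L hL).1, let ⟨f, f1, f2, _⟩ := (c2 L hL).2
      (Submodule.ne_bot_iff _).2 ⟨f, f1, f2⟩⟩⟩
  choose! σ σ1 σ2 using gen
  have int : ∀ L ∈ AddSubmonoid.closure (s : Set (Div K)), IsInt L ∧ M.Dv L ∧
      ∃ a : s → ℝ, (∀ X, 0 ≤ a X) ∧ L = π a := fun L hL => by
    induction hL using AddSubmonoid.closure_induction with
    | mem x hx => exact ⟨hs.int x hx, hs.dv x hx, Pi.single ⟨x, hx⟩ 1,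
        fun X => by rw [Pi.single_apply]; split_ifs <;> norm_num, by simp [π]⟩
    | zero => exact ⟨IsInt.zero, dv_zero, 0, fun _ => le_rfl, by simp⟩
    | add x y _ _ hx hy =>
      obtain ⟨x1, x2, a, a0, rfl⟩ := hx
      obtain ⟨y1, y2, b, b0, rfl⟩ := hy
      exact ⟨IsInt.add x1 y1, dv_add x2 y2, a + b, fun X => add_nonneg (a0 X) (b0 X), by simp⟩
  have sub : ∀ L ∈ fin.toFinset.biUnion σ, L ∈ AddSubmonoid.closure (s : Set (Div K)) ∧
      M.H0 L ≠ ⊥ := fun L hL =>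
    let ⟨a, a1, a2⟩ := Finset.mem_biUnion.1 hL
    σ2 a (fin.mem_toFinset.1 a1).1 L a2
  refine ⟨fin.toFinset.biUnion σ, sub, fun L hL h0 => ?_⟩
  obtain ⟨l1, l2, a, a0, rfl⟩ := int L hL
  refine nsmul_mem (fun X hX => (int X (sub X hX).1).1) l1 (cone_cl.2 ?_)
  rcases (Finset.sum_nonneg (s := Finset.univ) fun X _ => a0 X).eq_or_lt with e | e
  · have : a = 0 := funext fun X =>
      (Finset.sum_eq_zero_iff_of_nonneg fun X _ => a0 X).1 e.symm X (Finset.mem_univ _)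
    simp [this]
  obtain ⟨f, f1, f2⟩ := (Submodule.ne_bot_iff _).1 h0
  have ef : Eff M (π a) := ⟨M.div f + π a, div_add_nonneg (h.box.loc n N K M hM) l2 f1 f2, by
    rw [add_sub_cancel_right]; exact Submodule.subset_span ⟨f, f2, rfl⟩⟩
  have mem : (∑ X, a X)⁻¹ • a ∈ E := ⟨⟨fun X => mul_nonneg (inv_nonneg.2 e.le) (a0 X), by
    simp only [Pi.smul_apply, smul_eq_mul, ← Finset.mul_sum, inv_mul_cancel₀ e.ne']⟩, by
    rw [map_smul]; exact psef_of_eff hAR hM (Eff.smul ef (inv_nonneg.2 e.le))⟩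
  rw [hull] at mem
  have := convexHull_min (t := {b | π b ∈ Submodule.span {c : ℝ // 0 ≤ c}
      (fin.toFinset.biUnion σ : Set (Div K))}) (fun b hb => Submodule.span_mono
      (Finset.coe_subset.2 (Finset.subset_biUnion_of_mem σ (fin.mem_toFinset.2 hb)))
      (cone_cl.1 (σ1 b hb.1))) (fun x hx y hy p q hp hq _ => by
      rw [mem_ofPred_eq, map_add, map_smul, map_smul]
      exact Submodule.add_mem _ (Submodule.smul_mem _ (⟨p, hp⟩ : {c : ℝ // 0 ≤ c}) hx)
        (Submodule.smul_mem _ (⟨q, hq⟩ : {c : ℝ // 0 ≤ c}) hy)) mem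
  rw [mem_ofPred_eq] at this
  convert Submodule.smul_mem _ (⟨_, e.le⟩ : {c : ℝ // 0 ≤ c}) this using 1
  change _ = (∑ X, a X) • π _
  rw [map_smul, smul_smul, mul_inv_cancel₀ e.ne', one_smul]

end Vale.Agent.P277Z.F5
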