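import Vale.Agent.P277Z.F5.Bas

/-!
# P277Z, non-vanishing: the compact case, few sections
-/

open Set Filter Topology
open Vale.Agent.P297 (Place)

noncomputable section

namespace Vale.Agent.P277Z.F5

open FI

namespace C2H

theorem lin_sum {ι : Type} (φ : (ι →₀ ℝ) →ₗ[ℝ] ℝ) (G : ι →₀ ℝ) :
    (G.sum fun i g => g * φ (Finsupp.single i 1)) = φ G := by
  conv_rhs => rw [← Finsupp.sum_single G, map_finsuppSum]
  exact Finsupp.sum_congr fun i _ => by rw [← smul_eq_mul, ← map_smul, Finsupp.smul_single_one]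

/-- the fractional part of `m G` -/
def fr {ι : Type} (m : ℕ) (G : ι →₀ ℝ) : ι →₀ ℝ := G.mapRange (fun g => Int.fract (m * g)) (by simp)

theorem fr_apply {ι : Type} (m : ℕ) (G : ι →₀ ℝ) (i : ι) : fr m G i = Int.fract (m * G i) := rfl

variable {n N : ℕ} {K : Type} [Field K] [Algebra ℂ K] {M : Mdl n N K}

theorem dv_fr (m : ℕ) {G : Div K} (h : M.Dv G) : M.Dv (fr m G) :=
  fun P hP => h P (Finsupp.support_mapRange hP)

omit [Algebra ℂ K] in
theorem int_fr (m : ℕ) (G : Div K) : IsInt ((m : ℝ) • G - fr m G) :=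
  fun P => ⟨⌊m * G P⌋, by simp [fr_apply]⟩

end C2H

open C2H

/-- **C2** -/
theorem c2 (h : Tb) (n : ℕ) (hF : FRAC) (hC : CNT n) (hD : DEG n) (hN : DNN n) (hQ : DPOS n)
    (hA : AR (n + 1)) (hcp : CP (n + 1)) : C2 n := by
  intro N K _ _ M hM hc H D hH dD hps hb
  have hL := h.box.loc _ N K M hM
  have hP := h.box.pos _ N K M hM
  have d0 := (hD N K M hM hc H hH.dv hH.int).2.1
  have dn := hN N K M hM hc H hH
  have eff : ∀ B, M.Dv B → M.Amp B → Eff M B := fun B h1 h2 =>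
    ((hA N K M hM).1 B ∅ h1 h2 finite_empty).imp fun _ k => k.1
  have dr : ∀ {B G}, Rep M B G → deg M H G = deg M H B := fun k => by
    have := d0 _ k.2
    rwa [map_sub, sub_eq_zero] at this
  obtain ⟨A, hAH⟩ := eff H hH.dv hH.amp
  obtain ⟨x, hx⟩ := M.conn.nonempty
  obtain ⟨t, ht⟩ := hL.coord ⟨x, hx⟩
  obtain ⟨κ, hκ, -⟩ := can_coord hL ht
  have hκ' := isCan_of hL hκ
  obtain ⟨ε, hε, h1⟩ := amp_small hP hH.amp D.support.finite_toSet
  obtain ⟨k, hk⟩ := exists_nat_gt ε⁻¹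
  have k0 : (0 : ℝ) < k := (inv_pos.2 hε).trans hk
  have h2 : ∀ m : ℕ, M.Amp ((k : ℝ) • H - fr m D) := fun m => by
    have := hP.smul _ _ k0 (h1 (-(k : ℝ)⁻¹ • fr m D)
      (fun P hP => Finsupp.support_mapRange (Finsupp.support_smul hP)) fun P => by
        rw [Finsupp.smul_apply, smul_eq_mul, abs_mul, abs_neg, abs_of_pos (inv_pos.2 k0), fr_apply,
          abs_of_nonneg (Int.fract_nonneg _)]
        exact (mul_le_of_le_one_right (inv_pos.2 k0).le (Int.fract_lt_one _).le).trans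
          ((inv_le_comm₀ k0 hε).2 hk.le))
    rwa [smul_add, smul_smul, mul_neg, mul_inv_cancel₀ k0.ne', neg_one_smul, ← sub_eq_add_neg]
      at this
  obtain ⟨c, h3⟩ := hb (κ + ((n : ℝ) + 1) • H + ((k + 1 : ℕ) : ℝ) • H)
    (dv_add (dv_add hκ.1 (dv_smul hH.dv _)) (dv_smul hH.dv _))
  have pos : ∀ l : ℕ, (0 : ℝ) < 1 / (l + 1) := fun l => Nat.one_div_pos_of_nat
  have dG : ∀ {l : ℕ} {G}, Rep M (D + (1 / ((l : ℝ) + 1)) • H) G → M.Dv G := fun k =>
    k.dv (dv_add dD (dv_smul hH.dv _))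
  obtain ⟨ν, h4, h5, h6⟩ := hF _ (fun P => deg M H (Finsupp.single P 1)) A (deg M H D) c
    (fun l => {G | Rep M (D + (1 / ((l : ℝ) + 1)) • H) G})
    (fun P => dn _ (Finsupp.single_nonneg.2 zero_le_one))
    (fun l G hG => ⟨hG.1, fun P hP => hQ N K M hM hc H hH P (dG hG P hP)⟩) hAH.1
    (fun l => ⟨hps _ (dv_smul hH.dv _) (hP.smul _ _ (pos l) hH.amp),
      fun G hG G' hG' a b ha hb e => by
        have := (hG.smul ha).add (hG'.smul hb)
        rwa [← add_smul, e, one_smul] at this⟩)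
    (fun l l' e G hG => by
      have := Rep.add hG (hAH.smul (sub_nonneg.2 (Nat.one_div_le_one_div (α := ℝ) e)))
      rwa [add_assoc, ← add_smul, add_sub_cancel] at this)
    (fun l G hG => by rw [lin_sum, lin_sum, dr hG, dr hAH, map_add, map_smul, smul_eq_mul])
    fun l G hG m hm => by
      have e1 : (G.sum fun P g => Int.fract (m * g) * deg M H (Finsupp.single P 1)) =
          deg M H (fr m G) := by
        rw [← lin_sum, fr, Finsupp.sum_mapRange_index fun _ => zero_mul _]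
      set L := ((m : ℝ) • D - fr m D) + ((k + 1 : ℕ) : ℝ) • H - ((m : ℝ) • G - fr m G) with hLd
      have dL : M.Dv L := dv_sub (dv_add (dv_sub (dv_smul dD _) (dv_fr m dD)) (dv_smul hH.dv _))
        (dv_sub (dv_smul (dG hG) _) (dv_fr m (dG hG)))
      have aL : M.Amp (L - fr m G) := by
        have θ : (0 : ℝ) ≤ 1 - m * (1 / (l + 1)) := by
          rw [sub_nonneg, mul_one_div, div_le_one (by positivity)]
          exact_mod_cast hm.trans l.le_succ
        refine amp_congr hL hP (amp_add_nef (h2 m) (nef_smul hP (nef_of_amp hP hH.amp) θ)) ?_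
        have e : L - fr m G - ((k : ℝ) • H - fr m D + (1 - m * (1 / (l + 1)) : ℝ) • H) =
            -(m : ℝ) • (G - (D + (1 / ((l : ℝ) + 1)) • H)) := by
          rw [hLd]
          push_cast
          module
        exact e ▸ Submodule.smul_mem _ _ hG.2
      obtain ⟨G', e2⟩ := eff _ (dv_sub dL (dv_fr m (dG hG))) aL
      have e3 := dn _ e2.1
      rw [dr e2, map_sub, sub_nonneg] at e3
      have e4 := hC N K M hM hc κ H L _ hκ' hH dL
        (IsInt.sub (IsInt.add (int_fr m D) (IsInt.nsmul hH.int _)) (int_fr m G)) (dv_fr m (dG hG))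
        (fun P => ⟨Int.fract_nonneg _, Int.fract_lt_one _⟩) aL
      have := ((hcp N K M hM).2 hc).1
        ((m : ℝ) • D + (κ + ((n : ℝ) + 1) • H + ((k + 1 : ℕ) : ℝ) • H))
      have e5 := (h0_mono (M := M) (D := κ + ((n : ℝ) + 1) • H + L) fun P => by
        have a1 := Int.fract_nonneg (m * D P)
        have a2 : (0 : ℝ) ≤ ⌊m * G P⌋ := by
          exact_mod_cast Int.floor_nonneg.2 (mul_nonneg m.cast_nonneg (hG.1 P))
        have a3 := Int.self_sub_fract (m * G P)
        simp only [hLd, Finsupp.add_apply, Finsupp.sub_apply, Finsupp.smul_apply, smul_eq_mul,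
          fr_apply]
        linarith).trans (h3 m)
      rw [e1]
      exact e3.trans (e4.trans (Nat.cast_le.2 e5))
  have dν : M.Dv ν := fun P hP =>
    let ⟨_, _, _, hG, k⟩ := h6 1 one_pos 0
    dG hG P (k P hP).1
  refine ⟨ν, dν, h4, fun B b1 b2 => ?_, by rw [map_sub, ← lin_sum _ ν, h5, sub_self]⟩
  have b3 := hP.smul _ _ one_half_pos b2
  obtain ⟨η, hη, b4⟩ := amp_small hP b3 ν.support.finite_toSet
  obtain ⟨l₀, b5⟩ := eventually_atTop.1 ((tendsto_one_div_add_atTop_nhds_zero_nat (𝕜 := ℝ)).eventually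
    (amp_ev hP b3 (-H)))
  obtain ⟨l, hl, G, hG, b6⟩ := h6 η hη l₀
  have b7 : M.Dv (ν ⊓ G) := dv_iff.2 fun P hP => by
    rw [Finsupp.inf_apply, dv_iff.1 dν P hP, dv_iff.1 (dG hG) P hP, inf_idem]
  have b8 := b4 (ν ⊓ G - ν) (fun P hP => by
      by_contra k
      have k' := Finsupp.notMem_support_iff.1 k
      exact Finsupp.mem_support_iff.1 hP (by
        rw [Finsupp.sub_apply, Finsupp.inf_apply, k', sub_zero]; exact inf_eq_left.2 (hG.1 P)))
    fun P => by
      rw [Finsupp.sub_apply, Finsupp.inf_apply, abs_sub_comm,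
        abs_of_nonneg (sub_nonneg.2 inf_le_left), sub_le_comm]
      refine le_inf (sub_le_self _ hη.le) ?_
      by_cases k : P ∈ ν.support
      · exact (b6 P k).2
      · rw [Finsupp.notMem_support_iff.1 k]
        exact (sub_nonpos.2 hη.le).trans (hG.1 P)
  refine ((eff _ (dv_add (dv_add (dv_smul b1 _) (dv_smul (dv_neg hH.dv) _))
    (dv_add (dv_smul b1 _) (dv_sub b7 dν))) (hP.add _ _ (b5 l hl) b8)).add
      (eff_of_nonneg (sub_nonneg.2 (inf_le_right (a := ν) (b := G))))).congr ?_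
  have e : D - ν + B - ((1 / 2 : ℝ) • B + (1 / ((l : ℝ) + 1)) • -H +
      ((1 / 2 : ℝ) • B + (ν ⊓ G - ν)) + (G - ν ⊓ G)) = -(G - (D + (1 / ((l : ℝ) + 1)) • H)) := by
    module
  exact e ▸ neg_mem hG.2

end Vale.Agent.P277Z.F5
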