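import Vale.Agent.P277Z.F5.Sk

/-!
# P277Z, non-vanishing: intersection numbers (rows DEG, DRS, DNN)
-/

set_option linter.all false

open Set Filter Topology
open Vale.Agent.P297 (Place)

noncomputable section

namespace Vale.Agent.P277Z.F5

open FI

namespace Dg

section comb

variable {G : Type} [AddCommGroup G] {n : ℕ}

/-- the iterated difference -/
def df (a : Fin n → G) (F : G → ℤ) (L : G) : ℤ :=
  ∑ J : Finset (Fin n), (-1 : ℤ) ^ (n - J.card) * F (L + ∑ i ∈ J, a i)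

/-- the elements of the group in the group ring -/
def x (g : G) : AddMonoidAlgebra ℤ G := AddMonoidAlgebra.single g 1

theorem x_add (g h : G) : x (g + h) = x g * x h := by
  rw [x, x, x, AddMonoidAlgebra.single_mul_single, one_mul]

theorem x_sum {ι : Type} (s : Finset ι) (a : ι → G) : x (∑ i ∈ s, a i) = ∏ i ∈ s, x (a i) := by
  classical
  induction s using Finset.induction_on with
  | empty => rfl
  | insert i s hi ih => rw [Finset.sum_insert hi, Finset.prod_insert hi, x_add, ih]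

/-- evaluation -/
def ev (F : G → ℤ) : AddMonoidAlgebra ℤ G →+ ℤ :=
  AddMonoidAlgebra.liftNC (AddMonoidHom.id ℤ) fun g => F g.toAdd

theorem ev_x (F : G → ℤ) (g : G) : ev F (x g) = F g := by
  rw [ev, x, AddMonoidAlgebra.liftNC_single]
  simp

theorem df_eq (a : Fin n → G) (F : G → ℤ) (L : G) :
    df a F L = ev F (x L * ∏ i, (x (a i) - 1)) := by
  simp only [sub_eq_add_neg]
  rw [Finset.prod_add, Finset.mul_sum, map_sum, Finset.powerset_univ, df]
  refine Finset.sum_congr rfl fun J _ => ?_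
  rw [Finset.prod_const, Finset.card_univ_diff, Fintype.card_fin, ← x_sum, ← mul_assoc, ← x_add]
  have h : x (L + ∑ i ∈ J, a i) * (-1) ^ (n - J.card) =
      ((-1 : ℤ) ^ (n - J.card)) • x (L + ∑ i ∈ J, a i) := by
    rw [zsmul_eq_mul, mul_comm]
    push_cast
    rfl
  rw [h, map_zsmul, ev_x, smul_eq_mul]

theorem df_cons (b : G) (a : Fin n → G) (F : G → ℤ) (L : G) :
    df (Fin.cons b a : Fin (n + 1) → G) F L = df a F (L + b) - df a F L := by
  rw [df_eq, df_eq, df_eq, Fin.prod_univ_succ, ← map_sub, x_add]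
  congr 1
  simp only [Fin.cons_zero, Fin.cons_succ]
  ring

theorem df_perm (σ : Equiv.Perm (Fin n)) (a : Fin n → G) (F : G → ℤ) (L : G) :
    df (fun i => a (σ i)) F L = df a F L := by
  rw [df_eq, df_eq, Equiv.prod_comp σ fun i => x (a i) - 1]

theorem df_per {a c : Fin n → G} {F : G → ℤ} (h : ∀ i g, F (g + c i) = F g) (L : G) :
    df (fun i => a i + c i) F L = df a F L := by
  classical
  refine Finset.sum_congr rfl fun J _ => ?_
  rw [Finset.sum_add_distrib, ← add_assoc]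
  congr 1
  generalize L + ∑ i ∈ J, a i = g
  induction J using Finset.induction_on with
  | empty => simp
  | insert i s hi ih => rw [Finset.sum_insert hi, add_comm (c i), ← add_assoc, h, ih (Finset.mem_univ _)]

theorem df_sign (a : Fin n → G) (F : G → ℤ) (L : G) :
    df a F L = (-1) ^ n * ∑ J : Finset (Fin n), (-1 : ℤ) ^ J.card * F (L + ∑ i ∈ J, a i) := by
  rw [Finset.mul_sum]
  refine Finset.sum_congr rfl fun J _ => ?_
  have h1 : J.card ≤ n := by simpa using J.card_le_univ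
  have h2 : (-1 : ℤ) ^ n = (-1) ^ (n - J.card) * (-1) ^ J.card := by
    rw [← pow_add, Nat.sub_add_cancel h1]
  rw [h2, mul_assoc, ← mul_assoc ((-1 : ℤ) ^ J.card), ← mul_pow]
  simp

theorem sum_cons {p : G → Prop} (b : G) (a : Fin n → G)
    (h : ∀ J : Finset (Fin n), p (∑ i ∈ J, a i) ∧ p (b + ∑ i ∈ J, a i)) (J : Finset (Fin (n + 1))) :
    p (∑ i ∈ J, (Fin.cons b a : Fin (n + 1) → G) i) := by
  classical
  have h1 : ∑ i ∈ J, (Fin.cons b a : Fin (n + 1) → G) i = (if 0 ∈ J then b else 0) +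
      ∑ i ∈ Finset.univ.filter fun i : Fin n => i.succ ∈ J, a i := by
    rw [← Finset.sum_ite_mem_eq, Fin.sum_univ_succ, Finset.sum_filter]
    simp
  rw [h1]
  split_ifs
  · exact (h _).2
  · rw [zero_add]; exact (h _).1

end comb

variable {n N : ℕ} {K : Type} [Field K] [Algebra ℂ K] {M : Mdl n N K}

/-- `h⁰` as an integer -/
def hz (M : Mdl n N K) (L : Div K) : ℤ := h0 M L

/-- integral divisors on the model -/
def Gd (M : Mdl n N K) : AddSubgroup (Div K) where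
  carrier := {D | M.Dv D ∧ IsInt D}
  add_mem' h h' := ⟨dv_add h.1 h'.1, IsInt.add h.2 h'.2⟩
  zero_mem' := ⟨dv_zero, IsInt.zero⟩
  neg_mem' h := ⟨by simpa using dv_smul h.1 (-1), IsInt.neg h.2⟩

theorem gd_single {P : Place K} (h : M.Pr P) : Finsupp.single P (1 : ℝ) ∈ Gd M :=
  ⟨dv_single h 1, IsInt.single P⟩

theorem gd_div (hL : Loc M) (f : K) : M.div f ∈ Gd M := ⟨dv_div f, int_div hL f⟩

theorem gd_cons {k : ℕ} {b : Div K} {a : Fin k → Div K} (hb : b ∈ Gd M) (ha : ∀ i, a i ∈ Gd M) :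
    ∀ i, (Fin.cons b a : Fin (k + 1) → Div K) i ∈ Gd M := Fin.cases hb ha

theorem h0_div (hL : Loc M) (L : Div K) {f : K} (hf : f ≠ 0) : h0 M (L + M.div f) = h0 M L := by
  let e : K ≃ₗ[ℂ] K := (LinearEquiv.smulOfNeZero K K f hf).restrictScalars ℂ
  have h : ((M.H0 (L + M.div f)).restrictScalars ℂ).map (e : K →ₗ[ℂ] K) =
      (M.H0 L).restrictScalars ℂ := by
    ext g
    constructor
    · rintro ⟨u, hu, rfl⟩
      have := mul_zpow_mem hL (D := L + M.div f) hu hf 1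
      simpa [e, mul_comm] using this
    · intro hg
      have := mul_zpow_mem hL (D := L) hg hf (-1)
      exact ⟨g * f⁻¹, by simpa using this, by simp [e, mul_left_comm f, hf]⟩
  rw [h0, h0, ← h, LinearEquiv.finrank_map_eq]

theorem amp_ev (hP : Pos M) {A : Div K} (hA : M.Amp A) (D : Div K) :
    ∀ᶠ m : ℕ in atTop, M.Amp ((m : ℝ) • A + D) := by
  obtain ⟨ε, hε, h⟩ := hP.opn A D hA
  have h1 := hP.smul _ ε⁻¹ (inv_pos.2 hε) h
  rw [smul_add, smul_smul, inv_mul_cancel₀ hε.ne', one_smul] at h1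
  filter_upwards [tendsto_natCast_atTop_atTop.eventually_gt_atTop ε⁻¹] with m hm
  have h2 := hP.add _ _ (hP.smul A (m - ε⁻¹) (sub_pos.2 hm) hA) h1
  rwa [← add_assoc, ← add_smul, sub_add_cancel] at h2

/-- `L` is deep in the ample cone -/
def Dp (M : Mdl n N K) (κ B : Div K) {k : ℕ} (a : Fin k → Div K) (L : Div K) : Prop :=
  ∀ J : Finset (Fin k), M.Amp (L + ∑ i ∈ J, a i - κ - B)

theorem dp_ev (hP : Pos M) {A : Div K} (hA : M.Amp A) (κ B E : Div K) {k : ℕ} (a : Fin k → Div K) :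
    ∀ᶠ m : ℕ in atTop, Dp M κ B a ((m : ℝ) • A + E) :=
  eventually_all.2 fun J => (amp_ev hP hA (E + ∑ i ∈ J, a i - κ - B)).mono fun m hm => by
    have e : (m : ℝ) • A + E + ∑ i ∈ J, a i - κ - B = (m : ℝ) • A + (E + ∑ i ∈ J, a i - κ - B) := by
      abel
    rwa [e]

/-- what is used about a compact model -/
structure Ok (M : Mdl n N K) : Prop where
  loc : Loc M
  pos : Pos M
  poly : ∀ (κ B L : Div K) (T : Set (Place K)) (a : Fin (n + 1) → Div K), Lg M κ T → Bd1 T B →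
    L ∈ Gd M → (∀ i, a i ∈ Gd M) → Dp M κ B a L → df a (hz M) L = 0

theorem ok_of (h : Tb) (hP : ∀ n, POLY n) (hM : M.Proj) (hc : Cpt M) : Ok M :=
  ⟨h.box.loc n N K M hM, h.box.pos n N K M hM, fun κ B L T a h1 h2 h3 h4 h5 => by
    rw [df_sign]
    exact mul_eq_zero_of_right _ (hP n N K M hM hc κ B L T a h1 h2 h3.1 h3.2 h4 h5)⟩

theorem bd1_zero (T : Set (Place K)) : Bd1 T 0 := ⟨by simp, fun _ => ⟨le_rfl, zero_le_one⟩⟩

theorem exists_can (hL : Loc M) : ∃ κ, IsCan M κ := by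
  obtain ⟨x, hx⟩ := M.conn.nonempty
  obtain ⟨t, ht⟩ := hL.coord ⟨x, hx⟩
  obtain ⟨κ, h, -⟩ := can_coord hL ht
  exact ⟨κ, isCan_of hL h⟩

theorem snc_empty (hL : Loc M) : M.Snc ∅ :=
  ⟨fun _ h => h.elim, fun x => (hL.coord x).imp fun _ ht => ⟨ht, fun _ h => h.elim⟩⟩

theorem Ok.indep (h : Ok M) {κ B L L' : Div K} {T : Set (Place K)} {a : Fin n → Div K}
    (h1 : Lg M κ T) (h2 : Bd1 T B) (hL : L ∈ Gd M) (hL' : L' ∈ Gd M) (ha : ∀ i, a i ∈ Gd M)
    (hd : Dp M κ B a L) (hd' : Dp M κ B a L') : df a (hz M) L' = df a (hz M) L := by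
  have key := h.poly κ B L T (Fin.cons (L' - L) a) h1 h2 hL (gd_cons (sub_mem hL' hL) ha)
    (sum_cons (p := fun s => M.Amp (L + s - κ - B)) _ _ fun J => ⟨hd J, by
      have := hd' J
      rwa [← add_assoc, add_sub_cancel]⟩)
  rw [df_cons, add_sub_cancel] at key
  exact sub_eq_zero.1 key

/-- the intersection number -/
def I (M : Mdl n N K) (a : Fin n → Div K) : ℤ := Classical.epsilon (IsI M a)

theorem Ok.isI (h : Ok M) {a : Fin n → Div K} (ha : ∀ i, a i ∈ Gd M) : IsI M a (I M a) := by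
  refine Classical.epsilon_spec (p := IsI M a) ?_
  obtain ⟨κ, hκ⟩ := exists_can h.loc
  obtain ⟨A, hA1, hA2, hA⟩ := h.pos.ex
  have hg : ∀ m : ℕ, (m : ℝ) • A + 0 ∈ Gd M := fun m =>
    add_mem ⟨dv_smul hA1 _, IsInt.nsmul hA2 m⟩ (zero_mem _)
  obtain ⟨m, hm⟩ := (dp_ev h.pos hA κ 0 0 a).exists
  refine ⟨df a (hz M) ((m : ℝ) • A + 0), fun κ' B L T h1 h2 h3 h4 h5 => ?_⟩
  obtain ⟨m', k1, k2⟩ := ((dp_ev h.pos hA κ 0 0 a).and (dp_ev h.pos hA κ' B 0 a)).exists
  exact (h.indep h1 h2 (hg m') ⟨h3, h4⟩ ha k2 h5).trans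
    (h.indep ⟨hκ, finite_empty, snc_empty h.loc⟩ (bd1_zero _) (hg m) (hg m') ha hm k1)

/-- the intersection number is the eventual value of the difference -/
theorem Ok.ev (h : Ok M) {a : Fin n → Div K} (ha : ∀ i, a i ∈ Gd M) {A E : Div K} (hA : A ∈ Gd M)
    (hA' : M.Amp A) (hE : E ∈ Gd M) :
    ∀ᶠ m : ℕ in atTop, df a (hz M) ((m : ℝ) • A + E) = I M a := by
  obtain ⟨κ, hκ⟩ := exists_can h.loc
  filter_upwards [dp_ev h.pos hA' κ 0 E a] with m hm
  have hg : (m : ℝ) • A + E ∈ Gd M := add_mem ⟨dv_smul hA.1 _, IsInt.nsmul hA.2 m⟩ hE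
  exact h.isI ha κ 0 _ ∅ ⟨hκ, finite_empty, snc_empty h.loc⟩ (bd1_zero _) hg.1 hg.2 hm

theorem Ok.perm (h : Ok M) (σ : Equiv.Perm (Fin n)) {a : Fin n → Div K} (ha : ∀ i, a i ∈ Gd M) :
    I M (fun i => a (σ i)) = I M a := by
  obtain ⟨A, hA1, hA2, hA⟩ := h.pos.ex
  obtain ⟨m, k1, k2⟩ := ((h.ev ha ⟨hA1, hA2⟩ hA (zero_mem _)).and
    (h.ev (fun i => ha (σ i)) ⟨hA1, hA2⟩ hA (zero_mem _))).exists
  rw [← k1, ← k2, df_perm]

theorem Ok.per (h : Ok M) {a : Fin n → Div K} (ha : ∀ i, a i ∈ Gd M) {f : Fin n → K}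
    (hf : ∀ i, f i ≠ 0) : I M (fun i => a i + M.div (f i)) = I M a := by
  obtain ⟨A, hA1, hA2, hA⟩ := h.pos.ex
  obtain ⟨m, k1, k2⟩ := ((h.ev ha ⟨hA1, hA2⟩ hA (zero_mem _)).and
    (h.ev (fun i => add_mem (ha i) (gd_div h.loc (f i))) ⟨hA1, hA2⟩ hA (zero_mem _))).exists
  rw [← k1, ← k2, df_per]
  intro i g
  rw [hz, hz, h0_div h.loc g (hf i)]

section succ

variable {M : Mdl (n + 1) N K} {a : Fin n → Div K}

/-- additivity -/
def Ok.hom (h : Ok M) (ha : ∀ i, a i ∈ Gd M) : Gd M →+ ℤ :=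
  AddMonoidHom.mk' (fun D => I M (Fin.cons D.1 a)) fun b c => by
    obtain ⟨A, hA1, hA2, hA⟩ := h.pos.ex
    obtain ⟨m, k1, k2, k3⟩ := ((h.ev (gd_cons (b + c).2 ha) ⟨hA1, hA2⟩ hA (zero_mem _)).and
      ((h.ev (gd_cons b.2 ha) ⟨hA1, hA2⟩ hA c.2).and
      (h.ev (gd_cons c.2 ha) ⟨hA1, hA2⟩ hA (zero_mem _)))).exists
    rw [← k1, ← k2, ← k3, df_cons, df_cons, df_cons, add_zero, AddSubgroup.coe_add, add_comm b.1,
      add_assoc]
    ring

open Classical in
/-- the intersection number, for real divisors in the first place -/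
def dg (M : Mdl (n + 1) N K) (a : Fin n → Div K) : Div K →ₗ[ℝ] ℝ :=
  Finsupp.linearCombination ℝ fun P => if M.Pr P then (I M (Fin.cons (Finsupp.single P 1) a) : ℤ)
    else 0

theorem deg_eq (H : Div K) : deg M H = dg M fun _ => H := rfl

theorem dg_single {P : Place K} (hP : M.Pr P) :
    dg M a (Finsupp.single P 1) = I M (Fin.cons (Finsupp.single P 1) a) := by
  rw [dg, Finsupp.linearCombination_single, if_pos hP, one_smul]

theorem ext_dv {n : ℕ} {M : Mdl n N K} {φ ψ : Div K →ₗ[ℝ] ℝ}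
    (h : ∀ Q, M.Pr Q → φ (Finsupp.single Q 1) = ψ (Finsupp.single Q 1)) {D : Div K} (hD : M.Dv D) :
    φ D = ψ D := by
  rw [← Finsupp.sum_single D, Finsupp.sum, map_sum, map_sum]
  refine Finset.sum_congr rfl fun Q hQ => ?_
  rw [← mul_one (D Q), ← smul_eq_mul, ← Finsupp.smul_single, map_smul, map_smul, h Q (hD Q hQ)]

theorem Ok.dg_int (h : Ok M) (ha : ∀ i, a i ∈ Gd M) {D : Div K} (hD : D ∈ Gd M) :
    dg M a D = I M (Fin.cons D a) := by
  choose e he using hD.2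
  have h1 : (⟨D, hD⟩ : Gd M) = ∑ P ∈ D.support.attach,
      e P • (⟨Finsupp.single P.1 1, gd_single (hD.1 P.1 P.2)⟩ : Gd M) := by
    refine Subtype.ext ?_
    rw [AddSubgroup.val_finsetSum]
    show D = _
    conv_lhs => rw [← Finsupp.sum_single D, Finsupp.sum, ← Finset.sum_attach]
    refine Finset.sum_congr rfl fun P _ => ?_
    rw [AddSubgroup.coe_zsmul, Finsupp.smul_single, he, zsmul_one]
  have h2 : I M (Fin.cons D a) = h.hom ha ⟨D, hD⟩ := rfl
  rw [h2, h1, map_sum]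
  conv_lhs => rw [← Finsupp.sum_single D, Finsupp.sum, map_sum, ← Finset.sum_attach]
  push_cast
  refine Finset.sum_congr rfl fun P _ => ?_
  rw [← mul_one (D P), ← smul_eq_mul, ← Finsupp.smul_single, map_smul, dg_single (hD.1 P.1 P.2),
    map_zsmul, he, smul_eq_mul, smul_eq_mul, Int.cast_mul]
  rfl

theorem Ok.dg_pr (h : Ok M) (ha : ∀ i, a i ∈ Gd M) {D : Div K} (hD : D ∈ PrR M) : dg M a D = 0 := by
  refine (Submodule.span_le (p := LinearMap.ker (dg M a))).2 ?_ hD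
  rintro _ ⟨f, hf, rfl⟩
  have h1 := h.per (gd_cons (zero_mem _) ha) (f := Fin.cons f fun _ => 1)
    (Fin.cases hf fun _ => one_ne_zero)
  have h2 : (fun i => (Fin.cons 0 a : Fin (n + 1) → Div K) i +
      M.div ((Fin.cons f fun _ => 1 : Fin (n + 1) → K) i)) = Fin.cons (M.div f) a := by
    funext i
    refine Fin.cases ?_ (fun i => ?_) i <;> simp [div_one h.loc]
  have h3 : I M (Fin.cons 0 a) = 0 := (h.hom ha).map_zero
  show dg M a (M.div f) = 0
  rw [h.dg_int ha (gd_div h.loc f), ← h2, h1, h3, Int.cast_zero]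

theorem gd_r {P : Place K} (hL : Loc M) (u : SubM M P) {D : Div K} (hD : IsInt D) :
    u.r D ∈ Gd u.S := by
  refine ⟨dv_rs _ _, rs_int u.rst (nr_self u.ht D) ?_⟩
  obtain ⟨k, hk⟩ := hD P
  rw [nr_apply, hk]
  exact IsInt.sub hD (IsInt.zsmul (int_div hL _) k)

/-- restriction to a smooth prime divisor -/
theorem res (h : Tb) (hP : ∀ n, POLY n) (hE : EXS n) (hM : M.Proj) (hc : Cpt M) {P : Place K}
    (hs : M.Snc {P}) (u : SubM M P) (ha : ∀ i, a i ∈ Gd M) :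
    I M (Fin.cons (Finsupp.single P 1) a) = I u.S fun i => u.r (a i) := by
  have k := ok_of h hP hM hc
  obtain ⟨e1, -, e3, -, -, -, e7⟩ := hE N K M hM hc u.L u.S P u.s u.rst u.t u.ht u.proj hs
  have k' := ok_of h hP u.proj e1
  obtain ⟨κ, hκ⟩ := exists_can k.loc
  obtain ⟨⟨T', f1, f2⟩, f3⟩ := e7 κ ∅ 0 (notMem_empty P)
    ⟨hκ, (finite_empty).insert P, by simpa using hs⟩ (bd1_zero _)
  obtain ⟨A, hA1, hA2, hA⟩ := k.pos.ex
  have hp := gd_single (hs.1 P rfl)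
  obtain ⟨m, k1, k2⟩ := ((k.ev (gd_cons hp ha) ⟨hA1, hA2⟩ hA (zero_mem _)).and
    (dp_ev k.pos hA κ 0 0 a)).exists
  have hg : (m : ℝ) • A + 0 ∈ Gd M := add_mem ⟨dv_smul hA1 _, IsInt.nsmul hA2 m⟩ (zero_mem _)
  generalize (m : ℝ) • A + 0 = L at k1 k2 hg
  have hr := gd_r k.loc u (add_mem hg hp).2
  rw [← k1, ← k'.isI (fun i => gd_r k.loc u (ha i).2) _ _ (u.r (L + Finsupp.single P 1)) T' f1 f2
    hr.1 hr.2 fun J => ?_, df_cons, df, df, ← Finset.sum_sub_distrib]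
  · refine Finset.sum_congr rfl fun J _ => ?_
    have h1 : L + ∑ i ∈ J, a i ∈ Gd M := add_mem hg (sum_mem fun i _ => ha i)
    rw [← mul_sub, add_right_comm, hz, hz, f3 _ h1.1 h1.2 (k2 J), ← map_sum, ← map_add,
      add_right_comm L]
    push_cast
    rw [add_sub_cancel_left]
    rfl
  · have h1 := e3 _ (k2 J)
    have h2 : u.r (L + Finsupp.single P 1) + ∑ i ∈ J, u.r (a i) -
        rsn u.rst u.ht (κ + Finsupp.single P 1) - rsn u.rst u.ht 0 =
        rsn u.rst u.ht (L + ∑ i ∈ J, a i - κ - 0) := by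
      simp only [SubM.r, map_add, map_sub, map_sum]
      abel
    rwa [h2]

theorem exists_sub (h : Tb) (hM : M.Proj) {P : Place K} (hs : M.Snc {P}) : Nonempty (SubM M P) := by
  obtain ⟨L, _, _, S, hS, ⟨s⟩⟩ := h.box.sub n N K M hM P hs
  obtain ⟨x, t, ht⟩ := hs.1 P rfl
  exact ⟨⟨L, S, s, hS, h.box.rst n N K M hM L S P s hs, t, by
    rw [div_apply (h.box.loc _ N K M hM) t ⟨x, t, ht⟩, ht.ord, Int.cast_one]⟩⟩

end succ

end Dg

open Dg

theorem deg_of (h : Tb) (hP : ∀ n, POLY n) (hE : ∀ n, EXS n) (hC : ∀ n, CP n) (n : ℕ) : DEG n := by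
  intro N K _ _ M hM hc H hH hH'
  have k := ok_of h hP hM hc
  have ha : ∀ _ : Fin n, H ∈ Gd M := fun _ => ⟨hH, hH'⟩
  refine ⟨fun D h1 h2 => ⟨_, k.dg_int ha ⟨h1, h2⟩, k.isI (gd_cons ⟨h1, h2⟩ ha)⟩,
    fun D hD => k.dg_pr ha hD, fun f hf => ?_, fun hn P hp => ?_⟩
  · rw [deg_eq, deg_eq, dg, dg]
    congr 1
    funext P
    split_ifs with hp
    · have h1 := k.per (gd_cons (gd_single hp) ha) (f := Fin.cons 1 fun _ => f)
        (Fin.cases one_ne_zero fun _ => hf)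
      rw [← h1]
      congr 2
      funext i
      refine Fin.cases ?_ (fun i => ?_) i <;> simp [div_one k.loc]
    · rfl
  · subst hn
    have hs := (((hC 1 N K M hM).2 hc).2.2.2.2 rfl) {P} (by rintro _ rfl; exact hp)
    obtain ⟨u⟩ := exists_sub h hM hs
    have e1 := (hE 0 N K M hM hc u.L u.S P u.s u.rst u.t u.ht u.proj hs).1
    have k' := ok_of h hP u.proj e1
    obtain ⟨A, hA1, hA2, hA⟩ := k'.pos.ex
    obtain ⟨m, k1⟩ := (k'.ev (a := fun _ => u.r H) (fun i => i.elim0) ⟨hA1, hA2⟩ hA (zero_mem _)).exists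
    rw [deg_eq, dg_single hp, res h hP (hE 0) hM hc hs u ha, ← k1, df]
    simp [hz, ((hC 0 N u.L u.S u.proj).2 e1).2.2.1 rfl]

theorem drs_of (h : Tb) (hP : ∀ n, POLY n) (hE : ∀ n, EXS n) (n : ℕ) : DRS n := by
  intro N K _ _ M hM hc H k Y u hH hH' hY hpr D hD
  have ok := ok_of h hP hM hc
  have hg : H ∈ Gd M := ⟨hH, hH'⟩
  refine (?_ : _ = (∑ P : Y, deg (u P).S ((u P).r H) ∘ₗ (u P).r) D).trans
    (ext_dv (ψ := (k : ℝ) • deg M H) (fun Q hQ => ?_) hD)
  · rw [LinearMap.sum_apply]; rfl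
  have hq := gd_single hQ
  have ha := gd_cons hq fun _ : Fin n => hg
  have h1 : ∀ P : Y, (deg (u P).S ((u P).r H) ∘ₗ (u P).r) (Finsupp.single Q 1) =
      dg M (Fin.cons (Finsupp.single Q 1) fun _ => H) (Finsupp.single P.1 1) := by
    intro P
    have hs := hY P.1 P.2
    have e1 := (hE (n + 1) N K M hM hc _ _ _ (u P).s (u P).rst _ (u P).ht (u P).proj hs).1
    rw [LinearMap.comp_apply, deg_eq, (ok_of h hP (u P).proj e1).dg_int
      (fun _ => gd_r ok.loc _ hH') (gd_r ok.loc _ hq.2), dg_single (hs.1 _ rfl),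
      res h hP (hE (n + 1)) hM hc hs (u P) ha]
    congr 2
    funext i
    refine Fin.cases rfl (fun i => rfl) i
  have h2 := ok.dg_pr ha hpr
  rw [map_sub, map_sum, map_smul, sub_eq_zero, ok.dg_int ha hg] at h2
  rw [LinearMap.sum_apply, Finset.sum_congr rfl fun P _ => h1 P, Finset.sum_coe_sort Y
    fun P => dg M (Fin.cons (Finsupp.single Q 1) fun _ => H) (Finsupp.single P 1), h2,
    LinearMap.smul_apply, deg_eq, dg_single hQ, ← ok.perm (Equiv.swap 0 1) (gd_cons hg ha)]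
  congr 3
  funext i
  refine Fin.cases rfl (fun i => Fin.cases rfl (fun i => ?_) i) i
  rw [Equiv.swap_apply_of_ne_of_ne (Fin.succ_ne_zero _) (Fin.succ_succ_ne_one _)]
  rfl

theorem dnn_of (h : Tb) (hP : ∀ n, POLY n) (hE : ∀ n, EXS n) (hC : ∀ n, CP n) (hB : ∀ n, BT n)
    (n : ℕ) : DNN n := by
  have red : ∀ n, (ForM (n + 1) fun _ K _ _ M => Cpt M → ∀ H : Div K, Pol M H → ∀ Q, M.Pr Q →
      0 ≤ deg M H (Finsupp.single Q 1)) → DNN n := by
    intro n hn N K _ _ M hM hc H hH G hG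
    rw [← Finsupp.sum_single G, Finsupp.sum, map_sum]
    refine Finset.sum_nonneg fun Q _ => ?_
    rw [← mul_one (G Q), ← smul_eq_mul, ← Finsupp.smul_single, map_smul]
    refine mul_nonneg (hG Q) ?_
    by_cases hQ : M.Pr Q
    · exact hn N K M hM hc H hH Q hQ
    · rw [deg, Finsupp.linearCombination_single, if_neg hQ, smul_zero]
  induction n with
  | zero =>
    refine red 0 fun N K _ _ M hM hc H hH Q hQ => ?_
    rw [(deg_of h hP hE hC 0 N K M hM hc H hH.dv hH.int).2.2.2 rfl Q hQ]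
    exact zero_le_one
  | succ n ih =>
    refine red (n + 1) fun N K _ _ M hM hc H hH Q hQ => ?_
    have hL := h.box.loc _ N K M hM
    obtain ⟨f, Y, hf, e1, -, -, e2, e3, -⟩ := hB _ N K M hM M (Mod.refl M) ∅ ∅ {Q} H hM finite_empty
      (snc_empty hL) finite_empty (snc_empty hL) (fun _ h => h.2 h.1) (finite_singleton Q) hH.dv
      hH.int hH.free
    have hY : ∀ P ∈ Y, M.Snc {P} := fun P hP => snc_mono e3 (by simpa using hP)
    let u : ∀ P : Y, SubM M P := fun P => (exists_sub h hM (hY P.1 P.2)).some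
    have key := drs_of h hP hE n N K M hM hc H 1 Y u hH.dv hH.int hY
      (Submodule.subset_span ⟨f, hf, by rw [← e1]; simp⟩) _ (dv_single hQ 1)
    rw [Nat.cast_one, one_mul] at key
    rw [← key]
    refine Finset.sum_nonneg fun P _ => ?_
    obtain ⟨k1, -, k3, -, k5, -⟩ :=
      hE (n + 1) N K M hM hc _ _ _ (u P).s (u P).rst _ (u P).ht (u P).proj (hY P.1 P.2)
    have hr := gd_r hL (u P) hH.int
    refine ih N _ (u P).S (u P).proj k1 _ ⟨hr.1, hr.2, k3 H hH.amp, k5 H hH.int hH.free⟩ _ ?_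
    have h0 : (Finsupp.single Q (1 : ℝ)) P.1 = 0 := Finsupp.single_eq_of_ne fun e =>
      disjoint_left.1 e2 (Finset.mem_coe.2 P.2) e
    have h1 := (u P).rst.sec _ h0 1 (one_mem_H0 (Finsupp.single_nonneg.2 zero_le_one))
    rw [res_one] at h1
    have h2 := div_add_nonneg (h.box.loc _ N _ (u P).S (u P).proj) (dv_rs _ _) h1 one_ne_zero
    rw [div_one (h.box.loc _ N _ (u P).S (u P).proj), zero_add] at h2
    rwa [SubM.r, rsn_of_zero _ _ h0]

end Vale.Agent.P277Z.F5
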