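import Vale.Agent.P277Z.F5.Sk
import Vale.Agent.P277Z.FI.Res1

/-!
# P277Z, non-vanishing: exceptional divisors of the restriction of a modification
-/

set_option linter.all false

open Set
open Vale.Agent.P297 (Place)

noncomputable section

namespace Vale.Agent.P277Z.F5

open FI

variable {n N : ℕ} {K L : Type} [Field K] [Algebra ℂ K] [Field L] [Algebra ℂ L]
  {M M' : Mdl (n + 1) N K} {S S' : Mdl n N L} {P : Place K} {m : Mod M' M} {m' : Mod S' S}
  {s : Sub S M P} {s' : Sub S' M' P}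

theorem xr_nonneg (hR : Rst s) {D : Div K} (h0 : 0 ≤ D) (hD : D P = 0) : 0 ≤ s.rs D := fun Q => by
  by_cases hQ : S.Pr Q
  · have h := hR.sec D hD 1 (one_mem_H0 h0)
    rw [res_one] at h
    simpa using h.resolve_left one_ne_zero Q hQ
  · exact (dv_iff.1 (dv_rs s D) Q hQ).ge

theorem xr_sum (hR : Rst s) {D : Div K} (hD : D P = 0) :
    s.rs D = ∑ E ∈ D.support, D E • s.rs (Finsupp.single E 1) := by
  have h : ∀ T : Finset (Place K), P ∉ T → (∑ E ∈ T, D E • Finsupp.single E (1 : ℝ)) P = 0 ∧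
      s.rs (∑ E ∈ T, D E • Finsupp.single E 1) = ∑ E ∈ T, D E • s.rs (Finsupp.single E 1) := by
    classical
    intro T
    induction T using Finset.induction_on with
    | empty => exact fun _ => ⟨rfl, by simpa using rs_smul hR 0 (D := 0) rfl⟩
    | insert E T hE ih =>
      intro hP
      have h1 := ih fun k => hP (Finset.mem_insert_of_mem k)
      have h2 : Finsupp.single E (1 : ℝ) P = 0 :=
        Finsupp.single_eq_of_ne fun e => hP (e ▸ Finset.mem_insert_self _ _)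
      have h3 : (D E • Finsupp.single E (1 : ℝ)) P = 0 := by rw [Finsupp.smul_apply, h2, smul_zero]
      rw [Finset.sum_insert hE, Finset.sum_insert hE, rs_add hR h3 h1.1, rs_smul hR _ h2, h1.2,
        Finsupp.add_apply, h3, h1.1, add_zero]
      exact ⟨rfl, rfl⟩
  rw [← (h _ (Finsupp.notMem_support_iff.2 hD)).2]
  simp only [Finsupp.smul_single, smul_eq_mul, mul_one]
  exact congrArg _ D.sum_single.symm

/-- adjunction for the relative canonical divisor -/
theorem exc_rel (hL : Loc M) (hL' : Loc M') (kL : Loc S) (kL' : Loc S') (hB : Bir M' M m)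
    (kB : Bir S' S m') (hR : Rst s) (hR' : Rst s') (hP : M.Snc {P}) (e1 : s'.res = s.res)
    (e2 : ∀ D, D P = 0 → s'.rs (M.pull M' D) = S.pull S' (s.rs D))
    (e3 : M.pull M' (Finsupp.single P 1) = Finsupp.single P 1) :
    ∃ Z : Div K, 0 ≤ Z ∧ (Z.support : Set (Place K)) = Exc M' M ∧
      ((s'.rs Z).support : Set (Place L)) = Exc S' S := by
  obtain ⟨y, hy⟩ := S.conn.nonempty
  obtain ⟨t, h1, h2⟩ := hP.2 (ip s ⟨y, hy⟩)
  obtain ⟨k, hk⟩ := h2 P rfl (on_ip s _)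
  obtain ⟨g, h3, hk'⟩ : ∃ g, M.Coord (ip s ⟨y, hy⟩) g ∧ M.Gn (ip s ⟨y, hy⟩) P (g 0) :=
    ⟨_, coord_perm h1 (Equiv.swap 0 k), by rwa [Equiv.swap_apply_left]⟩
  obtain ⟨κ, h4, -⟩ := can_coord hL h3
  obtain ⟨κS, h5, -⟩ := can_coord kL (s.coord ⟨y, hy⟩ g 0 h3 hk')
  obtain ⟨κ', h6⟩ := exists_can' hL hL' (jmd _) m h4
  obtain ⟨κS', h7⟩ := exists_can' kL kL' (jmd _) m' h5
  have hg := fun i : Fin n => hk'.le _ (h3.1 i.succ).1
  obtain ⟨a1, a2⟩ := hR.adj g κ κS hk'.ord hg h4 h5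
  obtain ⟨a3, a4⟩ := hR'.adj g κ' κS' hk'.ord hg h6 (e1 ▸ h7)
  have a5 : (κ + Finsupp.single P 1 - M.div (g 0) : Div K) P = 0 := by
    simp [a1, div_apply hL _ (pr_sub s), hk'.ord]
  have a6 : κ' + Finsupp.single P 1 - M'.div (g 0) =
      κ' - M.pull M' κ + M.pull M' (κ + Finsupp.single P 1 - M.div (g 0)) := by
    rw [← pl_apply hB (_ - _), map_sub, map_add, pl_apply, pl_apply, pl_apply, e3,
      pull_div hL hL' hB (gn_ne hk')]
    abel
  refine ⟨_, (hB.can g κ κ' h4 h6).1, (hB.can g κ κ' h4 h6).2, ?_⟩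
  rw [a6, rs_add hR' (by simp [a1, a3, pull_pr hL hB (pr_sub s)])
    ((pull_pr hL hB (pr_sub s) _).trans a5), e2 _ a5, ← a2] at a4
  rw [← (kB.can _ κS κS' h5 h7).2, a4, add_sub_cancel_right]

/-- the exceptional primes of `S' → S` are the components of the exceptional primes of `M' → M` -/
theorem exc_rs (hL : Loc M) (hL' : Loc M') (kL : Loc S) (kL' : Loc S') (hB : Bir M' M m)
    (kB : Bir S' S m') (hR : Rst s) (hR' : Rst s') (hP : M.Snc {P}) (e1 : s'.res = s.res)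
    (e2 : ∀ D, D P = 0 → s'.rs (M.pull M' D) = S.pull S' (s.rs D))
    (e3 : M.pull M' (Finsupp.single P 1) = Finsupp.single P 1) (Q : Place L) :
    Q ∈ Exc S' S ↔ ∃ E ∈ Exc M' M, s'.rs (Finsupp.single E 1) Q ≠ 0 := by
  obtain ⟨Z, h1, h2, h3⟩ := exc_rel hL hL' kL kL' hB kB hR hR' hP e1 e2 e3
  have h4 : P ∉ Z.support := fun h => (h2.subset h).2 (pr_sub s)
  rw [← h3, ← h2, Finset.mem_coe, Finsupp.mem_support_iff,
    xr_sum hR' (Finsupp.notMem_support_iff.1 h4), Finsupp.finset_sum_apply, Ne]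
  simp only [Finsupp.smul_apply, smul_eq_mul]
  rw [Finset.sum_eq_zero_iff_of_nonneg fun E hE => mul_nonneg (h1 E) (xr_nonneg hR'
      (Finsupp.single_nonneg.2 zero_le_one) (Finsupp.single_eq_of_ne fun e => h4 (e ▸ hE)) Q)]
  simp only [not_forall, mul_eq_zero, not_or]
  exact ⟨fun ⟨E, a, _, c⟩ => ⟨E, a, c⟩, fun ⟨E, a, c⟩ => ⟨E, a, Finsupp.mem_support_iff.1 a, c⟩⟩

/-- restrictions of exceptional divisors are exceptional -/
theorem exc_supp (hL : Loc M) (hL' : Loc M') (kL : Loc S) (kL' : Loc S') (hB : Bir M' M m)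
    (kB : Bir S' S m') (hR : Rst s) (hR' : Rst s') (hP : M.Snc {P}) (e1 : s'.res = s.res)
    (e2 : ∀ D, D P = 0 → s'.rs (M.pull M' D) = S.pull S' (s.rs D))
    (e3 : M.pull M' (Finsupp.single P 1) = Finsupp.single P 1) {D : Div K}
    (hD : (D.support : Set (Place K)) ⊆ Exc M' M) :
    ((s'.rs D).support : Set (Place L)) ⊆ Exc S' S := fun Q hQ => by
  have h4 : P ∉ D.support := fun h => (hD h).2 (pr_sub s)
  rw [Finset.mem_coe, Finsupp.mem_support_iff, xr_sum hR' (Finsupp.notMem_support_iff.1 h4),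
    Finsupp.finset_sum_apply] at hQ
  obtain ⟨E, a, b⟩ := Finset.exists_ne_zero_of_sum_ne_zero hQ
  exact (exc_rs hL hL' kL kL' hB kB hR hR' hP e1 e2 e3 Q).2 ⟨E, hD a, right_ne_zero_of_smul b⟩

end Vale.Agent.P277Z.F5
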