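import Vale.Agent.P277Z.F5.Ar
import Vale.Agent.P277Z.F5.Deg
import Vale.Agent.P277Z.F5.Excr

/-!
# P277Z, non-vanishing: counting sections on a general complete intersection curve
-/

set_option linter.all false

open Set Filter Topology
open Vale.Agent.P297 (Place)
open Vale.Agent.P297Z.Pl

noncomputable section

namespace Vale.Agent.P277Z.F5

open FI Dg

namespace Cn

/-- the statement for pairs of models -/
def CNP (n : ℕ) : Prop := ForM (n + 1) fun N K _ _ M => Cpt M → ∀ (M' : Mdl (n + 1) N K)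
  (_ : Mod M' M) (H κ B L : Div K) (T : Set (Place K)), M'.Proj → Pol M H → Lg M' κ T →
  Exc M' M ⊆ T → Bd1 T B → M'.Dv L → IsInt L → M'.Amp (L - B) →
  deg M H (M.tr L) ≤ h0 M' (κ + ((n : ℝ) + 1) • M.pull M' H + L)

variable {n N : ℕ} {K : Type} [Field K] [Algebra ℂ K]

/-- the reduced divisor of a finite set of primes -/
def rd (Y : Finset (Place K)) : Div K := ∑ P ∈ Y, Finsupp.single P 1

open Classical in
theorem rd_apply (Y : Finset (Place K)) (Q : Place K) : rd Y Q = if Q ∈ Y then 1 else 0 := by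
  simp [rd, Finsupp.finset_sum_apply, Finsupp.single_apply]

theorem rd_nonneg (Y : Finset (Place K)) : 0 ≤ rd Y :=
  Finset.sum_nonneg fun _ _ => Finsupp.single_nonneg.2 zero_le_one

theorem single_le_rd {Y : Finset (Place K)} {P : Place K} (h : P ∈ Y) :
    Finsupp.single P 1 ≤ rd Y :=
  Finset.single_le_sum (f := fun P => Finsupp.single P (1 : ℝ))
    (fun _ _ => Finsupp.single_nonneg.2 zero_le_one) h

theorem bd1_add {T : Set (Place K)} {B : Div K} (h : Bd1 T B) {Y : Finset (Place K)}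
    (hY : Disjoint (Y : Set (Place K)) T) : Bd1 (T ∪ Y) (B + rd Y) := by
  classical
  have k : ∀ Q, Q ∉ T → B Q = 0 := fun Q a => by_contra fun b => a (h.1 (Finsupp.mem_support_iff.2 b))
  refine ⟨fun Q hQ => by_contra fun a => Finsupp.mem_support_iff.1 hQ ?_, fun Q => ?_⟩
  · rw [Finsupp.add_apply, rd_apply, if_neg fun b : Q ∈ Y => a (Or.inr b), k Q fun b => a (Or.inl b),
      add_zero]
  · rw [Finsupp.add_apply, rd_apply]
    split_ifs with a
    · rw [k Q (disjoint_left.1 hY a), zero_add]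
      exact ⟨zero_le_one, le_rfl⟩
    · rw [add_zero]
      exact h.2 Q

/-- modifications of compact curves have no exceptional primes -/
theorem exc_zero (h : Tb) (hC : CP 1) {M M' : Mdl 1 N K} (hM : M.Proj) (hc : Cpt M) {m : Mod M' M}
    (hB : Bir M' M m) (Q : Place K) : Q ∉ Exc M' M := by
  rintro ⟨⟨y, hy⟩, hQ⟩
  have hL := h.box.loc _ N K M hM
  obtain ⟨t, h1, h2⟩ := (((hC N K M hM).2 hc).2.2.2.2 rfl {P | M.On (pt m y) P}
    fun P hP => ⟨_, hP⟩).2 (pt m y)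
  obtain ⟨P, p1, -⟩ := hL.van _ _ (h1.1 0).1 (h.box.co1 1 N K M hL _ t 0 h1).1 (h1.1 0).2
  have e : P = Q := eq_of_le' fun f hf => ct_pt hB hy f (hL.mem _ f fun R hR => by
    obtain ⟨i, hi⟩ := h2 P p1 p1
    obtain ⟨j, hj⟩ := h2 R hR hR
    rw [Subsingleton.elim j i] at hj
    rw [gn_unique hL hj hi]
    exact ord_nonneg_of_mem P hf)
  exact hQ ⟨_, e ▸ p1⟩

theorem isI_one {M : Mdl 1 N K} {D H κ B L : Div K} {T : Set (Place K)} {z : ℤ}
    (h : IsI M (Fin.cons D fun _ : Fin 0 => H) z) (h1 : Lg M κ T) (h2 : Bd1 T B) (h3 : L ∈ Gd M)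
    (h4 : M.Amp (L - κ - B)) (h5 : M.Amp (L + D - κ - B)) : (h0 M (L + D) : ℤ) - h0 M L = z := by
  have k := h κ B L T h1 h2 h3.1 h3.2 (sum_cons (p := fun s => M.Amp (L + s - κ - B)) _ _ fun J => by
    rw [Subsingleton.elim J ∅]
    simpa using ⟨h4, h5⟩)
  have e := df_cons D (fun _ : Fin 0 => H) (hz M) L
  rw [← k]
  refine Eq.symm (e.trans ?_)
  simp [df, hz, Subsingleton.elim (default : Finset (Fin 0)) ∅]

theorem zero (h : Tb) (hD : DEG 0) (hC : CP 1) : CNP 0 := by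
  intro N K _ _ M hM hc M' m H κ B L T hM' hH hκ _ hB h1 h2 h3
  have hL := h.box.loc _ N K M hM
  have hL' := h.box.loc _ N K M' hM'
  have hP' := h.box.pos _ N K M' hM'
  have b := h.box.bir _ N K M hM M' m hM'
  have x0 := exc_zero h hC hM hc b
  have pr : ∀ P, M'.Pr P → M.Pr P := fun P hP => by_contra fun a => x0 P ⟨hP, a⟩
  have dL : M.Dv L := fun P hP => pr P (h1 P hP)
  obtain ⟨E, e1, -, -, e2⟩ := b.amp
  obtain ⟨ε, -, e3⟩ := e2 H hH.amp
  rw [show E = 0 from Finsupp.ext fun Q => by_contra fun a =>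
    x0 Q (e1.subset (Finsupp.mem_support_iff.2 a)), smul_zero, sub_zero] at e3
  have g1 : M.pull M' H ∈ Gd M' := ⟨dv_pull H, pull_int b hH.int⟩
  generalize M.pull M' H = H' at e3 g1
  obtain ⟨d1, -, -, d2⟩ := hD N K M' hM' (cpt_mod m hc) H' g1.1 g1.2
  have e4 : deg M H L = deg M' H' L := ext_dv (fun Q hQ => by
    rw [(hD N K M hM hc H hH.dv hH.int).2.2.2 rfl Q hQ, d2 rfl Q (b.pr Q hQ)]) dL
  obtain ⟨k, hk⟩ := (Dg.amp_ev hP' e3 (H' + L)).exists
  have g2 : (k : ℝ) • H' ∈ Gd M' := ⟨dv_smul g1.1 _, IsInt.nsmul g1.2 k⟩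
  have g3 : M'.Nef ((k : ℝ) • H') := nef_smul hP' (nef_of_amp hP' e3) k.cast_nonneg
  generalize (k : ℝ) • H' = A at hk g2 g3
  have g4 : κ + H' ∈ Gd M' := add_mem ⟨hκ.can.dv, hκ.can.int hL'⟩ g1
  have g5 : L ∈ Gd M' := ⟨h1, h2⟩
  obtain ⟨z, z1, z2⟩ := d1 A g2.1 g2.2
  obtain ⟨w, w1, w2⟩ := d1 _ (add_mem g5 g2).1 (add_mem g5 g2).2
  have a0 := hP'.add _ _ e3 h3
  have a1 := isI_one z2 hκ hB (add_mem g4 g5) (by convert a0 using 1; abel)
    (by convert amp_add_nef a0 g3 using 1; abel)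
  have a2 := isI_one w2 hκ (bd1_zero T) g4 (by convert e3 using 1; abel)
    (by convert hk using 1; abel)
  rw [map_add, z1] at w1
  rw [← add_assoc] at a2
  rw [tr_of_dv dL, e4, Nat.cast_zero, zero_add (1 : ℝ), one_smul]
  have a3 : w - z ≤ h0 M' (κ + H' + L) := by omega
  have a4 := Int.cast_le (R := ℝ).2 a3
  push_cast at a4
  linarith

section res

variable {L' : Type} [Field L'] [Algebra ℂ L'] {S : Mdl n N L'} {M : Mdl (n + 1) N K} {P : Place K}
  {s : Sub S M P}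

theorem rsn_mono (hR : Rst s) {t : K} (ht : M.div t P = 1) {D E : Div K} (h : D ≤ E)
    (e : D P = E P) : rsn hR ht D ≤ rsn hR ht E := by
  have k : (E - D) P = 0 := by simp [e]
  rw [← sub_nonneg, ← map_sub, rsn_of_zero hR ht k]
  exact xr_nonneg hR (sub_nonneg.2 h) k

end res

/-- one more prime -/
theorem one (h : Tb) (hE : EXS (n + 1)) (hC : CP (n + 1)) (ih : CNP n) {M M' : Mdl (n + 2) N K}
    (hM : M.Proj) (hc : Cpt M) (m : Mod M' M) {H κ B L : Div K} {T : Set (Place K)} (hM' : M'.Proj)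
    (hH : Pol M H) (hκ : Lg M' κ T) (hT : Exc M' M ⊆ T) (hB : Bd1 T B) (h1 : M'.Dv L) (h2 : IsInt L)
    (h3 : M'.Amp (L - B)) {P : Place K} (u : SubM M P) (hP : M.Snc {P}) {U : Finset (Place K)}
    (p1 : P ∉ T) (p2 : P ∉ U) (p3 : Disjoint (U : Set (Place K)) T)
    (p4 : M'.Snc (insert P (T ∪ U))) (e3 : M.pull M' (Finsupp.single P 1) = Finsupp.single P 1) :
    h0 M' (κ + ((n : ℝ) + 1) • M.pull M' H + L + rd U) + deg u.S (u.r H) (u.r (M.tr L)) ≤
      h0 M' (κ + ((n : ℝ) + 1) • M.pull M' H + L + rd U + Finsupp.single P 1) := by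
  classical
  have hL := h.box.loc _ N K M hM
  have hL' := h.box.loc _ N K M' hM'
  have hP' := h.box.pos _ N K M' hM'
  have b := h.box.bir _ N K M hM M' m hM'
  have q0 : M'.Snc {P} := snc_mono p4 (by simp)
  obtain ⟨S', s', m', hS', e1, e2⟩ := u.rst.mod M' m hM' q0
  have hR' := h.box.rst _ N K M' hM' u.L S' P s' q0
  have kL := h.box.loc _ N _ u.S u.proj
  have kL' := h.box.loc _ N _ S' hS'
  have kb := h.box.bir _ N _ u.S u.proj S' m' hS'
  have q1 := hP.1 P rfl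
  have ht : M'.div u.t P = 1 := by rw [div_apply hL' _ (b.pr P q1), ← div_apply hL _ q1, u.ht]
  have t0 : u.t ≠ 0 := fun e => by
    have := u.ht
    rw [div_apply hL _ q1, e, ord_zero, Int.cast_zero] at this
    exact zero_ne_one this
  have r1 : ∀ D, rsn hR' ht (M.pull M' D) = u.S.pull S' (u.r D) := fun D => by
    rw [SubM.r, rsn_apply, rsn_apply, ← e2 _ (nr_self u.ht D), nr_apply, nr_apply,
      ← pl_apply b (_ - _), map_sub, map_smul, pl_apply, pl_apply, pull_div hL hL' b t0,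
      pull_pr hL b q1]
  obtain ⟨c1, -, c2, -, c3, -⟩ := hE N K M hM hc _ _ _ u.s u.rst _ u.ht u.proj hP
  obtain ⟨c4, -, c5, -, -, -, c6⟩ := hE N K M' hM' (cpt_mod m hc) _ _ _ s' hR' _ ht hS' q0
  have n1 : M'.Nef (((n : ℝ) + 1) • M.pull M' H) := nef_smul hP' (b.nef H
    ((h.box.pos _ N K M hM).free H hH.int hH.free)) (by positivity)
  have g1 : κ + ((n : ℝ) + 1) • M.pull M' H + L + rd U ∈ Gd M' :=
    add_mem (add_mem (add_mem ⟨hκ.can.dv, hκ.can.int hL'⟩ ⟨dv_smul (dv_pull H) _, by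
      simpa using IsInt.nsmul (pull_int b hH.int) (n + 1)⟩) ⟨h1, h2⟩)
      (sum_mem fun Q hQ => gd_single (p4.1 Q (Or.inr (Or.inr hQ))))
  have k1 := (c6 κ (T ∪ U) (B + rd U) (fun a => a.elim p1 p2)
    ⟨hκ.can, (hκ.fin.union U.finite_toSet).insert P, p4⟩ (bd1_add hB p3)).2 _ g1.1 g1.2
    (by convert amp_add_nef h3 n1 using 1; abel)
  have b1 : Bd1 T (rd hκ.fin.toFinset) := by
    simpa using bd1_add (bd1_zero ∅) (Y := hκ.fin.toFinset) (disjoint_empty _)
  obtain ⟨T', k2, k3⟩ := (c6 κ T _ p1 ⟨hκ.can, hκ.fin.insert P,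
    snc_mono p4 (insert_subset_insert subset_union_left)⟩ b1).1
  have z0 : ∀ {D : Div K}, (D.support : Set (Place K)) ⊆ T → D P = 0 := fun a =>
    by_contra fun c => p1 (a (Finsupp.mem_support_iff.2 c))
  have k4 : ∀ D : Div K, 0 ≤ D → D ≤ rd hκ.fin.toFinset → Bd1 T' (rsn hR' ht D) := fun D a c => by
    have a1 : D P = 0 := le_antisymm ((c P).trans_eq (z0 b1.1)) (a P)
    have a2 := rsn_mono hR' ht a a1.symm
    have a3 := rsn_mono hR' ht c (a1.trans (z0 b1.1).symm)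
    rw [map_zero] at a2
    exact ⟨fun Q hQ => k3.1 (Finsupp.mem_support_iff.2 fun e => Finsupp.mem_support_iff.1 hQ
      (le_antisymm ((a3 Q).trans_eq e) (a2 Q))), fun Q => ⟨a2 Q, (a3 Q).trans (k3.2 Q).2⟩⟩
  have k5 : Exc S' u.S ⊆ T' := fun Q hQ => by
    obtain ⟨E, a, c⟩ := (exc_rs hL hL' kL kL' b kb u.rst hR' hP e1 e2 e3 Q).1 hQ
    refine (k4 _ (Finsupp.single_nonneg.2 zero_le_one) (single_le_rd
      (hκ.fin.mem_toFinset.2 (hT a)))).1 (Finsupp.mem_support_iff.2 ?_)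
    rwa [rsn_of_zero hR' ht (Finsupp.single_eq_of_ne fun e => p1 (e ▸ hT a))]
  have k6 := k4 B (fun Q => (hB.2 Q).1) fun Q => by
    rw [rd_apply]
    split_ifs with a
    · exact (hB.2 Q).2
    · exact le_of_eq (by_contra fun c => a (hκ.fin.mem_toFinset.2
        (hB.1 (Finsupp.mem_support_iff.2 c))))
  have g2 := gd_r hL u hH.int
  have g3 := gd_r hL' ⟨u.L, S', s', hS', hR', u.t, ht⟩ h2
  have k7 := ih N _ u.S u.proj c1 S' m' (u.r H) _ _ (rsn hR' ht L) T' hS'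
    ⟨g2.1, g2.2, c2 H hH.amp, c3 H hH.int hH.free⟩ k2 k5 k6 g3.1 g3.2
    (by rw [← map_sub]; exact c5 _ h3)
  have x1 : ((L - M.pull M' (M.tr L)).support : Set (Place K)) ⊆ Exc M' M := fun Q hQ =>
    ⟨dv_sub h1 (dv_pull _) Q hQ, fun a => Finsupp.mem_support_iff.1 hQ (by
      rw [Finsupp.sub_apply, pull_pr hL b a, tr_apply a, sub_self])⟩
  have x2 : u.S.tr (rsn hR' ht L) = u.r (M.tr L) := by
    have a := exc_supp hL hL' kL kL' b kb u.rst hR' hP e1 e2 e3 x1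
    rw [← rsn_of_zero hR' ht (z0 (x1.trans hT)), map_sub, r1] at a
    refine dv_ext (dv_tr _) (dv_rs _ _) fun Q hQ => ?_
    rw [tr_apply hQ, ← pull_pr kL kb hQ (u.r _), ← sub_eq_zero, ← Finsupp.sub_apply]
    exact by_contra fun c => (a (Finsupp.mem_support_iff.2 c)).2 hQ
  haveI := ((hC N _ S' hS').2 c4).1 (rsn hR' ht
    (κ + ((n : ℝ) + 1) • M.pull M' H + L + rd U + Finsupp.single P 1))
  have k8 : h0 S' (rsn hR' ht (κ + Finsupp.single P 1) + ((n : ℝ) + 1) • u.S.pull S' (u.r H) +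
      rsn hR' ht L) ≤ _ := h0_mono (E := rsn hR' ht
    (κ + ((n : ℝ) + 1) • M.pull M' H + L + rd U + Finsupp.single P 1)) (by
      rw [← r1, ← map_smul, ← map_add, ← map_add]
      have e : κ + ((n : ℝ) + 1) • M.pull M' H + L + rd U + Finsupp.single P 1 =
        κ + Finsupp.single P 1 + ((n : ℝ) + 1) • M.pull M' H + L + rd U := by abel
      rw [e]
      exact rsn_mono hR' ht (le_add_of_nonneg_right (rd_nonneg U))
        (by rw [Finsupp.add_apply _ (rd U), rd_apply, if_neg p2, add_zero]))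
  rw [k1, Nat.cast_add, ← x2]
  exact add_le_add le_rfl (k7.trans (Nat.cast_le.2 k8))

theorem succ (h : Tb) (hT : BT (n + 2)) (hE : EXS (n + 1)) (hR : DRS n) (hC : CP (n + 1))
    (ih : CNP n) : CNP (n + 1) := by
  classical
  intro N K _ _ M hM hc M' m H κ B L T hM' hH hκ hx hB h1 h2 h3
  have hL := h.box.loc _ N K M hM
  have hL' := h.box.loc _ N K M' hM'
  have b := h.box.bir _ N K M hM M' m hM'
  obtain ⟨f, Y, hf, e1, e2, -, -, e3, e4, e5⟩ := hT N K M hM M' m ∅ T ∅ H hM' finite_empty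
    (snc_empty hL) hκ.fin hκ.snc hx finite_empty hH.dv hH.int hH.free
  have hY : ∀ P ∈ Y, M.Snc {P} := fun P hP => snc_mono e3 (by simpa using hP)
  let u : ∀ P : Y, SubM M P := fun P => (exists_sub h hM (hY P.1 P.2)).some
  have key := hR N K M hM hc H 1 Y u hH.dv hH.int hY
    (by rw [← e1]; simpa using div_mem_prR hf) _ (dv_tr L)
  have e6 : M.pull M' (rd Y) = rd Y := by
    rw [rd, ← e1, ← pl_apply b, map_add, pl_apply, pl_apply, pull_div hL hL' b hf, e2, e1]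
  have e7 : ∀ P ∈ Y, M.pull M' (Finsupp.single P 1) = Finsupp.single P 1 := fun P hP => by
    ext Q
    by_cases hQ : M.Pr Q
    · exact pull_pr hL b hQ _
    · have a := pull_nonneg b (sub_nonneg.2 (single_le_rd hP)) Q
      rw [← pl_apply b, map_sub, pl_apply, pl_apply, e6, Finsupp.sub_apply, rd_apply,
        if_neg fun c => hQ ((hY Q c).1 Q rfl)] at a
      rw [dv_iff.1 (dv_single ((hY P hP).1 P rfl) 1) Q hQ]
      exact le_antisymm (by simpa using a) (pull_nonneg b (Finsupp.single_nonneg.2 zero_le_one) Q)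
  have ind : ∀ V : Finset Y, ∑ P ∈ V, deg (u P).S ((u P).r H) ((u P).r (M.tr L)) ≤
      h0 M' (κ + ((n : ℝ) + 1) • M.pull M' H + L + rd (V.map (.subtype _))) := fun V => by
    induction V using Finset.induction_on with
    | empty => simp
    | insert P V hP iv =>
      have a1 : ((V.map (.subtype _) : Finset (Place K)) : Set (Place K)) ⊆ Y := fun Q hQ => by
        obtain ⟨R, -, rfl⟩ := Finset.mem_map.1 hQ
        exact R.2
      have a2 : P.1 ∉ V.map (.subtype _) := fun c => hP ((Finset.mem_map' _).1 c)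
      have a3 := one h hE hC ih hM hc m hM' hH hκ hx hB h1 h2 h3 (u P) (hY P.1 P.2)
        (disjoint_left.1 e4 P.2) a2 (e4.mono_left a1) (snc_mono e5 (insert_subset (Or.inr P.2)
        (union_subset_union_right _ a1))) (e7 P.1 P.2)
      rw [Finset.sum_insert hP, Finset.map_insert, rd, Function.Embedding.subtype_apply,
        Finset.sum_insert a2, add_comm (Finsupp.single _ _), ← add_assoc]
      exact le_trans (by linarith) a3
  have k := ind Finset.univ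
  rw [key, Finset.univ_eq_attach, Finset.attach_map_val, rd, ← e2, Nat.cast_one, one_mul] at k
  rw [← h0_add_div hL' _ hf]
  convert k using 3
  push_cast
  module

theorem cnp (h : Tb) (hT : ∀ n, BT n) (hE : ∀ n, EXS n) (hD : DEG 0) (hR : ∀ n, DRS n)
    (hC : ∀ n, CP n) : ∀ n, CNP n
  | 0 => zero h hD (hC 1)
  | n + 1 => succ h (hT _) (hE _) (hR n) (hC _) (cnp h hT hE hD hR hC n)

end Cn

open Cn

/-- **CNT** -/
theorem cnt (h : Tb) (hT : ∀ n, BT n) (hE : ∀ n, EXS n) (hD : ∀ n, DEG n) (hR : ∀ n, DRS n)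
    (hC : ∀ n, CP n) (n : ℕ) : CNT n := by
  intro N K _ _ M hM hc κ H L Δ hκ hH h1 h2 h3 h4 h5
  have hL := h.box.loc _ N K M hM
  obtain ⟨M', ⟨m⟩, hM', hG⟩ := h.box.hir _ N K M hM Δ.support 0 Fin.elim0 Δ.support.finite_toSet
    fun j => j.elim0
  have hL' := h.box.loc _ N K M' hM'
  have b := h.box.bir _ N K M hM M' m hM'
  obtain ⟨g, κ₀, f, f0, hg, rfl⟩ := hκ
  obtain ⟨κ', hg'⟩ := exists_can' hL hL' (h.box.jmd _) m hg
  obtain ⟨c1, c2⟩ := b.can g κ₀ κ' hg hg'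
  obtain ⟨E, e1, -, e2, e3⟩ := b.amp
  obtain ⟨ε, e0, e4⟩ := e3 _ h5
  obtain ⟨Ψ, hΨ⟩ : ∃ Ψ, Ψ = M.pull M' Δ + ε • E := ⟨_, rfl⟩
  have p0 : 0 ≤ Ψ := hΨ ▸ add_nonneg (pull_nonneg b fun P => (h4 P).1) (smul_nonneg e0.le e2)
  have p1 : ∀ Q, Q ∉ Exc M' M → Ψ Q = Δ Q := fun Q hQ => by
    have a : E Q = 0 := by_contra fun c => hQ (e1.subset (Finsupp.mem_support_iff.2 c))
    rw [hΨ, Finsupp.add_apply, Finsupp.smul_apply, a, smul_zero, add_zero]
    by_cases k : M.Pr Q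
    · exact pull_pr hL b k Δ
    · rw [dv_iff.1 h3 Q k, dv_iff.1 (dv_pull Δ) Q fun c => hQ ⟨c, k⟩]
  obtain ⟨F, hF⟩ : ∃ F : Div K, ∀ Q, F Q = ⌊Ψ Q⌋ :=
    ⟨Ψ.mapRange (fun r => (⌊r⌋ : ℝ)) (by simp), fun _ => rfl⟩
  have p2 : ∀ Q, Q ∉ Exc M' M → F Q = 0 := fun Q hQ => by
    rw [hF, p1 Q hQ, Int.floor_eq_zero_iff.2 (h4 Q), Int.cast_zero]
  have p3 : 0 ≤ F := fun Q => (hF Q).symm ▸ Int.cast_nonneg (Int.floor_nonneg.2 (p0 Q))
  have k := cnp h hT hE (hD 0) hR hC n N K M hM hc M' m H (κ' + M'.div f) (Ψ - F)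
    (M.pull M' L - F) (Δ.support ∪ Exc M' M) hM' hH ⟨⟨g, κ', f, f0, hg', rfl⟩,
      Δ.support.finite_toSet.union b.fin, fun P hP => hP.elim (fun a => b.pr P (h3 P a)) And.left,
      fun y => (hG y).2.imp fun t ht => ⟨ht.1, fun P a c => ht.2 P c (Or.inl a)⟩⟩
    subset_union_right ⟨fun Q hQ => by_contra fun a => Finsupp.mem_support_iff.1 hQ (by
      rw [Finsupp.sub_apply, p1 Q fun c => a (Or.inr c), p2 Q fun c => a (Or.inr c),
        Finsupp.notMem_support_iff.1 fun c => a (Or.inl c), sub_zero]), fun Q => by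
      rw [Finsupp.sub_apply, hF]
      exact ⟨Int.fract_nonneg _, (Int.fract_lt_one _).le⟩⟩
    (dv_sub (dv_pull L) (dv_iff.2 fun Q a => p2 Q fun c => a c.1))
    (IsInt.sub (pull_int b h2) fun Q => ⟨_, hF Q⟩) (by
      rw [← pl_apply b, map_sub, pl_apply, pl_apply] at e4
      convert e4 using 1
      rw [hΨ]
      abel)
  rw [show M.tr (M.pull M' L - F) = L from dv_ext (dv_tr _) h1 fun P hP => by
    rw [tr_apply hP, Finsupp.sub_apply, pull_pr hL b hP, p2 P fun c => c.2 hP, sub_zero]] at k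
  haveI := ((hC _ N K M hM).2 hc).1 (κ₀ + M.div f + ((n : ℝ) + 1) • H + L)
  refine k.trans (Nat.cast_le.2 (Submodule.finrank_mono fun u hu =>
    (b.sec _ _ u c2.subset c1).1 (H0_mono ?_ hu)))
  rw [← pl_apply b (_ + _), map_add, map_add, map_add, map_smul, pl_apply, pl_apply, pl_apply,
    pl_apply, pull_div hL hL' b f0, ← sub_nonneg]
  convert p3 using 1
  abel

end Vale.Agent.P277Z.F5
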