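import Vale.Agent.P277Z.F5.Sk
import Vale.Agent.P277Z.Sub.Hyp

/-!
# P277Z, non-vanishing: compact models
-/

set_option linter.all false

open Set Filter Topology
open Vale.Agent.P272.K (Cm)
open Vale.Agent.P297 (Place)
open Vale.Agent.P297Z

noncomputable section

namespace Vale.Agent.P277Z.F5

open FI

namespace CpH

variable {n N : ℕ} {K : Type} [Field K] [Algebra ℂ K] {M : Mdl n N K}

theorem div_nonneg (hL : Loc M) {f : K} (h : ∀ x, f ∈ M.O x) : 0 ≤ M.div f := fun P => by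
  by_cases hP : M.Pr P
  · obtain ⟨x, t, ht⟩ := id hP
    rw [div_apply hL f hP]
    exact Int.cast_nonneg_iff.2 (Pl.ord_nonneg_of_mem P (ht.le _ (h x)))
  · exact (dv_iff.1 (dv_div f) P hP).ge

theorem ncpt (hL : Loc M) (h : ¬ Cpt M) : ∃ f : K, f ≠ 0 ∧ 0 ≤ M.div f ∧ M.div f ≠ 0 := by
  obtain ⟨i, hi⟩ : ∃ i, ¬ ∀ᶠ y in 𝓝ˢ M.F, M.π y i = 0 := not_forall.1 fun k =>
    h ((eventually_all.2 k).mono fun _ => funext)
  obtain ⟨f, hf⟩ := M.surj (fun y => M.π y i) fun x hx => Lo.mer_of_hol (M.hol x hx i)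
  have h1 : ∀ x : M.F, f ∈ M.O x := fun x => M.mem_O_of (M.hol x x.2 i) (M.at_pt hf x)
  have h2 : ∀ x : M.F, ∀ᶠ y in 𝓝 (x : M.W), M.val f y = M.π y i := fun x =>
    M.val_eq x.2 (M.hol x x.2 i) (M.at_pt hf x)
  have h3 : f ≠ 0 := fun k => hi (eventually_nhdsSet_iff_forall.2 fun x hx =>
    (h2 ⟨x, hx⟩).mono fun y hy => by rw [← hy, k, M.val_zero])
  obtain ⟨x, hx⟩ := M.conn.nonempty
  obtain ⟨P, a, b⟩ := hL.van ⟨x, hx⟩ f (h1 _) h3 (by
    rw [(h2 ⟨x, hx⟩).self_of_nhds, (M.fib.self_of_nhdsSet x hx).2 hx]; rfl)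
  refine ⟨f, h3, div_nonneg hL h1, fun k => ?_⟩
  have := div_apply hL f ⟨_, a⟩
  rw [k, Finsupp.zero_apply, eq_comm, Int.cast_eq_zero] at this
  omega

theorem const (hC : Coh M) (h : Cpt M) : Function.Surjective (algebraMap ℂ M.O₀) := by
  obtain ⟨T, h1, h2⟩ := hC.base
  obtain ⟨x, hx⟩ := M.conn.nonempty
  have h3 : Subalgebra.toSubmodule M.O₀ ≤ Submodule.span ℂ (T : Set K) := fun f hf => by
    obtain ⟨c, -, hc⟩ := h2 f hf
    have e : f = ∑ t ∈ T, algebraMap ℂ K (c t 0) * t := by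
      refine M.eq_of_val ⟨x, hx⟩ (M.at_pt ?_ _)
      filter_upwards [Lo.gen_of_nhdsSet (hc.and h), M.val_sum T fun t => algebraMap ℂ K (c t 0) * t,
        (eventually_all_finset T).2 fun t _ => M.val_mul (algebraMap ℂ K (c t 0)) t] with y a1 a2 a3
      rw [a1.1, a1.2, a2]
      exact Finset.sum_congr rfl fun t ht => by rw [a3 t ht, M.val_const]
    rw [e]
    exact Submodule.sum_mem _ fun t ht => by
      rw [← Algebra.smul_def]
      exact Submodule.smul_mem _ _ (Submodule.subset_span ht)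
  have : Module.Finite ℂ M.O₀ := Submodule.finiteDimensional_of_le h3
  exact IsAlgClosed.algebraMap_bijective_of_isIntegral.2

theorem mem_O₀ (hL : Loc M) {f : K} (h : 0 ≤ M.div f) : f ∈ M.O₀ :=
  Algebra.mem_iInf.2 fun x => hL.mem x f fun P hP => by
    have := h P
    rwa [div_apply hL f ⟨x, hP⟩, Finsupp.zero_apply, Int.cast_nonneg_iff] at this

theorem div_zero (hL : Loc M) (hC : Coh M) (h : Cpt M) (f : K) (f0 : f ≠ 0) (hf : 0 ≤ M.div f) :
    M.div f = 0 := by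
  obtain ⟨c, hc⟩ := const hC h ⟨f, mem_O₀ hL hf⟩
  have e : algebraMap ℂ K c = f := congrArg Subtype.val hc
  refine le_antisymm ?_ hf
  rw [← neg_nonneg, ← div_inv hL, ← e, ← map_inv₀]
  exact div_nonneg hL fun x => (M.O x).algebraMap_mem _

theorem not_pr (M : Mdl 0 N K) (P : Place K) : ¬ M.Pr P := by
  rintro ⟨x, t, ht⟩
  have h1 : ∀ᶠ y : M.W in 𝓝 (x : M.W), y = (x : M.W) := by
    filter_upwards [chart_source_mem_nhds (Cm 0) (x : M.W)] with y hy
    exact (chartAt (Cm 0) (x : M.W)).injOn hy (mem_chart_source _ _) (Subsingleton.elim _ _)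
  obtain ⟨y, h2, rfl⟩ := ((M.at_pt (M.val_ne (gn_ne ht)) x).and (gen_of_nhds h1)).exists
  exact h2 ht.van

theorem snc_one {M : Mdl 1 N K} (hL : Loc M) (h : CO1 1) (x : M.F) :
    ∃ t, M.Coord x t ∧ ∀ P, M.On x P → M.Gn x P (t 0) := by
  obtain ⟨t, ht⟩ := hL.coord x
  refine ⟨t, ht, fun P ⟨p, hp⟩ => ?_⟩
  obtain ⟨t0, h1⟩ := h N K M hL x t 0 ht
  obtain ⟨Q, h2, h3⟩ := hL.van x _ (ht.1 0).1 t0 (ht.1 0).2
  obtain ⟨c, -, c1, c2⟩ := SubH.exists_cht (fun j => (ht.1 j).1) ht.2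
  obtain ⟨b, h4, h5⟩ := hL.red x Q _ (h1 Q h2 h3) _ hp.mem (by
    filter_upwards [c.open_source.mem_nhds c1] with y hy k
    rw [c.injOn hy c1 (funext fun j => by
      rw [c2 _ hy, c2 _ c1, Subsingleton.elim j 0, k, (ht.1 0).2]), hp.van])
  have h6 : p / t 0 ∈ M.O x := M.mem_O_of h4 (by
    filter_upwards [M.at_pt (M.val_div p (t 0)) x, M.at_pt (M.val_ne t0) x, gen_of_nhds h5]
      with y a1 a2 a3
    rw [a1, a3, mul_div_cancel_left₀ _ a2])
  have h7 := Pl.ord_nonneg_of_mem Q ((h1 Q h2 h3).le _ h6)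
  rw [Pl.ord_div Q (gn_ne hp) t0] at h7
  obtain rfl : Q = P := by_contra fun k => by
    have := hL.other x P Q p hp h2 k
    omega
  exact h1 Q h2 h3

end CpH

open CpH

theorem cp (h : Tb) (n : ℕ) (hA : AR n) : CP n := by
  intro N K _ _ M hM
  have hL := h.box.loc n N K M hM
  have hC := h.box.coh n N K M hM
  refine ⟨ncpt hL, fun hc => ⟨fun D => Module.Finite.iff_fg.2
    ((Module.Finite.iff_fg.1 (hC.fin D)).restrictScalars_of_surjective (const hC hc)),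
    div_zero hL hC hc, ?_, fun hn => ?_, ?_⟩⟩
  · rintro rfl D
    have e : (M.H0 D).restrictScalars ℂ = ⊤ :=
      eq_top_iff.2 fun f _ => Or.inr fun P hP => (not_pr M P hP).elim
    rw [h0, e, finrank_top, finrank_eq_one_iff_of_nonzero' (1 : K) one_ne_zero]
    intro f
    obtain ⟨c, hc⟩ := const hC hc ⟨f, Algebra.mem_iInf.2 fun x => hL.mem x f fun P hP =>
      (not_pr M P ⟨x, hP⟩).elim⟩
    exact ⟨c, (Algebra.algebraMap_eq_smul_one c).symm.trans (congrArg Subtype.val hc)⟩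
  · obtain ⟨x, hx⟩ := M.conn.nonempty
    obtain ⟨t, ht⟩ := hL.coord ⟨x, hx⟩
    obtain ⟨P, a, -⟩ := hL.van _ _ (ht.1 ⟨0, hn⟩).1 (h.box.co1 n N K M hL _ t _ ht).1 (ht.1 _).2
    have hP : M.Pr P := ⟨_, a⟩
    refine ⟨⟨P, hP⟩, fun G h1 h2 h3 => ?_⟩
    obtain ⟨ε, h4, h5⟩ := (h.box.pos n N K M hM).opn _ (-Finsupp.single P 1) h3
    have d1 : M.Dv (-Finsupp.single P (1 : ℝ)) := by simpa using dv_sub dv_zero (dv_single hP 1)
    obtain ⟨G', h6, -⟩ := (hA N K M hM).1 _ ∅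
      (dv_add (by simpa using dv_sub dv_zero h1) (dv_smul d1 ε)) h5 finite_empty
    obtain ⟨s, ⟨a, a1, a2⟩, h7⟩ := (hA N K M hM).2 {-Finsupp.single P 1} ∅
      (ε • -Finsupp.single P 1) (G' + G) (by simpa using And.intro d1 (IsInt.neg (IsInt.single P)))
      ⟨fun _ => ε, fun _ => h4.le, by simp⟩
      ⟨add_nonneg h6.1 h2, by
        rw [show G' + G - _ = G' - (-G + ε • -Finsupp.single P 1) by abel]
        exact h6.2⟩
      (fun _ k => k.elim)
    have h8 : 0 ≤ (∑ L ∈ s, a L • L) P := by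
      rw [Finsupp.finset_sum_apply]
      refine Finset.sum_nonneg fun L hl => mul_nonneg (a1 L) ?_
      obtain ⟨b1, f, b2, b3, -⟩ := h7 L hl
      rw [Finset.coe_singleton, AddSubmonoid.mem_closure_singleton] at b1
      obtain ⟨k, rfl⟩ := b1
      have b4 := div_add_nonneg hL (by simpa using dv_smul d1 k) b2 b3
      have b5 : k • -Finsupp.single P (1 : ℝ) ≤ 0 :=
        nsmul_nonpos (neg_nonpos.2 (Finsupp.single_nonneg.2 zero_le_one)) k
      rw [div_zero hL hC hc f b3 (b4.trans (add_le_of_nonpos_right b5)), zero_add] at b4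
      exact b4 P
    rw [← a2] at h8
    simp at h8
    linarith
  · rintro rfl T hT
    exact ⟨hT, fun x => let ⟨t, a, b⟩ := snc_one hL (h.box.co1 1) x
      ⟨t, a, fun P _ hP => ⟨0, b P hP⟩⟩⟩

end Vale.Agent.P277Z.F5
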