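import Vale.Agent.P277Z.F5.Sk

/-!
# P277Z, non-vanishing: the basic calculus of real linear systems
-/

set_option linter.all false

open Set Filter Topology
open Vale.Agent.P297 (Place)
open Vale.Agent.P297Z.Pl

noncomputable section

namespace Vale.Agent.P277Z.F5

open FI

variable {n N : ℕ} {K : Type} [Field K] [Algebra ℂ K] {M : Mdl n N K} {A B D E G G' H : Div K}

/-! ### principal divisors -/

theorem dv_neg (h : M.Dv D) : M.Dv (-D) := by simpa using dv_sub dv_zero h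

theorem div_mem_prR {f : K} (hf : f ≠ 0) : M.div f ∈ PrR M := Submodule.subset_span ⟨f, hf, rfl⟩

theorem prR_dv (h : D ∈ PrR M) : M.Dv D := by
  induction h using Submodule.span_induction with
  | mem _ h => obtain ⟨f, -, rfl⟩ := h; exact dv_div f
  | zero => exact dv_zero
  | add _ _ _ _ h h' => exact dv_add h h'
  | smul c _ _ h => exact dv_smul h c

/-- a member of `PrR` as a finite sum -/
theorem prR_sum (h : D ∈ PrR M) : ∃ (k : ℕ) (r : Fin k → ℝ) (f : Fin k → K), (∀ j, f j ≠ 0) ∧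
    D = ∑ j, r j • M.div (f j) := by
  obtain ⟨k, r, g, e⟩ := Submodule.mem_span_set'.1 h
  choose f h1 h2 using fun j => (g j).2
  exact ⟨k, r, f, h1, by rw [← e]; exact Finset.sum_congr rfl fun j _ => by rw [h2 j]⟩

theorem amp_prR (hL : Loc M) (hP : Pos M) (hA : M.Amp A) (h : D ∈ PrR M) : M.Amp (A + D) := by
  induction h using Submodule.span_induction generalizing A with
  | mem _ h => obtain ⟨f, hf, rfl⟩ := h; exact hP.div _ f hf hA
  | zero => simpa using hA
  | add _ _ _ _ h h' => rw [← add_assoc]; exact h' (h hA)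
  | smul c Z hZ h =>
    obtain ⟨k, r, f, h1, rfl⟩ := prR_sum hZ
    clear h hZ
    rw [Finset.smul_sum]
    induction (Finset.univ : Finset (Fin k)) using Finset.induction_on with
    | empty => simpa using hA
    | insert j s hj ih =>
      rw [Finset.sum_insert hj, add_left_comm, add_comm, smul_smul]
      exact amp_div hL hP ih (h1 j) _

theorem amp_congr (hL : Loc M) (hP : Pos M) (hA : M.Amp A) (h : B - A ∈ PrR M) : M.Amp B := by
  simpa using amp_prR hL hP hA h

theorem nef_congr (hL : Loc M) (hP : Pos M) (hD : M.Nef D) (h : E - D ∈ PrR M) : M.Nef E :=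
  fun A hA => amp_congr hL hP (hD A hA) (by simpa using h)

theorem nef_zero : M.Nef 0 := fun A hA => by simpa using hA

theorem nef_prR (hL : Loc M) (hP : Pos M) (h : D ∈ PrR M) : M.Nef D :=
  nef_congr hL hP nef_zero (by simpa using h)

/-! ### ample and nef divisors -/

theorem nef_of_amp (hP : Pos M) (h : M.Amp A) : M.Nef A := fun B hB => hP.add _ _ h hB

theorem nef_add (h : M.Nef D) (h' : M.Nef E) : M.Nef (D + E) := fun A hA => by
  rw [add_assoc]; exact h _ (h' A hA)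

theorem nef_smul (hP : Pos M) (h : M.Nef D) {c : ℝ} (hc : 0 ≤ c) : M.Nef (c • D) := fun A hA => by
  rcases hc.eq_or_lt with rfl | hc
  · simpa using hA
  · have := hP.smul _ c hc (h _ (hP.smul _ c⁻¹ (inv_pos.2 hc) hA))
    rwa [smul_add, smul_smul, mul_inv_cancel₀ hc.ne', one_smul] at this

theorem nef_sum {ι : Type*} (s : Finset ι) {D : ι → Div K} (h : ∀ i ∈ s, M.Nef (D i)) :
    M.Nef (∑ i ∈ s, D i) := Finset.sum_induction D M.Nef (fun _ _ => nef_add) nef_zero h

theorem amp_add_nef (hA : M.Amp A) (h : M.Nef D) : M.Amp (A + D) := add_comm D A ▸ h A hA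

theorem amp_comb (hP : Pos M) (hA : M.Amp A) (hB : M.Amp B) {a b : ℝ} (ha : 0 ≤ a) (hb : 0 ≤ b)
    (h : 0 < a + b) : M.Amp (a • A + b • B) := by
  rcases ha.eq_or_lt with rfl | ha
  · simpa using hP.smul _ b (by simpa using h) hB
  · exact amp_add_nef (hP.smul _ a ha hA) (nef_smul hP (nef_of_amp hP hB) hb)

theorem amp_convex (hP : Pos M) : Convex ℝ {A | M.Amp A} := fun _ hA _ hB _ _ ha hb e =>
  amp_comb hP hA hB ha hb (e ▸ one_pos)

theorem amp_sum (hP : Pos M) {ι : Type*} {s : Finset ι} (hs : s.Nonempty) {D : ι → Div K}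
    (h : ∀ i ∈ s, M.Amp (D i)) : M.Amp (∑ i ∈ s, D i) :=
  Finset.sum_induction_nonempty D M.Amp hP.add hs h

theorem eq_sum_single {T : Finset (Place K)} (h : (E.support : Set (Place K)) ⊆ T) :
    E = ∑ P ∈ T, E P • Finsupp.single P (1 : ℝ) := by
  classical
  ext Q
  simp only [Finsupp.finset_sum_apply, Finsupp.smul_apply, Finsupp.single_apply, smul_eq_mul,
    mul_ite, mul_one, mul_zero, Finset.sum_ite_eq']
  split_ifs with k
  · rfl
  · exact by_contra fun e => k (h (Finsupp.mem_support_iff.2 e))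

/-- Ampleness is open in finitely many directions. -/
theorem amp_small (hP : Pos M) (hA : M.Amp A) {T : Set (Place K)} (hT : T.Finite) :
    ∃ ε : ℝ, 0 < ε ∧ ∀ E : Div K, (E.support : Set (Place K)) ⊆ T → (∀ P, |E P| ≤ ε) →
      M.Amp (A + E) := by
  obtain ⟨ε, h0, h1⟩ := amp_box hP (fun P => Finsupp.single P (1 : ℝ)) hT.toFinset A hA
  refine ⟨ε, h0, fun E h2 h3 => ?_⟩
  rw [eq_sum_single (E := E) (T := hT.toFinset) (by simpa using h2)]
  exact h1 _ fun P _ => h3 P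

theorem amp_ev (hP : Pos M) (hA : M.Amp A) (D : Div K) : ∀ᶠ c in 𝓝 (0 : ℝ), M.Amp (A + c • D) := by
  obtain ⟨ε, h0, h1⟩ := amp_seg hP hA D
  filter_upwards [Metric.closedBall_mem_nhds (0 : ℝ) h0] with c hc using h1 c (by simpa using hc)

/-- `D + m A` is ample for large `m`. -/
theorem amp_large (hP : Pos M) (hA : M.Amp A) (D : Div K) :
    ∃ m₀ : ℝ, 0 < m₀ ∧ ∀ m, m₀ ≤ m → M.Amp (D + m • A) := by
  obtain ⟨ε, h0, h1⟩ := hP.opn A D hA
  refine ⟨ε⁻¹, inv_pos.2 h0, fun m hm => ?_⟩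
  have := amp_add_nef (hP.smul _ _ (inv_pos.2 h0) h1)
    (nef_smul hP (nef_of_amp hP hA) (sub_nonneg.2 hm))
  rwa [smul_add, smul_smul, inv_mul_cancel₀ h0.ne', one_smul, add_right_comm, ← add_smul,
    add_sub_cancel, add_comm] at this

theorem nef_of_span (hP : Pos M) (h : D ∈ Submodule.span ℝ (NT M)) :
    M.Dv D ∧ M.Nef D ∧ M.Nef (-D) := by
  induction h using Submodule.span_induction with
  | mem _ h => exact ⟨h.1, h.2.2⟩
  | zero => exact ⟨dv_zero, nef_zero, by simpa using nef_zero⟩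
  | add _ _ _ _ h h' =>
    exact ⟨dv_add h.1 h'.1, nef_add h.2.1 h'.2.1, by rw [neg_add]; exact nef_add h.2.2 h'.2.2⟩
  | smul c Z _ h =>
    rcases le_total 0 c with k | k
    · exact ⟨dv_smul h.1 c, nef_smul hP h.2.1 k, by rw [← smul_neg]; exact nef_smul hP h.2.2 k⟩
    · exact ⟨dv_smul h.1 c, by simpa using nef_smul hP h.2.2 (neg_nonneg.2 k),
        by simpa using nef_smul hP h.2.1 (neg_nonneg.2 k)⟩

theorem prR_le_span (hL : Loc M) (hP : Pos M) : PrR M ≤ Submodule.span ℝ (NT M) :=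
  Submodule.span_mono fun _ ⟨f, hf, e⟩ => e ▸ ⟨dv_div f, int_div hL f,
    nef_prR hL hP (div_mem_prR hf), nef_prR hL hP (neg_mem (div_mem_prR hf))⟩

/-- Large multiples of an integral ample divisor are polarisations. -/
theorem pol_mul (hP : Pos M) (hd : M.Dv A) (hi : IsInt A) (hA : M.Amp A) :
    ∃ m₀ : ℕ, 0 < m₀ ∧ ∀ m : ℕ, m₀ ≤ m → Pol M ((m : ℝ) • A) := by
  obtain ⟨m₀, h⟩ := hP.gg A 0 hA hi IsInt.zero
  exact ⟨m₀ + 1, m₀.succ_pos, fun m hm => ⟨dv_smul hd _, IsInt.nsmul hi m,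
    hP.smul _ _ (by exact_mod_cast m₀.succ_pos.trans_le hm) hA,
    fun x => by simpa using h m (by omega) x⟩⟩

theorem exists_pol (hP : Pos M) : ∃ H, Pol M H :=
  let ⟨_, h1, h2, h3⟩ := hP.ex
  let ⟨m, _, h⟩ := pol_mul hP h1 h2 h3
  ⟨_, h m le_rfl⟩

/-! ### real linear systems -/

namespace Rep

theorem refl (h : 0 ≤ G) : Rep M G G := ⟨h, by simp⟩

theorem add (h : Rep M D G) (h' : Rep M E G') : Rep M (D + E) (G + G') :=
  ⟨add_nonneg h.1 h'.1, by rw [add_sub_add_comm]; exact add_mem h.2 h'.2⟩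

theorem smul (h : Rep M D G) {c : ℝ} (hc : 0 ≤ c) : Rep M (c • D) (c • G) :=
  ⟨smul_nonneg hc h.1, by rw [← smul_sub]; exact Submodule.smul_mem _ _ h.2⟩

theorem congr (h : Rep M D G) (e : E - D ∈ PrR M) : Rep M E G :=
  ⟨h.1, by simpa using sub_mem h.2 e⟩

theorem sum {ι : Type*} (s : Finset ι) {D G : ι → Div K} (h : ∀ i ∈ s, Rep M (D i) (G i)) :
    Rep M (∑ i ∈ s, D i) (∑ i ∈ s, G i) :=
  ⟨Finset.sum_nonneg fun i hi => (h i hi).1, by
    rw [← Finset.sum_sub_distrib]; exact sum_mem fun i hi => (h i hi).2⟩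

theorem dv (h : Rep M D G) (hD : M.Dv D) : M.Dv G := by simpa using dv_add (prR_dv h.2) hD

theorem dv' (h : Rep M D G) (hG : M.Dv G) : M.Dv D := by simpa using dv_sub hG (prR_dv h.2)

theorem amp (hL : Loc M) (hP : Pos M) (h : Rep M D G) (hD : M.Amp D) : M.Amp G :=
  amp_congr hL hP hD h.2

theorem eff (h : Rep M D G) : Eff M D := ⟨G, h⟩

end Rep

theorem rep_sec (hL : Loc M) (hD : M.Dv D) {f : K} (hf : f ∈ M.H0 D) (h0 : f ≠ 0) :
    Rep M D (M.div f + D) := ⟨div_add_nonneg hL hD hf h0, by simpa using div_mem_prR h0⟩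

theorem eff_of_nonneg (h : 0 ≤ G) : Eff M G := ⟨G, Rep.refl h⟩

theorem eff_zero : Eff M 0 := eff_of_nonneg le_rfl

theorem eff_prR (h : D ∈ PrR M) : Eff M D := ⟨0, le_rfl, by simpa using h⟩

theorem eff_sec (hL : Loc M) (hD : M.Dv D) {f : K} (hf : f ∈ M.H0 D) (h0 : f ≠ 0) : Eff M D :=
  ⟨_, rep_sec hL hD hf h0⟩

theorem eff_of_H0 (hL : Loc M) (hD : M.Dv D) (h : M.H0 D ≠ ⊥) : Eff M D :=
  let ⟨_, h1, h2⟩ := Submodule.exists_mem_ne_zero_of_ne_bot h
  eff_sec hL hD h1 h2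

theorem ne_bot_of_h0 (h : h0 M D ≠ 0) : M.H0 D ≠ ⊥ := fun e => h (by
  rw [h0, e, Submodule.restrictScalars_bot, finrank_bot])

theorem eff_of_h0 (hL : Loc M) (hD : M.Dv D) (h : h0 M D ≠ 0) : Eff M D :=
  eff_of_H0 hL hD (ne_bot_of_h0 h)

namespace Eff

theorem add (h : Eff M D) (h' : Eff M E) : Eff M (D + E) :=
  let ⟨_, a⟩ := h
  let ⟨_, b⟩ := h'
  ⟨_, a.add b⟩

theorem smul (h : Eff M D) {c : ℝ} (hc : 0 ≤ c) : Eff M (c • D) :=
  let ⟨_, a⟩ := h
  ⟨_, a.smul hc⟩

theorem of_smul {c : ℝ} (hc : 0 < c) (h : Eff M (c • D)) : Eff M D := by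
  have := h.smul (inv_pos.2 hc).le
  rwa [smul_smul, inv_mul_cancel₀ hc.ne', one_smul] at this

theorem congr (h : Eff M D) (e : E - D ∈ PrR M) : Eff M E :=
  let ⟨_, a⟩ := h
  ⟨_, a.congr e⟩

theorem mono (h : Eff M D) (e : D ≤ E) : Eff M E := by
  simpa using h.add (eff_of_nonneg (sub_nonneg.2 e))

theorem sum {ι : Type*} (s : Finset ι) {D : ι → Div K} (h : ∀ i ∈ s, Eff M (D i)) :
    Eff M (∑ i ∈ s, D i) := Finset.sum_induction D (Eff M) (fun _ _ => add) eff_zero h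

theorem cone {s : Finset (Div K)} (h : ∀ L ∈ s, Eff M L) (hD : D ∈ Cone s) : Eff M D := by
  obtain ⟨a, h1, rfl⟩ := hD
  exact sum s fun L hL => (h L hL).smul (h1 L)

end Eff

namespace Psef

theorem add_nef (h : Psef M D) (hE : M.Dv E) (h' : M.Nef E) : Psef M (D + E) := fun A h1 h2 => by
  rw [add_assoc]; exact h _ (dv_add hE h1) (h' A h2)

theorem add_eff (h : Psef M D) (h' : Eff M E) : Psef M (D + E) := fun A h1 h2 => by
  rw [add_right_comm]; exact (h A h1 h2).add h'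

theorem add (hP : Pos M) (h : Psef M D) (h' : Psef M E) : Psef M (D + E) := fun A h1 h2 => by
  have a := dv_smul h1 (1 / 2)
  have b := hP.smul _ _ one_half_pos h2
  have := (h _ a b).add (h' _ a b)
  rwa [add_add_add_comm, ← add_smul, add_halves, one_smul] at this

theorem smul (hP : Pos M) (h : Psef M D) {c : ℝ} (hc : 0 < c) : Psef M (c • D) := fun A h1 h2 => by
  have := (h _ (dv_smul h1 c⁻¹) (hP.smul _ _ (inv_pos.2 hc) h2)).smul hc.le
  rwa [smul_add, smul_smul, mul_inv_cancel₀ hc.ne', one_smul] at this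

theorem congr (h : Psef M D) (e : E - D ∈ PrR M) : Psef M E := fun A h1 h2 =>
  (h A h1 h2).congr (by simpa using e)

theorem mono (h : Psef M D) (e : D ≤ E) : Psef M E := by
  simpa using h.add_eff (eff_of_nonneg (sub_nonneg.2 e))

end Psef

/-! ### cones -/

theorem zero_mem_Cone (s : Finset (Div K)) : (0 : Div K) ∈ Cone s :=
  ⟨0, fun _ => le_rfl, by simp⟩

theorem add_mem_Cone {s : Finset (Div K)} (h : D ∈ Cone s) (h' : E ∈ Cone s) : D + E ∈ Cone s := by
  obtain ⟨a, h1, rfl⟩ := h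
  obtain ⟨b, h2, rfl⟩ := h'
  exact ⟨a + b, fun L => add_nonneg (h1 L) (h2 L), by simp [add_smul, Finset.sum_add_distrib]⟩

theorem smul_mem_Cone {s : Finset (Div K)} (h : D ∈ Cone s) {c : ℝ} (hc : 0 ≤ c) :
    c • D ∈ Cone s := by
  obtain ⟨a, h1, rfl⟩ := h
  exact ⟨c • a, fun L => mul_nonneg hc (h1 L), by simp [Finset.smul_sum, smul_smul]⟩

theorem mem_Cone {s : Finset (Div K)} (h : D ∈ s) : D ∈ Cone s := by
  classical
  exact ⟨fun L => if L = D then 1 else 0, fun L => ite_nonneg zero_le_one le_rfl, by simp [h]⟩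

theorem sum_mem_Cone {s : Finset (Div K)} {ι : Type*} (t : Finset ι) {D : ι → Div K}
    (h : ∀ i ∈ t, D i ∈ Cone s) : ∑ i ∈ t, D i ∈ Cone s :=
  Finset.sum_induction D (· ∈ Cone s) (fun _ _ => add_mem_Cone) (zero_mem_Cone s) h

theorem Cone_le {s s' : Finset (Div K)} (h : ∀ L ∈ s, L ∈ Cone s') : Cone s ⊆ Cone s' := by
  rintro _ ⟨a, h1, rfl⟩
  exact sum_mem_Cone s fun L hL => smul_mem_Cone (h L hL) (h1 L)

theorem mem_Cone_of_closure {s : Finset (Div K)} (h : D ∈ AddSubmonoid.closure (s : Set (Div K))) :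
    D ∈ Cone s := by
  induction h using AddSubmonoid.closure_induction with
  | mem _ h => exact mem_Cone h
  | zero => exact zero_mem_Cone s
  | add _ _ _ _ h h' => exact add_mem_Cone h h'

theorem dv_of_Cone {s : Finset (Div K)} (h : ∀ L ∈ s, M.Dv L) (hD : D ∈ Cone s) : M.Dv D := by
  obtain ⟨a, -, rfl⟩ := hD
  exact dv_sum s fun L hL => dv_smul (h L hL) _

theorem int_of_closure {s : Finset (Div K)} (hs : ∀ L ∈ s, IsInt L)
    (h : D ∈ AddSubmonoid.closure (s : Set (Div K))) : IsInt D := by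
  induction h using AddSubmonoid.closure_induction with
  | mem _ h => exact hs _ h
  | zero => exact IsInt.zero
  | add _ _ _ _ h h' => exact IsInt.add h h'

/-! ### sections -/

theorem mul_mem_sub (hL : Loc M) {f t : K} (hf : f ∈ M.H0 D) (ht : t ≠ 0) :
    f * t ∈ M.H0 (D - M.div t) := by simpa using mul_zpow_mem hL hf ht 1

/-- multiplication by `t` -/
def mulEq (hL : Loc M) (D : Div K) {t : K} (ht : t ≠ 0) :
    (M.H0 (D + M.div t)).restrictScalars ℂ ≃ₗ[ℂ] (M.H0 D).restrictScalars ℂ :=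
  LinearEquiv.ofBijective ((LinearMap.mulRight ℂ t).restrict
    fun f hf => by simpa using mul_mem_sub hL hf ht)
    ⟨fun f g e => Subtype.ext (mul_right_cancel₀ ht (congrArg Subtype.val e)), fun f =>
      ⟨⟨f * t⁻¹, by simpa [div_inv hL] using mul_mem_sub hL f.2 (inv_ne_zero ht)⟩,
        Subtype.ext (inv_mul_cancel_right₀ ht (f : K))⟩⟩

theorem h0_add_div (hL : Loc M) (D : Div K) {t : K} (ht : t ≠ 0) : h0 M (D + M.div t) = h0 M D :=
  (mulEq hL D ht).finrank_eq

theorem h0_mono [Module.Finite ℂ ((M.H0 E).restrictScalars ℂ)] (h : D ≤ E) : h0 M D ≤ h0 M E :=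
  Submodule.finrank_mono fun _ hf => H0_mono h hf

/-- Effective integral members give inequalities. -/
theorem h0_le_add (hL : Loc M) [Module.Finite ℂ ((M.H0 (D + E)).restrictScalars ℂ)] (hE : M.Dv E)
    (h : M.H0 E ≠ ⊥) : h0 M D ≤ h0 M (D + E) := by
  obtain ⟨f, h1, h2⟩ := Submodule.exists_mem_ne_zero_of_ne_bot h
  haveI := Module.Finite.equiv (mulEq hL (D + E) h2).symm
  rw [← h0_add_div hL (D + E) h2]
  exact h0_mono (by rw [add_assoc, add_comm E]; simpa using div_add_nonneg hL hE h1 h2)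

theorem free_add {x : M.F} (h : M.Free D x) (h' : M.Free E x) : M.Free (D + E) x := by
  obtain ⟨f, h1, h2, h3⟩ := h
  obtain ⟨g, k1, k2, k3⟩ := h'
  refine ⟨f * g, (fam_H0 M).mul h1 k1, mul_ne_zero h2 k2, fun P hP => ?_⟩
  have := h3 P hP
  have := k3 P hP
  rw [ord_mul P h2 k2, Finsupp.add_apply, Int.cast_add]
  linarith

theorem free_zero (x : M.F) : M.Free 0 x := ⟨1, (fam_H0 M).one, one_ne_zero, fun P _ => by simp⟩

theorem free_nsmul {x : M.F} (h : M.Free D x) (k : ℕ) : M.Free ((k : ℝ) • D) x := by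
  induction k with
  | zero => simpa using free_zero x
  | succ k ih => rw [Nat.cast_succ, add_smul, one_smul]; exact free_add ih h

theorem Pol.nsmul (hP : Pos M) (h : Pol M H) {k : ℕ} (hk : 0 < k) : Pol M ((k : ℝ) • H) :=
  ⟨dv_smul h.dv _, IsInt.nsmul h.int k, hP.smul _ _ (by exact_mod_cast hk) h.amp,
    fun x => free_nsmul (h.free x) k⟩

/-! ### push forward -/

open Classical in
theorem tr_apply {P : Place K} (hP : M.Pr P) (D : Div K) : M.tr D P = D P :=
  Finsupp.filter_apply_pos _ _ hP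

open Classical in
theorem tr_off {P : Place K} (hP : ¬ M.Pr P) (D : Div K) : M.tr D P = 0 :=
  Finsupp.filter_apply_neg _ _ hP

theorem dv_tr (D : Div K) : M.Dv (M.tr D) := dv_iff.2 fun _ hP => tr_off hP D

theorem tr_of_dv (h : M.Dv D) : M.tr D = D := dv_ext (dv_tr D) h fun _ hP => tr_apply hP D

/-- the push forward as a linear map -/
def trl (M : Mdl n N K) : Div K →ₗ[ℝ] Div K where
  toFun := M.tr
  map_add' D E := dv_ext (dv_tr _) (dv_add (dv_tr _) (dv_tr _)) fun P hP => by simp [tr_apply hP]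
  map_smul' c D := dv_ext (dv_tr _) (dv_smul (dv_tr _) _) fun P hP => by simp [tr_apply hP]

theorem trl_apply (D : Div K) : trl M D = M.tr D := rfl

theorem tr_nonneg (h : ∀ P, M.Pr P → 0 ≤ D P) : 0 ≤ M.tr D := fun P => by
  by_cases hP : M.Pr P
  · exact (h P hP).trans_eq (tr_apply hP D).symm
  · exact (tr_off hP D).ge

end Vale.Agent.P277Z.F5
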