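import Vale.Agent.P277Z.F5.Sk

/-!
# P277Z, non-vanishing: divisors whose degrees on all flags vanish. Statements.
-/

set_option linter.all false

open Vale.Agent.P297 (Place)

noncomputable section

namespace Vale.Agent.P277Z.F5

open FI

/-- All flag degrees of `D` vanish. -/
def Fz : (n : ℕ) → ∀ {N : ℕ} {K : Type} [Field K] [Algebra ℂ K], Mdl n N K → Div K → Div K → Prop
  | 0, _, _, _, _, _, _, _ => True
  | n + 1, _, _, _, _, M, H, D =>
    deg M H D = 0 ∧ ∀ P (u : SubM M P), M.Snc {P} → Fz n u.S (u.r H) (u.r D)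

/-- **NTF**: integral divisors with vanishing flag degrees are numerically trivial -/
def NTF (n : ℕ) : Prop := ForM n fun _ K _ _ M => Cpt M → ∀ H P : Div K, Pol M H → M.Dv P →
  IsInt P → Fz n M H P → P ∈ NT M

/-- **DH**: the self-intersection of a polarisation is positive -/
def DH (n : ℕ) : Prop := ForM (n + 1) fun _ K _ _ M => Cpt M → ∀ H : Div K, Pol M H →
  1 ≤ deg M H H

end Vale.Agent.P277Z.F5
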