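import Vale.Agent.P277Z.F5.Deg
import Vale.Agent.P277Z.F5.Bas
import Vale.Agent.P277Z.F5.MuD

/-!
# P277Z, non-vanishing: pseudo-effective divisors of degree zero (rows D1, DPOS)
-/

set_option linter.unusedSectionVars false

open Set Filter Topology
open Vale.Agent.P297 (Place)

noncomputable section

namespace Vale.Agent.P277Z.F5

open FI Dg

namespace Dz

variable {n N : ℕ} {K : Type} [Field K] [Algebra ℂ K]

/-! ### rationality -/

/-- apply a `ℚ`-linear map to the coefficients -/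
def mr (l : ℝ →ₗ[ℚ] ℝ) (D : Div K) : Div K := Finsupp.mapRange l (map_zero l) D

theorem map_mr (φ : Div K →ₗ[ℝ] ℝ) (h : ∀ P, ∃ k : ℤ, φ (Finsupp.single P 1) = k)
    (l : ℝ →ₗ[ℚ] ℝ) (D : Div K) : φ (mr l D) = l (φ D) := by
  induction D using Finsupp.induction_linear with
  | zero => simp [mr]
  | add D E h1 h2 =>
    rw [mr, Finsupp.mapRange_add (map_add l), map_add, map_add, map_add]
    exact congrArg₂ _ h1 h2
  | single P c =>
    obtain ⟨k, hk⟩ := h P
    have e : ∀ c : ℝ, φ (Finsupp.single P c) = k • c := fun c => by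
      rw [zsmul_eq_mul, ← hk, mul_comm, ← smul_eq_mul, ← map_smul, Finsupp.smul_single,
        smul_eq_mul, mul_one]
    rw [mr, Finsupp.mapRange_single, e, e, map_zsmul]

theorem fz_mr (h : Tb) (l : ℝ →ₗ[ℚ] ℝ) (n : ℕ) : ∀ {N : ℕ} {K : Type} [Field K] [Algebra ℂ K]
    (M : Mdl n N K) (H D : Div K), M.Proj → Fz n M H D → Fz n M H (mr l D) := by
  induction n with
  | zero => exact fun _ _ _ _ _ => trivial
  | succ n ih =>
    intro N K _ _ M H D hM hD
    refine ⟨(map_mr _ (fun P => ?_) l D).trans (by rw [hD.1, map_zero]), fun P u hP => ?_⟩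
    · rw [deg, Finsupp.linearCombination_single, one_smul]
      split_ifs
      exacts [⟨_, rfl⟩, ⟨0, Int.cast_zero.symm⟩]
    · have e : u.r (mr l D) = mr l (u.r D) := Finsupp.ext fun Q =>
        map_mr (Finsupp.lapply Q ∘ₗ u.r)
          (fun R => (gd_r (h.box.loc _ N K M hM) u (IsInt.single R)).2 Q) l D
      rw [e]
      exact ih _ _ _ u.proj (hD.2 P u hP)

theorem rat_span (D : Div K) (V : Submodule ℝ (Div K))
    (h : ∀ l : ℝ →ₗ[ℚ] ℝ, IsInt (mr l D) → mr l D ∈ V) : D ∈ V := by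
  classical
  let e := Module.Basis.ofVectorSpace ℚ ℝ
  let l := fun b => Algebra.linearMap ℚ ℝ ∘ₗ e.coord b
  have h1 : ∀ b, mr (l b) D ∈ V := fun b => by
    set m : ℕ := ∏ P ∈ D.support, (e.coord b (D P)).den
    have m0 : (m : ℝ) ≠ 0 := Nat.cast_ne_zero.2 (Finset.prod_ne_zero_iff.2 fun _ _ => Rat.den_nz _)
    have h2 := h ((m : ℚ) • l b) fun P => by
      by_cases hP : P ∈ D.support
      · obtain ⟨c, hc⟩ : (e.coord b (D P)).den ∣ m := Finset.dvd_prod_of_mem _ hP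
        refine ⟨c * (e.coord b (D P)).num, ?_⟩
        change (m : ℚ) • ((e.coord b (D P) : ℚ) : ℝ) = _
        rw [Rat.smul_def, ← Rat.cast_mul, hc, Nat.cast_mul, mul_right_comm, Rat.den_mul_eq_num]
        push_cast
        ring
      · exact ⟨0, by
          change ((m : ℚ) • l b) (D P) = _
          rw [Finsupp.notMem_support_iff.1 hP, map_zero, Int.cast_zero]⟩
    have h3 : mr (l b) D = (m : ℝ)⁻¹ • mr ((m : ℚ) • l b) D := Finsupp.ext fun P => by
      change l b (D P) = (m : ℝ)⁻¹ * ((m : ℚ) • l b (D P))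
      rw [Rat.smul_def, Rat.cast_natCast, inv_mul_cancel_left₀ m0]
    exact h3 ▸ V.smul_mem _ h2
  have h4 : D = ∑ b ∈ D.support.biUnion fun P => (e.repr (D P)).support, e b • mr (l b) D :=
    Finsupp.ext fun P => by
      rw [Finsupp.finsetSum_apply]
      by_cases hP : P ∈ D.support
      · conv_lhs => rw [← e.linearCombination_repr (D P), Finsupp.linearCombination_apply,
          Finsupp.sum_of_support_subset _ (Finset.subset_biUnion_of_mem
            (fun P => (e.repr (D P)).support) hP) (fun i a => a • e i) fun _ _ => zero_smul _ _]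
        exact Finset.sum_congr rfl fun b _ => (Rat.smul_def _ _).trans (mul_comm _ _)
      · refine (Finsupp.notMem_support_iff.1 hP).trans (Finset.sum_eq_zero fun b _ => ?_).symm
        change e b * l b (D P) = 0
        rw [Finsupp.notMem_support_iff.1 hP, map_zero, mul_zero]
  exact h4 ▸ V.sum_mem fun b _ => V.smul_mem _ (h1 b)

/-! ### restriction to smooth prime divisors -/

/-- the rows which are used -/
structure Hy : Prop where
  tb : Tb
  ar : ∀ n, AR n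
  poly : ∀ n, POLY n
  exs : ∀ n, EXS n
  cp : ∀ n, CP n
  bt : ∀ n, BT n
  dh : ∀ n, DH n

theorem Hy.eff (h : Hy) {M : Mdl n N K} (hM : M.Proj) {A : Div K} (h1 : M.Dv A) (h2 : M.Amp A) :
    Eff M A :=
  let ⟨G, hG, _⟩ := (h.ar n N K M hM).1 A ∅ h1 h2 finite_empty
  ⟨G, hG⟩

variable {M : Mdl (n + 1) N K} {H D : Div K} {P : Place K}

theorem Hy.deg_rep (h : Hy) (hM : M.Proj) (hc : Cpt M) (hH : Pol M H) {G : Div K}
    (hG : Rep M D G) : deg M H G = deg M H D :=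
  sub_eq_zero.1 ((map_sub _ _ _).symm.trans
    ((deg_of h.tb h.poly h.exs h.cp n N K M hM hc H hH.dv hH.int).2.1 _ hG.2))

theorem Hy.dnn (h : Hy) (hM : M.Proj) (hc : Cpt M) (hH : Pol M H) (hD : 0 ≤ D) : 0 ≤ deg M H D :=
  dnn_of h.tb h.poly h.exs h.cp h.bt n N K M hM hc H hH D hD

theorem Hy.deg_psef (h : Hy) (hM : M.Proj) (hc : Cpt M) (hH : Pol M H) (hD : Psef M D) :
    0 ≤ deg M H D := by
  have h1 : Tendsto (fun c : ℝ => deg M H D + c * deg M H H) (𝓝[>] 0)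
      (𝓝 (deg M H D + 0 * deg M H H)) :=
    ((continuous_const.add (continuous_id.mul continuous_const)).tendsto 0).mono_left
      nhdsWithin_le_nhds
  rw [zero_mul, add_zero] at h1
  refine ge_of_tendsto h1 (eventually_nhdsWithin_of_forall fun c hc' => ?_)
  obtain ⟨G, hG⟩ := hD _ (dv_smul hH.dv c) ((h.tb.box.pos _ N K M hM).smul _ c hc' hH.amp)
  have := h.dnn hM hc hH hG.1
  rwa [h.deg_rep hM hc hH hG, map_add, map_smul] at this

theorem Hy.pol (h : Hy) (hM : M.Proj) (hc : Cpt M) (hH : Pol M H) (hP : M.Snc {P})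
    (u : SubM M P) : Cpt u.S ∧ Pol u.S (u.r H) := by
  obtain ⟨k1, -, k3, -, k5, -⟩ := h.exs n N K M hM hc _ _ _ u.s u.rst _ u.ht u.proj hP
  have hr := gd_r (h.tb.box.loc _ N K M hM) u hH.int
  exact ⟨k1, hr.1, hr.2, k3 H hH.amp, k5 H hH.int hH.free⟩

theorem Hy.deg_sm (h : Hy) (hM : M.Proj) (hc : Cpt M) (hH : Pol M H) (hP : M.Snc {P}) :
    1 ≤ deg M H (Finsupp.single P 1) := by
  cases n with
  | zero =>
    exact ((deg_of h.tb h.poly h.exs h.cp 0 N K M hM hc H hH.dv hH.int).2.2.2 rfl P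
      (hP.1 P rfl)).ge
  | succ n =>
    obtain ⟨u⟩ := exists_sub h.tb hM hP
    obtain ⟨k1, k2⟩ := h.pol hM hc hH hP u
    have k3 := h.dh n N _ u.S u.proj k1 _ k2
    rw [deg_eq, (ok_of h.tb h.poly u.proj k1).dg_int (fun _ => ⟨k2.dv, k2.int⟩)
      ⟨k2.dv, k2.int⟩] at k3
    rw [deg_eq, dg_single (hP.1 P rfl),
      res h.tb h.poly (h.exs _) hM hc hP u fun _ => ⟨hH.dv, hH.int⟩]
    refine k3.trans_eq (congrArg (fun a => ((I u.S a : ℤ) : ℝ)) (funext fun i => ?_))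
    exact Fin.cases rfl (fun _ => rfl) i

theorem r_nonneg (h : Tb) (u : SubM M P) (hD : 0 ≤ D) (h0 : D P = 0) : 0 ≤ u.r D := by
  have h1 := u.rst.sec _ h0 1 (one_mem_H0 hD)
  rw [res_one] at h1
  have h2 := div_add_nonneg (h.box.loc _ N _ u.S u.proj) (dv_rs _ _) h1 one_ne_zero
  rw [div_one (h.box.loc _ N _ u.S u.proj), zero_add] at h2
  rwa [SubM.r, rsn_of_zero _ _ h0]

theorem Hy.psef_r (h : Hy) (hM : M.Proj) (hc : Cpt M) (hH : Pol M H) (hD : Psef M D)
    (h0 : deg M H D = 0) (hP : M.Snc {P}) (u : SubM M P) : Psef u.S (u.r D) := by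
  intro A h1 h2
  have pS := h.tb.box.pos _ N _ u.S u.proj
  have h3 := pS.smul _ _ one_half_pos h2
  obtain ⟨ε, e1, e2⟩ := Metric.eventually_nhds_iff.1 (amp_ev pS h3 (u.r (Finsupp.single P 1)))
  have h4 : ∀ᶠ c : ℝ in 𝓝 0, c * deg M H H < ε :=
    (continuous_id.mul continuous_const).continuousAt.eventually_lt continuousAt_const (by simpa)
  obtain ⟨c, ⟨c1, c2⟩, c3⟩ := ((((amp_ev pS h3 (-u.r H)).and h4).filter_mono
    (nhdsWithin_le_nhds (s := Ioi 0))).and self_mem_nhdsWithin).exists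
  obtain ⟨G, hG⟩ := hD _ (dv_smul hH.dv c) ((h.tb.box.pos _ N K M hM).smul _ c c3 hH.amp)
  have g1 : 0 ≤ G - G P • Finsupp.single P (1 : ℝ) := fun Q => by
    by_cases e : Q = P
    · simp [e]
    · simpa [Finsupp.single_eq_of_ne e] using hG.1 Q
  have g2 := h.dnn hM hc hH g1
  rw [map_sub, h.deg_rep hM hc hH hG, map_add, h0, map_smul, map_smul, smul_eq_mul,
    smul_eq_mul] at g2
  have g3 : 0 ≤ G P := hG.1 P
  have g4 : dist (G P) 0 < ε := by
    rw [Real.dist_eq, sub_zero, abs_of_nonneg g3]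
    nlinarith [h.deg_sm hM hc hH hP]
  have g5 : Eff u.S (u.r (D + c • H - G P • Finsupp.single P 1)) :=
    ⟨_, r_nonneg h.tb u g1 (by simp), by
      rw [← map_sub, sub_sub_sub_cancel_right]
      exact (h.exs n N K M hM hc _ _ _ u.s u.rst _ u.ht u.proj hP).2.2.2.2.2.1 _ hG.2⟩
  have dr : ∀ E, u.S.Dv (u.r E) := fun E => dv_rs _ _
  have g6 := g5.add (h.eff u.proj (dv_add (dv_add (dv_smul h1 _) (dv_smul (dv_neg (dr _)) _))
    (dv_add (dv_smul h1 _) (dv_smul (dr _) _))) (pS.add _ _ c1 (e2 g4)))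
  refine g6.congr ?_
  simp only [map_sub, map_add, map_smul]
  rw [sub_eq_zero.2 (by module)]
  exact zero_mem _

theorem Hy.deg_r {M : Mdl (n + 2) N K} (h : Hy) (hM : M.Proj) (hc : Cpt M) (hH : Pol M H)
    (hd : M.Dv D) (hD : Psef M D) (h0 : deg M H D = 0) (hP : M.Snc {P}) (u : SubM M P) :
    deg u.S (u.r H) (u.r D) = 0 := by
  classical
  have hL := h.tb.box.loc _ N K M hM
  obtain ⟨k, hk⟩ := (h.tb.box.pos _ N K M hM).gg H (-Finsupp.single P 1) hH.amp hH.int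
    (IsInt.neg (IsInt.single P))
  obtain ⟨f, Y, hf, e1, -, -, e2, e3, -⟩ := h.bt _ N K M hM M (Mod.refl M) ∅ ∅ {P} _ hM finite_empty
    (snc_empty hL) finite_empty (snc_empty hL) (fun _ h => h.2 h.1) (finite_singleton P)
    (dv_add (dv_neg (dv_single (hP.1 P rfl) 1)) (dv_smul hH.dv k))
    (IsInt.add (IsInt.neg (IsInt.single P)) (IsInt.nsmul hH.int k)) (hk k le_rfl)
  have hY : ∀ Q ∈ insert P Y, M.Snc {Q} := fun Q hQ => by
    rcases Finset.mem_insert.1 hQ with rfl | hQ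
    exacts [hP, snc_mono e3 (by simpa using hQ)]
  let p : (insert P Y : Finset _) := ⟨P, Finset.mem_insert_self P Y⟩
  let v : ∀ Q : (insert P Y : Finset _), SubM M Q :=
    Function.update (fun Q => (exists_sub h.tb hM (hY Q.1 Q.2)).some) p u
  have key := drs_of h.tb h.poly h.exs n N K M hM hc H k (insert P Y) v hH.dv hH.int hY
    (Submodule.subset_span ⟨f, hf, by
      rw [Finset.sum_insert fun e => disjoint_left.1 e2 (Finset.mem_coe.2 e) rfl, ← e1]
      abel⟩) D hd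
  rw [h0, mul_zero, Finset.sum_eq_zero_iff_of_nonneg fun Q _ =>
    h.deg_psef (v Q).proj (h.pol hM hc hH (hY Q.1 Q.2) _).1 (h.pol hM hc hH (hY Q.1 Q.2) _).2
      (h.psef_r hM hc hH hD h0 (hY Q.1 Q.2) _)] at key
  have e : v p = u := Function.update_self _ _ _
  exact e ▸ key p (Finset.mem_univ _)

theorem Hy.fz (h : Hy) (n : ℕ) : ∀ {N : ℕ} {K : Type} [Field K] [Algebra ℂ K]
    (M : Mdl (n + 1) N K) (H D : Div K), M.Proj → Cpt M → Pol M H → M.Dv D → Psef M D →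
    deg M H D = 0 → Fz (n + 1) M H D := by
  induction n with
  | zero => exact fun _ _ _ _ _ _ _ _ h0 => ⟨h0, fun _ _ _ => trivial⟩
  | succ n ih =>
    exact fun M H D hM hc hH hd hD h0 => ⟨h0, fun P u hP => ih _ _ _ u.proj
      (h.pol hM hc hH hP u).1 (h.pol hM hc hH hP u).2 (dv_rs _ _) (h.psef_r hM hc hH hD h0 hP u)
      (h.deg_r hM hc hH hd hD h0 hP u)⟩

theorem Hy.d1 (h : Hy) (hT : NTF (n + 1)) : D1 n := fun N K _ _ M hM hc H D hH hd hD h0 =>
  rat_span D _ fun l hl => Submodule.subset_span (hT N K M hM hc H _ hH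
    (fun P hP => hd P (Finsupp.support_mapRange hP)) hl
    (fz_mr h.tb l _ M H D hM (h.fz n M H D hM hc hH hd hD h0)))

theorem Hy.dpos (h : Hy) (hT : NTF (n + 1)) (hC : CONST (n + 1)) : DPOS n := by
  intro N K _ _ M hM hc H hH P hp
  have hL := h.tb.box.loc _ N K M hM
  have hP := h.tb.box.pos _ N K M hM
  have p0 : (0 : Div K) ≤ Finsupp.single P 1 := Finsupp.single_nonneg.2 zero_le_one
  obtain ⟨z, hz, -⟩ := (deg_of h.tb h.poly h.exs h.cp n N K M hM hc H hH.dv hH.int).1 _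
    (dv_single hp 1) (IsInt.single P)
  have h1 := h.dnn hM hc hH p0
  rw [hz] at h1 ⊢
  refine Int.cast_one_le_of_pos ((Int.cast_nonneg_iff.1 h1).lt_of_ne fun e => ?_)
  obtain ⟨-, n1, n2⟩ := nef_of_span hP (h.d1 hT N K M hM hc H _ hH (dv_single hp 1)
    (fun A a1 a2 => (eff_of_nonneg p0).add (h.eff hM a1 a2)) (by rw [hz, ← e, Int.cast_zero]))
  obtain ⟨κ, hκ⟩ := exists_can hL
  obtain ⟨m, hm⟩ := hP.gg H κ hH.amp hH.int (hκ.int hL)
  obtain ⟨x, hx⟩ := M.conn.nonempty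
  obtain ⟨f, f1, f2, -⟩ := hm (m + 1) m.le_succ ⟨x, hx⟩
  set L := κ + ((m + 1 : ℕ) : ℝ) • H
  obtain ⟨t, ht⟩ := exists_nat_gt ((P.ord f : ℝ) + L P)
  have h2 := hC N K M hM hc κ 0 L ((t : ℝ) • -Finsupp.single P 1) ∅
    ⟨hκ, finite_empty, snc_empty hL⟩ (bd1_zero _) (dv_add hκ.dv (dv_smul hH.dv _))
    (IsInt.add (hκ.int hL) (IsInt.nsmul hH.int _))
    (by simpa only [L, add_sub_cancel_left, sub_zero] using hP.smul _ _ (by positivity) hH.amp)
    ⟨dv_smul (dv_neg (dv_single hp 1)) _, IsInt.nsmul (IsInt.neg (IsInt.single P)) t,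
      nef_smul hP n2 t.cast_nonneg, by
        simpa only [smul_neg, neg_neg] using nef_smul hP n1 t.cast_nonneg⟩
  have := ((h.cp _ N K M hM).2 hc).1 L
  have h3 := Submodule.eq_of_le_of_finrank_eq (S₁ := (M.H0 _).restrictScalars ℂ)
    (S₂ := (M.H0 L).restrictScalars ℂ) (fun _ hg => H0_mono (add_le_of_nonpos_right
      (smul_nonpos_of_nonneg_of_nonpos t.cast_nonneg (neg_nonpos.2 p0))) hg) h2
  have h4 : f ∈ M.H0 (L + (t : ℝ) • -Finsupp.single P 1) := h3.ge f1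
  have h5 := h4.resolve_left f2 P hp
  simp only [Finsupp.add_apply, Finsupp.smul_apply, Finsupp.neg_apply, Finsupp.single_eq_same,
    smul_eq_mul] at h5
  linarith

end Dz

theorem d1_of (h : Tb) (hA : ∀ n, AR n) (hP : ∀ n, POLY n) (hE : ∀ n, EXS n) (hC : ∀ n, CP n)
    (hB : ∀ n, BT n) (hD : ∀ n, DH n) (hT : ∀ n, NTF n) (n : ℕ) : D1 n :=
  Dz.Hy.d1 ⟨h, hA, hP, hE, hC, hB, hD⟩ (hT _)

theorem dpos_of (h : Tb) (hA : ∀ n, AR n) (hP : ∀ n, POLY n) (hE : ∀ n, EXS n) (hC : ∀ n, CP n)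
    (hB : ∀ n, BT n) (hD : ∀ n, DH n) (hT : ∀ n, NTF n) (hK : ∀ n, CONST n) (n : ℕ) : DPOS n :=
  Dz.Hy.dpos ⟨h, hA, hP, hE, hC, hB, hD⟩ (hT _) (hK _)

end Vale.Agent.P277Z.F5
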