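import Vale.Agent.P277Z.F5.Sk
import Vale.Agent.P277Z.FI.Res1
import Vale.Agent.P277Z.Lift.Rs

/-!
# P277Z, non-vanishing: the restriction sequence
-/

set_option linter.all false

open Set Filter Topology
open Vale.Agent.P297 (Place)
open Vale.Agent.P297Z.Pl

noncomputable section

namespace Vale.Agent.P277Z.F5

open FI

variable {n N : ℕ} {K L' : Type} [Field K] [Algebra ℂ K] [Field L'] [Algebra ℂ L']

namespace ExsH

theorem h0_sub {M : Mdl n N K} (hL : Loc M) (D : Div K) {t : K} (ht : t ≠ 0) (k : ℤ) :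
    h0 M (D - (k : ℝ) • M.div t) = h0 M D := by
  refine (LinearEquiv.finrank_eq ((LinearEquiv.ofBijective ((LinearMap.mulRight ℂ (t ^ k)).restrict
    (p := (M.H0 D).restrictScalars ℂ) (q := (M.H0 (D - (k : ℝ) • M.div t)).restrictScalars ℂ)
    fun f hf => mul_zpow_mem hL hf ht k) ⟨fun f g e => Subtype.ext ?_, fun f => ?_⟩))).symm
  · exact mul_right_cancel₀ (zpow_ne_zero k ht) (congrArg Subtype.val e)
  · have h := mul_zpow_mem hL f.2 ht (-k)
    rw [Int.cast_neg, neg_smul, sub_neg_eq_add, sub_add_cancel] at h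
    refine ⟨⟨_, h⟩, Subtype.ext ?_⟩
    change (f : K) * t ^ (-k) * t ^ k = f
    rw [mul_assoc, ← zpow_add₀ ht, neg_add_cancel, zpow_zero, mul_one]

variable {S : Mdl n N L'} {M : Mdl (n + 1) N K} {P : Place K} {s : Sub S M P}

/-- the restriction of sections -/
def rl (hR : Rst s) {D : Div K} (hD : D P = 0) :
    (M.H0 D).restrictScalars ℂ →ₗ[ℂ] (S.H0 (s.rs D)).restrictScalars ℂ where
  toFun f := ⟨s.res f, hR.sec D hD f f.2⟩
  map_add' f g := Subtype.ext (s.res_add _ (mem_ring_of_H0 f.2 (pr_sub s) hD) _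
    (mem_ring_of_H0 g.2 (pr_sub s) hD))
  map_smul' c f := Subtype.ext (by
    change s.res (c • (f : K)) = c • s.res f
    rw [Algebra.smul_def, Algebra.smul_def, s.res_mul _ (O₀_ring (algebraMap_mem _ c) (pr_sub s)) _
      (mem_ring_of_H0 f.2 (pr_sub s) hD), s.res_const])

theorem mem_sub {D : Div K} (hD : D P = 0) (hi : IsInt D) {f : K} :
    f ∈ M.H0 (D - Finsupp.single P 1) ↔ f ∈ M.H0 D ∧ s.res f = 0 := by
  constructor
  · intro h
    have h1 : f ∈ M.H0 D := H0_mono (sub_le_self _ (Finsupp.single_nonneg.2 zero_le_one)) h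
    refine ⟨h1, (s.res_zero f (mem_ring_of_H0 h1 (pr_sub s) hD)).2 (h.imp_right fun k => ?_)⟩
    have := k P (pr_sub s)
    rw [Finsupp.sub_apply, hD, Finsupp.single_eq_same] at this
    exact_mod_cast (by linarith : (0 : ℝ) < P.ord f)
  · rintro ⟨h1, h2⟩
    refine or_iff_not_imp_left.2 fun h0 Q hQ => ?_
    by_cases e : Q = P
    · have := ((s.res_zero f (mem_ring_of_H0 h1 (pr_sub s) hD)).1 h2).resolve_left h0
      rw [e, Finsupp.sub_apply, hD, Finsupp.single_eq_same]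
      have : (1 : ℝ) ≤ P.ord f := by exact_mod_cast this
      linarith
    · rw [Finsupp.sub_apply, Finsupp.single_eq_of_ne e, sub_zero]
      exact h1.resolve_left h0 Q hQ

theorem rank (hR : Rst s) {D : Div K} (hD : D P = 0) (hi : IsInt D)
    [Module.Finite ℂ ((M.H0 D).restrictScalars ℂ)] :
    h0 M D = h0 M (D - Finsupp.single P 1) + Module.finrank ℂ (LinearMap.range (rl hR hD)) := by
  rw [h0, ← (rl hR hD).finrank_range_add_finrank_ker, add_comm, h0,
    ← Submodule.finrank_map_subtype_eq]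
  refine congrArg (fun V : Submodule ℂ K => Module.finrank ℂ V + _) ?_
  ext f
  simp only [Submodule.mem_map, LinearMap.mem_ker, Submodule.restrictScalars_mem,
    mem_sub (s := s) hD hi]
  exact ⟨fun ⟨g, h1, h2⟩ => h2 ▸ ⟨g.2, congrArg Subtype.val h1⟩,
    fun h => ⟨⟨f, h.1⟩, Subtype.ext h.2, rfl⟩⟩

end ExsH

open ExsH

/-- **EXS** -/
theorem exs (h : Tb) (hCP : ∀ n, CP n) (n : ℕ) : EXS n := by
  intro N K _ _ M hM hc L' _ _ S P s hR t ht hS hP
  have lM := h.box.loc _ N K M hM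
  have lS := h.box.loc _ N L' S hS
  have pM := h.box.pos _ N K M hM
  have pS := h.box.pos _ N L' S hS
  have t0 : t ≠ 0 := fun e => by simp [e, div_apply lM _ (pr_sub s)] at ht
  have cS : Cpt S := by
    filter_upwards [s.base, (s.cont.tendsto_nhdsSet fun y hy => s.mem y hy).eventually hc]
      with y h1 h2 using h1.trans h2
  have fM := ((hCP _ N K M hM).2 hc).1
  have fS := ((hCP _ N L' S hS).2 cS).1
  have amp : ∀ A, M.Amp A → M.Amp (nr M P t A) := fun A hA => by
    rw [nr_apply, sub_eq_add_neg, ← neg_smul]; exact amp_div lM pM hA t0 _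
  have amp' : ∀ A, M.Amp A → S.Amp (rsn hR ht A) := fun A hA =>
    hR.amp _ (nr_self ht A) (amp A hA)
  have int : ∀ D, IsInt D → IsInt (nr M P t D) := fun D hD => by
    obtain ⟨k, hk⟩ := hD P
    rw [nr_apply, hk]
    exact IsInt.sub hD (IsInt.zsmul (int_div lM t) k)
  have rk : ∀ L, IsInt L → h0 M (L + Finsupp.single P 1) = h0 M L + Module.finrank ℂ
      (LinearMap.range (rl hR (nr_self ht (L + Finsupp.single P 1)))) := fun L hL => by
    have h1 := IsInt.add hL (IsInt.single P)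
    have := fM (nr M P t (L + Finsupp.single P 1))
    have h2 := rank hR (nr_self ht (L + Finsupp.single P 1)) (int _ h1)
    obtain ⟨k, hk⟩ := h1 P
    have h3 : nr M P t (L + Finsupp.single P 1) = L + Finsupp.single P 1 - (k : ℝ) • M.div t := by
      rw [nr_apply, hk]
    rw [← h0_sub lM _ t0 k, ← h0_sub lM L t0 k, ← h3, h2]
    congr 2
    rw [h3]
    abel
  refine ⟨cS, fun L _ hL => ?_, amp', fun D hD A hA => ?_, fun D hD hf y => ?_, fun D hD => ?_,
    fun κ T B hT hg hB => ⟨⟨{Q | ∃ R ∈ insert P T, R ≠ P ∧ s.rs (Finsupp.single R 1) Q ≠ 0},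
      ⟨?_, ?_, (hR.snc _ (mem_insert _ _) hg.snc).1⟩, ?_⟩, fun L h1 h2 h3 => ?_⟩⟩
  · have := fS (rsn hR ht (L + Finsupp.single P 1))
    rw [rk L hL]
    exact Nat.add_le_add_left (Submodule.finrank_le _) _
  · obtain ⟨A₀, -, -, h1⟩ := pM.ex
    obtain ⟨ε, e0, e1⟩ := pS.opn A (-rsn hR ht A₀) hA
    have := pS.add _ _ (amp' _ (hD _ (pM.smul _ ε e0 h1))) e1
    rwa [map_add, map_smul, smul_neg, add_assoc, add_comm A, add_neg_cancel_left] at this
  · obtain ⟨f, f1, f2, f3⟩ := hf (Lift.pt s y)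
    obtain ⟨k, hk⟩ := hD P
    have h1 : f * t ^ k ∈ M.H0 (nr M P t D) := by
      rw [nr_apply, hk]; exact mul_zpow_mem lM f1 t0 k
    have h2 : Lift.LG M (Lift.pt s y) (-nr M P t D) (f * t ^ k) :=
      ⟨mul_ne_zero f2 (zpow_ne_zero _ t0), fun R hR => by
        rw [ord_mul R f2 (zpow_ne_zero _ t0), ord_zpow, nr_apply, hk, Finsupp.neg_apply,
          Finsupp.sub_apply, Finsupp.smul_apply, div_apply lM t ⟨_, hR⟩, smul_eq_mul]
        push_cast
        linarith [f3 R hR]⟩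
    have h3 := h2.res lM lS hR (by rw [Finsupp.neg_apply, nr_self ht, neg_zero])
    refine ⟨_, hR.sec _ (nr_self ht D) _ h1, h3.1, fun Q hQ => ?_⟩
    rw [h3.2 Q hQ, ← map_neg, ← rsn_apply hR ht, map_neg, Finsupp.neg_apply, neg_add_cancel]
  · refine Submodule.span_induction (p := fun D _ => rsn hR ht D ∈ PrR S) ?_ (by simp)
      (fun _ _ _ _ a b => by rw [map_add]; exact add_mem a b)
      (fun c _ _ a => by rw [map_smul]; exact Submodule.smul_mem _ c a) hD
    rintro _ ⟨f, f0, rfl⟩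
    exact Submodule.subset_span (rsn_div lM hR ht f0)
  · obtain ⟨t₁, ht₁, h1⟩ := adj_can lM lS hR hP hg.can
    obtain ⟨k, hk⟩ := IsInt.add (hg.can.int lM) (IsInt.single P) P
    obtain ⟨u, u0, u1⟩ := rsn_div lM hR ht₁ (zpow_ne_zero (-k) t0)
    rw [rsn_apply, ← rsn_of_zero hR ht₁ (nr_self ht _), nr_apply, hk, sub_eq_add_neg, ← neg_smul,
      ← Int.cast_neg, ← div_zpow lM, map_add, u1]
    exact h1.add_div lS u0
  · exact (hg.fin.biUnion fun R _ => (s.rs (Finsupp.single R 1)).support.finite_toSet).subset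
      fun Q ⟨R, h1, _, h2⟩ => mem_biUnion h1 (Finsupp.mem_support_iff.2 h2)
  · have h0 : ∀ R ∈ B.support, R ∈ insert P T ∧ R ≠ P := fun R h1 =>
      ⟨mem_insert_of_mem _ (hB.1 h1), fun e => hT (e ▸ hB.1 h1)⟩
    have h1 : ∀ Q, rsn hR ht B Q = ∑ R ∈ B.support, B R * s.rs (Finsupp.single R 1) Q := fun Q => by
      conv_lhs => rw [← B.sum_single, Finsupp.sum, map_sum, Finsupp.finset_sum_apply]
      refine Finset.sum_congr rfl fun R h1 => ?_
      rw [← Finsupp.smul_single_one, map_smul,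
        rsn_of_zero hR ht (Finsupp.single_eq_of_ne (h0 R h1).2.symm)]
      rfl
    refine ⟨fun Q hQ => ?_, fun Q => ?_⟩
    · obtain ⟨R, h2, h3⟩ := Finset.exists_ne_zero_of_sum_ne_zero
        (h1 Q ▸ Finsupp.mem_support_iff.1 hQ)
      exact ⟨R, (h0 R h2).1, (h0 R h2).2, right_ne_zero_of_mul h3⟩
    · by_cases e : ∃ R ∈ B.support, s.rs (Finsupp.single R 1) Q ≠ 0
      · obtain ⟨R, h2, h3⟩ := e
        rw [h1, Finset.sum_eq_single_of_mem R h2 fun R' k1 k2 => mul_eq_zero_of_right _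
          (not_not.1 fun k3 => k2 (rs_uniq lM lS (h.box.jac n) hR hg.snc (mem_insert _ _)
            (h0 R' k1).1 (h0 R h2).1 (h0 R' k1).2 (h0 R h2).2 k3 h3)),
          ((hR.snc _ (mem_insert _ _) hg.snc).2 R (h0 R h2).1 (h0 R h2).2 Q).resolve_left h3, mul_one]
        exact hB.2 R
      · push Not at e
        rw [h1, Finset.sum_eq_zero fun R k => mul_eq_zero_of_right _ (e R k)]
        exact ⟨le_rfl, zero_le_one⟩
  · rw [rk L h2, LinearMap.range_eq_top.2 fun u => ?_, finrank_top]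
    · rfl
    have h4 : M.Amp (nr M P t (L + Finsupp.single P 1) - κ - Finsupp.single P 1 - B) := by
      refine Eq.mp (congrArg M.Amp ?_) (amp_div lM pM h3 t0 (-(L + Finsupp.single P 1 : Div K) P))
      rw [nr_apply, neg_smul]
      abel
    obtain ⟨f, f1, f2⟩ := h.ext n N K M hM L' S P s κ _ B T hS hT hg hB
      (dv_sub (dv_add h1 (dv_single (pr_sub s) 1)) (dv_smul (dv_div t) _))
      (int _ (IsInt.add h2 (IsInt.single P))) (nr_self ht _) h4 u u.2
    exact ⟨⟨f, f1⟩, Subtype.ext f2⟩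

end Vale.Agent.P277Z.F5
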