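import Mathlib

/-!
# P277Z: bounded fractional parts force a finite limit support
-/

open Set Filter Topology

noncomputable section

namespace Vale.Agent.P277Z.F5.Fr

theorem fract_pair (x y : ℝ) (h1 : 1 / 4 ≤ y) (h2 : y ≤ 3 / 4) :
    1 / 4 ≤ Int.fract x + Int.fract (x + y) := by
  have a := Int.fract_nonneg x
  have b := Int.fract_nonneg (x + y)
  by_cases h : 1 / 4 ≤ Int.fract x
  · linarith
  have e : Int.fract (x + y) = Int.fract x + y := by
    rw [Int.fract_eq_iff]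
    refine ⟨by linarith, by linarith, ⌊x⌋, ?_⟩
    have := Int.floor_add_fract x
    linarith
  linarith

theorem avg {l : ℕ} (hl : 4 ≤ l) {g : ℝ} (h1 : 1 / (l : ℝ) ≤ g) (h2 : g ≤ 1 / 2) :
    ((l : ℝ) + 1) / 16 ≤ ∑ m ∈ Finset.range (l + 1), Int.fract ((m : ℝ) * g) := by
  have hl' : (4 : ℝ) ≤ l := by exact_mod_cast hl
  have g0 : 0 < g := lt_of_lt_of_le (by positivity) h1
  have lg : 1 ≤ l * g := by rwa [div_le_iff₀ (by linarith), mul_comm] at h1
  set j := ⌈1 / (4 * g)⌉₊ with hj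
  have j1 : 1 / (4 * g) ≤ j := Nat.le_ceil _
  have j2 : (j : ℝ) < 1 / (4 * g) + 1 := Nat.ceil_lt_add_one (by positivity)
  have e : 1 / (4 * g) * g = 1 / 4 := by field_simp
  have j3 : 1 / 4 ≤ j * g := e ▸ mul_le_mul_of_nonneg_right j1 g0.le
  have j4 : j * g ≤ 3 / 4 := by nlinarith
  have j5 : 1 / (4 * g) ≤ l / 4 := by
    rw [div_le_div_iff₀ (by positivity) (by norm_num)]
    nlinarith
  have j6 : (j : ℝ) ≤ l / 2 := by linarith
  have j7 : j ≤ l + 1 := by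
    have : (j : ℝ) ≤ l + 1 := by linarith
    exact_mod_cast this
  set f : ℕ → ℝ := fun m => Int.fract ((m : ℝ) * g) with hf
  have f0 : ∀ m, 0 ≤ f m := fun m => Int.fract_nonneg _
  have s1 : ∑ m ∈ Finset.range (l + 1 - j), f m ≤ ∑ m ∈ Finset.range (l + 1), f m :=
    Finset.sum_le_sum_of_subset_of_nonneg (Finset.range_mono (by omega)) fun m _ _ => f0 m
  have s2 : ∑ m ∈ Finset.range (l + 1 - j), f (j + m) ≤ ∑ m ∈ Finset.range (l + 1), f m := by
    have := Finset.sum_range_add f j (l + 1 - j)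
    rw [show j + (l + 1 - j) = l + 1 by omega] at this
    have := Finset.sum_nonneg fun m (_ : m ∈ Finset.range j) => f0 m
    linarith
  have s3 : ∑ m ∈ Finset.range (l + 1 - j), (1 / 4 : ℝ) ≤
      ∑ m ∈ Finset.range (l + 1 - j), (f m + f (j + m)) :=
    Finset.sum_le_sum fun m _ => by
      have := fract_pair (m * g) (j * g) j3 j4
      simp only [hf]
      push_cast
      rwa [show ((j : ℝ) + m) * g = m * g + j * g by ring]
  rw [Finset.sum_add_distrib, Finset.sum_const, Finset.card_range, nsmul_eq_mul,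
    Nat.cast_sub j7] at s3
  push_cast at s3
  linarith

variable {ι : Type}

/-- the number of coefficients above `1 / l` is bounded -/
theorem card_le {w : ι → ℝ} {c C : ℝ} {l : ℕ} (hl : 4 ≤ l) {G : ι →₀ ℝ} (h0 : 0 ≤ G)
    (hw : ∀ i ∈ G.support, 1 ≤ w i) (hC : (G.sum fun i g => g * w i) ≤ C)
    (hc : ∀ m : ℕ, m ≤ l → (G.sum fun i g => Int.fract (m * g) * w i) ≤ c)
    (I : Finset ι) (hI : ∀ i ∈ I, 1 / (l : ℝ) ≤ G i) : (I.card : ℝ) ≤ 16 * c + 2 * C := by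
  classical
  have hl' : (4 : ℝ) ≤ l := by exact_mod_cast hl
  have hs : I ⊆ G.support := fun i hi =>
    Finsupp.mem_support_iff.2 (lt_of_lt_of_le (by positivity) (hI i hi)).ne'
  rw [← Finset.card_filter_add_card_filter_not (s := I) fun i => G i ≤ 1 / 2]
  push_cast
  refine add_le_add ?_ ?_
  · set J := I.filter fun i => G i ≤ 1 / 2
    have a : ∑ _i ∈ J, ((l : ℝ) + 1) / 16 ≤
        ∑ i ∈ J, ∑ m ∈ Finset.range (l + 1), Int.fract ((m : ℝ) * G i) :=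
      Finset.sum_le_sum fun i hi =>
        avg hl (hI i (Finset.mem_filter.1 hi).1) (Finset.mem_filter.1 hi).2
    rw [Finset.sum_comm, Finset.sum_const, nsmul_eq_mul] at a
    have b : ∑ m ∈ Finset.range (l + 1), ∑ i ∈ J, Int.fract ((m : ℝ) * G i) ≤
        ∑ _m ∈ Finset.range (l + 1), c := Finset.sum_le_sum fun m hm => by
      refine le_trans ?_ (hc m (by simpa [Nat.lt_succ_iff] using hm))
      refine le_trans (Finset.sum_le_sum fun i hi => ?_) (Finset.sum_le_sum_of_subset_of_nonneg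
        ((Finset.filter_subset _ _).trans hs) fun i hi _ =>
          mul_nonneg (Int.fract_nonneg _) (zero_le_one.trans (hw i hi)))
      exact le_mul_of_one_le_right (Int.fract_nonneg _) (hw i (hs (Finset.mem_filter.1 hi).1))
    rw [Finset.sum_const, Finset.card_range, nsmul_eq_mul] at b
    push_cast at b
    have : ((l : ℝ) + 1) * (J.card : ℝ) ≤ ((l : ℝ) + 1) * (16 * c) := by linarith
    exact le_of_mul_le_mul_left this (by positivity)
  · set J := I.filter fun i => ¬ G i ≤ 1 / 2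
    have a : ∑ _i ∈ J, (1 / 2 : ℝ) ≤ ∑ i ∈ J, G i * w i := Finset.sum_le_sum fun i hi => by
      have h1 := not_le.1 (Finset.mem_filter.1 hi).2
      have h2 := hw i (hs (Finset.mem_filter.1 hi).1)
      nlinarith
    rw [Finset.sum_const, nsmul_eq_mul] at a
    have b : ∑ i ∈ J, G i * w i ≤ G.sum fun i g => g * w i :=
      Finset.sum_le_sum_of_subset_of_nonneg ((Finset.filter_subset _ _).trans hs) fun i hi _ =>
        mul_nonneg (h0 i) (zero_le_one.trans (hw i hi))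
    linarith

/-- the indices where a late member has a coefficient at least `δ` -/
def Sg (𝒢 : ℕ → Set (ι →₀ ℝ)) (δ : ℝ) (l : ℕ) : Set ι := {i | ∃ l', l ≤ l' ∧ ∃ G ∈ 𝒢 l', δ ≤ G i}

theorem Sg.mono {𝒢 : ℕ → Set (ι →₀ ℝ)} {δ δ' : ℝ} {l l' : ℕ} (h : δ ≤ δ') (h' : l ≤ l') :
    Sg 𝒢 δ' l' ⊆ Sg 𝒢 δ l := fun _ ⟨k, h1, G, h2, h3⟩ => ⟨k, h'.trans h1, G, h2, h.trans h3⟩

theorem finite_of_card {S : Set ι} {M : ℕ} (h : ∀ I : Finset ι, (I : Set ι) ⊆ S → I.card ≤ M) :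
    S.Finite := by
  by_contra hS
  obtain ⟨I, h1, h2⟩ := Set.Infinite.exists_subset_card_eq hS (M + 1)
  have := h I h1
  omega

theorem sg_card {a : ι →₀ ℝ} {𝒢 : ℕ → Set (ι →₀ ℝ)} (h0 : ∀ l, ∀ G ∈ 𝒢 l, 0 ≤ G) (ha : 0 ≤ a)
    (hcv : ∀ l, Convex ℝ (𝒢 l))
    (hsh : ∀ l l' : ℕ, l ≤ l' → ∀ G ∈ 𝒢 l',
      G + (1 / ((l : ℝ) + 1) - 1 / ((l' : ℝ) + 1)) • a ∈ 𝒢 l) {M : ℕ}
    (hM : ∀ l, 4 ≤ l → ∀ G ∈ 𝒢 l, ∀ I : Finset ι, (∀ i ∈ I, 1 / (l : ℝ) ≤ G i) → I.card ≤ M)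
    {δ : ℝ} (hδ : 0 < δ) : ∃ l₀, ∀ I : Finset ι, (I : Set ι) ⊆ Sg 𝒢 δ l₀ → I.card ≤ M := by
  obtain ⟨l, hl⟩ := exists_nat_ge (max 4 ((M + 1) / δ))
  have l4 : (4 : ℝ) ≤ l := (le_max_left _ _).trans hl
  have lM : (M + 1) / δ ≤ l := (le_max_right _ _).trans hl
  refine ⟨l, fun I hI => ?_⟩
  by_contra hc
  obtain ⟨J, hJ, hcard⟩ := Finset.exists_subset_card_eq (s := I) (n := M + 1) (by omega)
  have key : ∀ i ∈ J, ∃ G ∈ 𝒢 l, δ ≤ G i := fun i hi => by
    obtain ⟨l', h1, G, h2, h3⟩ := hI (hJ hi)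
    refine ⟨_, hsh l l' h1 G h2, h3.trans ?_⟩
    have : 1 / ((l' : ℝ) + 1) ≤ 1 / ((l : ℝ) + 1) := by
      have : (l : ℝ) ≤ l' := by exact_mod_cast h1
      gcongr
    simp only [Finsupp.add_apply, Finsupp.smul_apply, smul_eq_mul, le_add_iff_nonneg_right]
    exact mul_nonneg (by linarith) (ha i)
  choose! G hG hGi using key
  have mem : ∑ i ∈ J, (1 / ((M : ℝ) + 1)) • G i ∈ 𝒢 l :=
    (hcv l).sum_mem (fun _ _ => by positivity) (by
      rw [Finset.sum_const, hcard, nsmul_eq_mul]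
      push_cast
      field_simp) hG
  have := hM l (by exact_mod_cast l4) _ mem J fun i hi => by
    rw [Finsupp.finsetSum_apply]
    refine le_trans ?_ (Finset.single_le_sum (f := fun j => ((1 / ((M : ℝ) + 1)) • G j) i)
      (fun j hj => mul_nonneg (by positivity) (h0 l _ (hG j hj) i)) hi)
    rw [Finsupp.smul_apply, smul_eq_mul]
    refine le_trans ?_ (mul_le_mul_of_nonneg_left (hGi i hi) (by positivity))
    rw [div_le_iff₀ hδ] at lM
    rw [div_mul_eq_mul_div, one_mul, div_le_div_iff₀ (by linarith) (by positivity)]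
    linarith
  omega

theorem exists_supp {𝒢 : ℕ → Set (ι →₀ ℝ)} {M : ℕ}
    (h : ∀ δ : ℝ, 0 < δ → ∃ l₀, ∀ I : Finset ι, (I : Set ι) ⊆ Sg 𝒢 δ l₀ → I.card ≤ M) :
    ∃ S : Finset ι, ∀ δ : ℝ, 0 < δ → ∃ l₀, ∀ l, l₀ ≤ l → ∀ G ∈ 𝒢 l, ∀ i, i ∉ S → G i < δ := by
  have fin : {i | ∃ δ : ℝ, 0 < δ ∧ ∀ l, i ∈ Sg 𝒢 δ l}.Finite := by
    refine finite_of_card (M := M) fun I hI => ?_
    have ev : ∀ i ∈ I, ∀ᶠ δ in 𝓝[>] (0 : ℝ), ∀ l, i ∈ Sg 𝒢 δ l := fun i hi => by
      obtain ⟨δ, h1, h2⟩ := hI hi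
      filter_upwards [Ioo_mem_nhdsGT h1] with δ' h3 l using Sg.mono h3.2.le le_rfl (h2 l)
    obtain ⟨δ, h1, h2⟩ :=
      (((Filter.eventually_all_finset I).2 ev).and self_mem_nhdsWithin).exists
    obtain ⟨l₀, h3⟩ := h δ h2
    exact h3 I fun i hi => h1 i hi l₀
  refine ⟨fin.toFinset, fun δ hδ => ?_⟩
  obtain ⟨l₀, h1⟩ := h δ hδ
  have f2 := finite_of_card h1
  have ev : ∀ i ∈ Sg 𝒢 δ l₀, ∀ᶠ l in atTop, i ∈ Sg 𝒢 δ l → i ∈ fin.toFinset := fun i _ => by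
    by_cases hi : ∀ l, i ∈ Sg 𝒢 δ l
    · exact .of_forall fun _ _ => fin.mem_toFinset.2 ⟨δ, hδ, hi⟩
    · obtain ⟨l, hl⟩ := not_forall.1 hi
      filter_upwards [eventually_ge_atTop l] with l' h2 h3 using absurd (Sg.mono le_rfl h2 h3) hl
  obtain ⟨l₁, h2⟩ := eventually_atTop.1
    (((Filter.eventually_all_finite f2).2 ev).and (eventually_ge_atTop l₀))
  refine ⟨l₁, fun l hl G hG i hi => not_le.1 fun h3 => hi ?_⟩
  have h4 : i ∈ Sg 𝒢 δ l := ⟨l, le_rfl, G, hG, h3⟩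
  exact (h2 l hl).1 i (Sg.mono le_rfl (h2 l hl).2 h4) h4

theorem frac (w : ι → ℝ) (a : ι →₀ ℝ) (d c : ℝ) (𝒢 : ℕ → Set (ι →₀ ℝ)) (hw : ∀ i, 0 ≤ w i)
    (h0 : ∀ l, ∀ G ∈ 𝒢 l, 0 ≤ G ∧ ∀ i ∈ G.support, 1 ≤ w i) (ha : 0 ≤ a)
    (hcv : ∀ l, (𝒢 l).Nonempty ∧ Convex ℝ (𝒢 l))
    (hsh : ∀ l l' : ℕ, l ≤ l' → ∀ G ∈ 𝒢 l',
      G + (1 / ((l : ℝ) + 1) - 1 / ((l' : ℝ) + 1)) • a ∈ 𝒢 l)
    (hd : ∀ l : ℕ, ∀ G ∈ 𝒢 l,
      (G.sum fun i g => g * w i) = d + (1 / ((l : ℝ) + 1)) * a.sum fun i g => g * w i)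
    (hc : ∀ l, ∀ G ∈ 𝒢 l, ∀ m : ℕ, m ≤ l → (G.sum fun i g => Int.fract (m * g) * w i) ≤ c) :
    ∃ ν : ι →₀ ℝ, 0 ≤ ν ∧ (ν.sum fun i g => g * w i) = d ∧ ∀ η : ℝ, 0 < η → ∀ l₀, ∃ l, l₀ ≤ l ∧
      ∃ G ∈ 𝒢 l, ∀ i ∈ ν.support, i ∈ G.support ∧ ν i - η ≤ G i := by
  classical
  set α := a.sum fun i g => g * w i with hα
  have α0 : 0 ≤ α := Finset.sum_nonneg fun i _ => mul_nonneg (ha i) (hw i)
  have hC : ∀ l, ∀ G ∈ 𝒢 l, (G.sum fun i g => g * w i) ≤ d + α := fun l G hG => by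
    rw [hd l G hG]
    have : 1 / ((l : ℝ) + 1) ≤ 1 := by
      rw [div_le_one (by positivity)]
      have : (0 : ℝ) ≤ l := by positivity
      linarith
    nlinarith
  obtain ⟨M, hM⟩ := exists_nat_ge (16 * c + 2 * (d + α))
  obtain ⟨S, hS⟩ := exists_supp (𝒢 := 𝒢) (M := M) fun δ hδ =>
    sg_card (fun l G hG => (h0 l G hG).1) ha (fun l => (hcv l).2) hsh (fun l hl G hG I hI => by
      have := (card_le hl (h0 l G hG).1 (h0 l G hG).2 (hC l G hG) (hc l G hG) I hI).trans hM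
      exact_mod_cast this) hδ
  choose G hG using fun l => (hcv l).1
  have bd : ∀ l, (fun i : S => G l i) ∈ Icc (0 : S → ℝ) fun _ => max 0 (d + α) := fun l => by
    refine ⟨fun i => (h0 l _ (hG l)).1 i, fun i => ?_⟩
    by_cases hi : (i : ι) ∈ (G l).support
    · refine le_max_of_le_right (le_trans ?_ (hC l _ (hG l)))
      refine le_trans ?_ (Finset.single_le_sum (f := fun j => G l j * w j)
        (fun j _ => mul_nonneg ((h0 l _ (hG l)).1 j) (hw j)) hi)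
      exact le_mul_of_one_le_right ((h0 l _ (hG l)).1 i) ((h0 l _ (hG l)).2 i hi)
    · exact le_max_of_le_left (Finsupp.notMem_support_iff.1 hi).le
  obtain ⟨x, hx, φ, hφ, hl⟩ := isCompact_Icc.tendsto_subseq bd
  have hl' : ∀ i : S, Tendsto (fun k => G (φ k) i) atTop (𝓝 (x i)) := tendsto_pi_nhds.1 hl
  let ν : ι →₀ ℝ := Finsupp.onFinset S (fun i => if h : i ∈ S then x ⟨i, h⟩ else 0) fun i hi => by
    by_contra h
    exact hi (dif_neg h)
  have νS : ∀ i : S, ν i = x i := fun i => by simp [ν]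
  have νs : ν.support ⊆ S := Finsupp.support_onFinset_subset
  refine ⟨ν, fun i => ?_, ?_, fun η hη l₀ => ?_⟩
  · by_cases h : i ∈ S
    · exact (νS ⟨i, h⟩).symm ▸ hx.1 ⟨i, h⟩
    · simp [ν, h]
  · rw [Finsupp.sum_of_support_subset _ νs _ (by simp), ← Finset.sum_coe_sort]
    have t1 : Tendsto (fun k => ∑ i : S, G (φ k) i * w i) atTop (𝓝 (∑ i : S, ν i * w i)) :=
      tendsto_finsetSum _ fun i _ => by rw [νS]; exact (hl' i).mul_const _
    have t2 : Tendsto (fun k => d + 1 / ((φ k : ℝ) + 1) * α) atTop (𝓝 d) := by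
      have := ((tendsto_one_div_add_atTop_nhds_zero_nat (𝕜 := ℝ)).comp hφ.tendsto_atTop).mul_const α
      simpa using this.const_add d
    have sp : ∀ l, ((G l).sum fun i g => g * w i) =
        ∑ i : S, G l i * w i + ∑ i ∈ (G l).support \ S, G l i * w i := fun l => by
      rw [Finset.sum_coe_sort S fun i => G l i * w i,
        Finsupp.sum_of_support_subset _ (Finset.subset_union_right (s₁ := S)) _ (by simp),
        ← Finset.union_sdiff_self_eq_union, Finset.sum_union Finset.disjoint_sdiff]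
    have t3 : Tendsto (fun k => ∑ i ∈ (G (φ k)).support \ S, G (φ k) i * w i) atTop (𝓝 0) := by
      refine Tendsto.comp (g := fun l => ∑ i ∈ (G l).support \ S, G l i * w i) ?_ hφ.tendsto_atTop
      rw [Metric.tendsto_atTop]
      intro ε hε
      obtain ⟨m, hm⟩ := exists_nat_gt (max 0 (c / ε))
      have m0 : (0 : ℝ) < m := (le_max_left _ _).trans_lt hm
      have m1 : c < m * ε := by
        have := (le_max_right _ _).trans_lt hm
        rwa [div_lt_iff₀ hε] at this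
      obtain ⟨l₁, h1⟩ := hS (1 / m) (by positivity)
      refine ⟨max l₁ m, fun l h2 => ?_⟩
      have g0 := (h0 l _ (hG l)).1
      rw [Real.dist_eq, sub_zero,
        abs_of_nonneg (Finset.sum_nonneg fun i _ => mul_nonneg (g0 i) (hw i))]
      have h3 : m * ∑ i ∈ (G l).support \ S, G l i * w i ≤ c := by
        refine le_trans ?_ (hc l _ (hG l) m ((le_max_right _ _).trans h2))
        rw [Finset.mul_sum]
        refine le_trans (Finset.sum_le_sum fun i hi => ?_) (Finset.sum_le_sum_of_subset_of_nonneg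
          Finset.sdiff_subset fun i _ _ => mul_nonneg (Int.fract_nonneg _) (hw i))
        have h4 := h1 l ((le_max_left _ _).trans h2) _ (hG l) i (Finset.mem_sdiff.1 hi).2
        rw [lt_div_iff₀ m0] at h4
        beta_reduce
        rw [Int.fract_eq_self.2 ⟨mul_nonneg m0.le (g0 i), by linarith⟩, mul_assoc]
      exact lt_of_mul_lt_mul_left (h3.trans_lt m1) m0.le
    have t4 := t1.add t3
    rw [add_zero] at t4
    refine tendsto_nhds_unique t4 (t2.congr fun k => ?_)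
    rw [← hd _ _ (hG (φ k)), sp]
  · have ev : ∀ i ∈ ν.support, ∀ᶠ k in atTop, i ∈ (G (φ k)).support ∧ ν i - η ≤ G (φ k) i :=
      fun i hi => by
        have h1 := hl' ⟨i, νs hi⟩
        rw [← νS] at h1
        filter_upwards [h1.eventually_ne (Finsupp.mem_support_iff.1 hi),
          h1.eventually (lt_mem_nhds (show ν i - η < ν i by linarith))] with k h2 h3
          using ⟨Finsupp.mem_support_iff.2 h2, h3.le⟩
    obtain ⟨k, h1, h2⟩ := (((Filter.eventually_all_finset _).2 ev).and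
      (hφ.tendsto_atTop.eventually (eventually_ge_atTop l₀))).exists
    exact ⟨φ k, h2, G (φ k), hG _, h1⟩

end Vale.Agent.P277Z.F5.Fr
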