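import Vale.Agent.P277Z.F5.Sk
import Vale.Agent.P277Z.F5.FracA

/-!
# P277Z: the row FRAC
-/

namespace Vale.Agent.P277Z.F5

theorem frac : FRAC := fun _ w a d c 𝒢 => Fr.frac w a d c 𝒢

end Vale.Agent.P277Z.F5
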