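import Vale.Agent.P277Z.F5.Bas
import Vale.Agent.P277Z.Lift.Cp

/-!
# P277Z, non-vanishing: log resolutions of adjoint divisors, general members
-/

set_option linter.all false

open Set Filter Topology MeasureTheory
open Vale.Agent.P297 (Place)
open Vale.Agent.P297Z.Pl

noncomputable section

namespace Vale.Agent.P277Z.F5

open FI

variable {n N : ℕ} {K : Type} [Field K] [Algebra ℂ K] {M M' M'' : Mdl n N K}

/-- The composition of modifications. -/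
def Mod.comp (m' : Mod M'' M') (m : Mod M' M) : Mod M'' M where
  g y := m.g (m'.g y)
  cont y hy := (m.cont _ (img_mem m' ⟨y, hy⟩)).comp (m'.cont y hy)
  hol y hy a ha := m'.hol y hy _ (m.hol _ (img_mem m' ⟨y, hy⟩) a ha)
  img := by rw [← m.img, ← m'.img, image_image]
  dom y hy := (m.dom _ (img_mem m' ⟨y, hy⟩)).comp (m'.dom y hy)
  base := by
    filter_upwards [m'.base, eventually_nhdsSet_iff_forall.2 fun y hy => (m'.cont y hy).eventually
      (m.base.filter_mono (nhds_le_nhdsSet (img_mem m' ⟨y, hy⟩)))] with y h1 h2 using h1.trans h2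
  val f := by
    filter_upwards [m'.val f, Lo.gen_iff.2 fun y hy => (m'.dom y hy).eventually
      (M'.at_pt (m.val f) (pt m' ⟨y, hy⟩))] with y h1 h2 using h1.trans h2

namespace LrH

theorem ordAt_nonneg' {x : M.F} {Q : Place K} (hQ : M.Ct x Q) {D : Div K}
    (h : ∀ P, M.On x P → 0 ≤ D P) : 0 ≤ M.ordAt x Q D :=
  Finset.sum_nonneg fun P _ => by
    by_cases hP : M.On x P
    · exact mul_nonneg (h P hP) (by exact_mod_cast ord_nonneg_of_mem Q (hQ _ (eqn_mem x P)))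
    · simp [eqn_off hP]

/-- log smooth pairs are log canonical -/
theorem lc (h : Box) (hL : Loc M) (hL' : Loc M') {m : Mod M' M} (hB : Bir M' M m)
    {T : Set (Place K)} (hT : M.Snc T) {B : Div K} (hb : Bd1 T B) {g : Fin n → K} {κ κ' : Div K}
    (hκ : M.Can g κ) (hκ' : M'.Can g κ') (Q : Place K) :
    M.pull M' B Q ≤ (κ' - M.pull M' κ) Q + 1 := by
  by_cases hQ : M'.Pr Q
  swap
  · rw [dv_iff.1 (dv_pull B) Q hQ]
    exact add_nonneg ((hB.can g κ κ' hκ hκ').1 Q) zero_le_one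
  obtain ⟨y, hy⟩ := hQ
  obtain ⟨t, ht, h1⟩ := hT.2 (pt m y)
  obtain ⟨t', ht'⟩ := hL'.coord y
  obtain ⟨j, hj⟩ := hL'.jac y t' t ht'
  obtain ⟨j0, j1⟩ := rel_on hL hL' (h.jmd n) hB hκ hκ' ht ht' hj
  have h2 := h.jac n N K M' hL' y t' t j Q ht' hy
    (fun i => (hB.le y (pt m y) rfl).1 (ht.1 i).1) hj j0
  have t0 : ∀ i ∈ Finset.univ, t i ≠ 0 := fun i _ => (h.co1 n N K M hL _ t i ht).1
  have h3 := ordAt_nonneg' (ct_pt hB hy) (D := M.div (∏ i, t i) + (-1 : ℝ) • B) fun P hP => by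
    have h4 : ∀ i ∈ Finset.univ, 0 ≤ P.ord (t i) := fun i _ =>
      ord_nonneg_of_mem P (ct_of_on hP _ (ht.1 i).1)
    rw [Finsupp.add_apply, div_apply hL _ ⟨_, hP⟩, ord_prod P _ t0, neg_one_smul, Finsupp.neg_apply,
      ← sub_eq_add_neg, sub_nonneg]
    by_cases e : B P = 0
    · rw [e]; exact_mod_cast Finset.sum_nonneg h4
    · obtain ⟨i, hi⟩ := h1 P (hb.1 (Finsupp.mem_support_iff.2 e)) hP
      refine (hb.2 P).2.trans ?_
      exact_mod_cast hi.ord ▸ Finset.single_le_sum h4 (Finset.mem_univ i)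
  rw [ordAt_add, ordAt_smul, ordAt_div hL (ct_pt hB hy) (Finset.prod_ne_zero_iff.2 t0),
    ord_prod Q _ t0] at h3
  rw [j1 Q hy, pull_on hB hy]
  have h4 := Int.cast_le (R := ℝ).2 h2
  rw [Int.cast_add, Int.cast_one] at h4
  linarith

theorem pull_off (hL : Loc M) {m : Mod M' M} (hB : Bir M' M m) {D : Div K} (hD : M.Dv D)
    {Q : Place K} (h : Q ∉ Exc M' M) : M.pull M' D Q = D Q := by
  by_cases hQ : M.Pr Q
  · exact pull_pr hL hB hQ D
  · rw [dv_iff.1 hD Q hQ, dv_iff.1 (dv_pull D) Q fun e => h ⟨e, hQ⟩]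

theorem free_sys (hL : Loc M) {D : Div K} (h : ∀ x, M.Free D x) : ∃ s : Finset K,
    (∀ f ∈ s, f ∈ M.H0 D) ∧ ∀ x, ∃ f ∈ s, f ≠ 0 ∧ ∀ P, M.On x P → (P.ord f : ℝ) + D P = 0 := by
  classical
  haveI : CompactSpace M.F := isCompact_iff_compactSpace.1 M.cpt
  choose f f1 f2 f3 using h
  obtain ⟨U, hU⟩ := CompactSpace.elim_nhds_subcover (fun x => {y | Lift.LG M y (-D) (f x)})
    fun x => Lift.LG.near hL ⟨f2 x, fun R hR => eq_neg_of_add_eq_zero_left (f3 x R hR)⟩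
  refine ⟨U.image f, fun g hg => ?_, fun y => ?_⟩
  · obtain ⟨x, -, rfl⟩ := Finset.mem_image.1 hg
    exact f1 x
  · obtain ⟨x, h1, h2⟩ := mem_iUnion₂.1 (hU.ge (mem_univ y))
    exact ⟨_, Finset.mem_image_of_mem _ h1, f2 x, fun R hR => by
      rw [h2.2 R hR, Finsupp.neg_apply, neg_add_cancel]⟩

end LrH

open LrH

/-- **LR** -/
theorem lr (h : Tb) (n : ℕ) : LR n := by
  intro N K _ _ M hM κ B D T M₁ m₁ hg hb hA hM₁
  have lM := h.box.loc _ N K M hM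
  have pM := h.box.pos _ N K M hM
  have l₁ := h.box.loc _ N K M₁ hM₁
  have b₁ := h.box.bir _ N K M hM M₁ m₁ hM₁
  obtain ⟨g, κ₀, f, f0, hκ, rfl⟩ := hg.can
  obtain ⟨δ, ⟨d1, d2⟩, d0⟩ := ((((amp_ev pM hA B).and (ge_mem_nhds one_pos)).filter_mono
    nhdsWithin_le_nhds).and (self_mem_nhdsWithin (s := Ioi (0 : ℝ)))).exists
  obtain ⟨κ₁, hκ₁⟩ := exists_can' lM l₁ (h.box.jmd n) m₁ hκ
  refine ⟨fun Q => (M.pull M₁ (κ₀ + (1 - δ) • B) - κ₁) Q, fun T₁ hT₁ => ?_⟩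
  obtain ⟨M', ⟨m'⟩, hM', hG⟩ := h.box.hir n N K M₁ hM₁ (T ∪ T₁ ∪ Exc M₁ M) 0 Fin.elim0
    ((hg.fin.union hT₁).union b₁.fin) fun j => j.elim0
  have l' := h.box.loc _ N K M' hM'
  have p' := h.box.pos _ N K M' hM'
  have b' := h.box.bir _ N K M₁ hM₁ M' m' hM'
  have b := h.box.bir _ N K M hM M' (Mod.comp m' m₁) hM'
  obtain ⟨κ', hκ'⟩ := exists_can' l₁ l' (h.box.jmd n) m' hκ₁
  obtain ⟨H, H1, -, H2, H3⟩ := b.amp
  obtain ⟨ε₀, e0, e1⟩ := H3 _ d1
  obtain ⟨ε, ⟨e2, e3⟩, e4⟩ := ((((ge_mem_nhds e0 : ∀ᶠ ε in 𝓝 (0 : ℝ), ε ≤ ε₀).and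
    ((eventually_all_finset H.support).2 fun Q _ => (show Tendsto (fun ε : ℝ => ε * H Q) (𝓝 0)
      (𝓝 0) by simpa using (continuous_mul_const (H Q)).tendsto 0).eventually
        (gt_mem_nhds d0))).filter_mono nhdsWithin_le_nhds).and
    (self_mem_nhdsWithin (s := Ioi (0 : ℝ)))).exists
  have dB : M.Dv B := fun P hP => hg.snc.1 P (hb.1 hP)
  obtain ⟨c1, c2⟩ := b.can g κ₀ κ' hκ hκ'
  have e5 : ∀ Q, (M.pull M' (κ₀ + (1 - δ) • B) - κ' + ε • H) Q =
      (1 - δ) * M.pull M' B Q - (κ' - M.pull M' κ₀) Q + ε * H Q := fun Q => by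
    rw [← pl_apply b, map_add, map_smul]
    simp only [pl_apply, Finsupp.add_apply, Finsupp.sub_apply, Finsupp.smul_apply, smul_eq_mul]
    ring
  have e6 : ∀ Q, Q ∉ Exc M' M → (M.pull M' (κ₀ + (1 - δ) • B) - κ' + ε • H) Q = (1 - δ) * B Q :=
    fun Q hQ => by
      rw [e5, pull_off lM b dB hQ, Finsupp.notMem_support_iff.1 fun e => hQ (c2 ▸ e),
        Finsupp.notMem_support_iff.1 fun e => hQ (H1 ▸ e), sub_zero, mul_zero, add_zero]
  refine ⟨M', Mod.comp m' m₁, κ' + M'.div f, M.pull M' (κ₀ + (1 - δ) • B) - κ' + ε • H,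
    {Q | M'.Pr Q ∧ Q ∈ T ∪ T₁ ∪ Exc M' M}, hM', ⟨⟨g, κ', f, f0, hκ', rfl⟩,
      ((hg.fin.union hT₁).union b.fin).subset fun Q hQ => hQ.2, fun Q hQ => hQ.1, fun y => ?_⟩,
    fun Q hQ => ⟨b'.pr Q hQ, ?_⟩, fun Q h1 h2 => ⟨h1, h2.imp_left Or.inr⟩, fun Q hQ => ?_,
    fun Q => ?_, fun Q hQ => ?_, ?_⟩
  · obtain ⟨-, t, ht, h1⟩ := hG y
    refine ⟨t, ht, fun Q hQ hy => h1 Q hy (Or.inl ?_)⟩
    rcases hQ.2 with h2 | h2
    · exact Or.inl (Or.inl h2)
    · by_cases h3 : M₁.Pr Q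
      exacts [Or.inl (Or.inr ⟨h3, h2.2⟩), Or.inr ⟨h2.1, h3⟩]
  · obtain ⟨y, hy⟩ := b'.pr Q hQ
    have h1 : (κ' - M₁.pull M' κ₁) Q = 0 := Finsupp.notMem_support_iff.1 fun e =>
      (show Q ∈ Exc M' M₁ from (b'.can g κ₁ κ' hκ₁ hκ').2 ▸ e).2 hQ
    rw [Finsupp.sub_apply, pull_pr l₁ b' hQ, sub_eq_zero] at h1
    simp only [Finsupp.add_apply, Finsupp.sub_apply, Finsupp.smul_apply, smul_eq_mul]
    rw [pull_on b hy, pull_on b₁ (b'.on y (pt m' y) Q rfl hy hQ), h1]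
    exact le_add_of_nonneg_right (mul_nonneg (le_of_lt e4) (H2 Q))
  · by_cases h1 : Q ∈ Exc M' M
    · exact ⟨h1.1, Or.inr h1⟩
    · have h2 := hb.1 (Finsupp.mem_support_iff.2
        (right_ne_zero_of_mul (e6 Q h1 ▸ Finsupp.mem_support_iff.1 hQ)))
      exact ⟨b.pr Q (hg.snc.1 Q h2), Or.inl (Or.inl h2)⟩
  · have h1 := mul_le_mul_of_nonneg_left (lc h.box lM l' b hg.snc hb hκ hκ' Q) (sub_nonneg.2 d2)
    have h2 : ε * H Q < δ := by
      by_cases e : Q ∈ H.support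
      · exact e3 Q e
      · rw [Finsupp.notMem_support_iff.1 e, mul_zero]; exact d0
    have h3 := mul_nonneg (le_of_lt d0) (c1 Q)
    rw [e5]
    linarith
  · rw [e6 Q hQ]
    exact mul_nonneg (sub_nonneg.2 d2) (hb.2 Q).1
  · refine Eq.mp (congrArg M'.Amp ?_) (amp_add_nef (p'.smul _ _ (div_pos e4 e0) e1)
      (nef_smul p' (b.nef _ (nef_of_amp pM d1)) (sub_nonneg.2 ((div_le_one e0).2 e2))))
    simp only [← pl_apply b, ← pull_div lM l' b f0, map_add, map_sub, map_smul]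
    match_scalars <;> field_simp <;> ring

/-- **BT** -/
theorem bt (h : Tb) (n : ℕ) : BT n := by
  classical
  intro N K _ _ M hM M' m T T' T₁ D hM' hT sT hT' sT' hE hT₁ dD iD fD
  have lM := h.box.loc _ N K M hM
  have l' := h.box.loc _ N K M' hM'
  have b := h.box.bir _ N K M hM M' m hM'
  obtain ⟨s, s1, s2⟩ := free_sys lM fD
  have pe : ∀ f : K, f ≠ 0 → M'.div f + M.pull M' D = M.pull M' (M.div f + D) := fun f hf => by
    rw [← pull_div lM l' b hf, ← pl_apply b (_ + _), map_add]; rfl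
  have a1 := h.bert n N K M hM T D s hT sT dD iD s1 s2
  have a2 := h.bert n N K M' hM' T' _ s hT' sT' (dv_pull D) (pull_int b iD)
    (fun f hf => by simpa using (b.sec D 0 f (by simp) le_rfl).2 (s1 f hf)) fun y => by
      obtain ⟨f, f1, f2, f3⟩ := s2 (pt m y)
      refine ⟨f, f1, f2, fun Q hQ => ?_⟩
      rw [← div_apply l' f ⟨y, hQ⟩, ← Finsupp.add_apply, pe f f2, pull_on b hQ]
      exact ordAt_eq_zero Q fun P hP => by
        rw [Finsupp.add_apply, div_apply lM f ⟨_, hP⟩, f3 P hP]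
  let φ : (s → ℂ) →ₗ[ℂ] K := Fintype.linearCombination ℂ fun a : s => (a : K)
  have φe : ∀ c, φ c = ∑ a : s, algebraMap ℂ K (c a) * a := fun c => by
    simp only [φ, Fintype.linearCombination_apply, Algebra.smul_def]
  have a3 : ∀ P, M.Pr P → ∀ᵐ c : s → ℂ, φ c ∉ M.H0 (D - Finsupp.single P 1) := fun P ⟨x, hx⟩ => by
    obtain ⟨f, f1, f2, f3⟩ := s2 x
    refine measure_eq_zero_iff_ae_notMem.1 (Measure.addHaar_submodule volume
      ((((M.H0 (D - Finsupp.single P 1)).restrictScalars ℂ).comap φ).restrictScalars ℝ) fun e => ?_)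
    have h1 : φ (Pi.single ⟨f, f1⟩ 1) ∈ M.H0 (D - Finsupp.single P 1) :=
      (Submodule.eq_top_iff'.1 e) _
    rw [Fintype.linearCombination_apply_single, one_smul] at h1
    have h2 := h1.resolve_left f2 P ⟨x, hx⟩
    rw [Finsupp.sub_apply, Finsupp.single_eq_same] at h2
    linarith [f3 P hx]
  obtain ⟨c, ⟨f, e1, f0, k1, k2, k3⟩, ⟨f', e2, -, -, k4, k5⟩, k6⟩ := (a1.and (a2.and
    ((eventually_all_finite (hT₁.subset (sep_subset T₁ M.Pr))).2 fun P hP => a3 P hP.2))).exists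
  obtain rfl : f = f' := e1.trans e2.symm
  have hf : f ∈ M.H0 D := e1 ▸ sum_mem fun a _ =>
    Algebra.smul_def (c a) (a : K) ▸ ((M.H0 D).restrictScalars ℂ).smul_mem _ (s1 a a.2)
  have dE : M.Dv (M.div f + D) := dv_add (dv_div f) dD
  have nE := div_add_nonneg lM dD hf f0
  have iE := IsInt.add (int_div lM f) iD
  have oE : ∀ P, (M.div f + D) P < 1 → (M.div f + D) P = 0 := fun P hP => by
    have h1 := nE P
    obtain ⟨k, hk⟩ := iE P
    rw [Finsupp.zero_apply] at h1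
    rw [hk] at h1 hP ⊢
    have h2 : 0 ≤ k := by exact_mod_cast h1
    have h3 : k < 1 := by exact_mod_cast hP
    exact_mod_cast (by omega : k = 0)
  have eE : M'.div f + M.pull M' D = M.div f + D := Finsupp.ext fun Q => by
    by_cases hQ : Q ∈ Exc M' M
    · rw [k4 Q (hE hQ), dv_iff.1 dE Q hQ.2]
    · rw [pe f f0, pull_off lM b dE hQ]
  have eY : M.div f + D = ∑ P ∈ (M.div f + D).support, Finsupp.single P 1 := by
    refine (eq_sum_single subset_rfl).trans (Finset.sum_congr rfl fun P hP => ?_)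
    rw [le_antisymm (k1 P) (not_lt.1 fun e => Finsupp.mem_support_iff.1 hP (oE P e)), one_smul]
  rw [eE] at k4 k5
  refine ⟨f, _, f0, eY, eE.trans eY, disjoint_left.2 fun P h1 h2 =>
    Finsupp.mem_support_iff.1 h1 (k2 P h2), disjoint_left.2 fun P h1 h2 => ?_, k3,
    disjoint_left.2 fun P h1 h2 => Finsupp.mem_support_iff.1 h1 (k4 P h2), k5⟩
  refine k6 P ⟨h2, dE P h1⟩ (φe c ▸ e1 ▸ mem_H0_div lM fun Q => ?_)
  rw [← add_sub_assoc, Finsupp.sub_apply, Finsupp.zero_apply, sub_nonneg]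
  by_cases e : Q = P
  · rw [e, Finsupp.single_eq_same]
    exact not_lt.1 fun e => Finsupp.mem_support_iff.1 h1 (oE P e)
  · rw [Finsupp.single_eq_of_ne e]; exact nE Q

end Vale.Agent.P277Z.F5
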