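import Mathlib

/-!
# P277Z, non-vanishing: the numerical part of the regularity argument
-/

open Filter

namespace Vale.Agent.P277Z.F5.Mu

theorem ev_const {f : ℕ → ℤ} (h : ∀ᶠ k in atTop, f (k + 1) = f k) :
    ∃ c, ∀ᶠ k in atTop, f k = c := by
  obtain ⟨k₀, h⟩ := eventually_atTop.1 h
  refine ⟨f k₀, eventually_atTop.2 ⟨k₀, fun k hk => ?_⟩⟩
  induction k, hk using Nat.le_induction with
  | base => rfl
  | succ k hk ih => rw [h k hk, ih]

theorem num (a : ℕ → ℤ → ℤ) (β : ℕ → ℤ) (On : ℕ → ℤ → Prop) (k₁ : ℕ) (C : ℤ)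
    (hle : ∀ k, k₁ ≤ k → ∀ t, a (k + 1) t ≤ a k t + β k)
    (heq : ∀ k, k₁ ≤ k → ∀ t, a (k + 1) t = a k t + β k → On k t)
    (hdeep : ∀ t, ∀ᶠ k in atTop, a (k + 1) t = a k t + β k)
    (hg : ∀ t, ∃ m, ∀ᶠ k in atTop, a (k + m) (t + 2) - a (k + m) (t + 1) = a k (t + 1) - a k t)
    (hbd : ∀ t, a k₁ t ≤ C) (hstep : ∀ k, k₁ ≤ k → ∀ t, On k t → On (k + 1) t) :
    ∃ k₀, ∀ t k, k₀ ≤ k → On k t := by
  set e : ℕ → ℤ → ℤ := fun k t => a k t - ∑ i ∈ Finset.range k, β i with he
  have e1 : ∀ k t, e (k + 1) t = a (k + 1) t - a k t - β k + e k t := fun k t => by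
    simp only [he, Finset.sum_range_succ]
    ring
  have hc : ∀ t, ∃ c, ∀ᶠ k in atTop, e k t = c := fun t =>
    ev_const (f := fun k => e k t) ((hdeep t).mono fun k hk => by rw [e1, hk]; ring)
  choose c hc using hc
  have g1 : ∀ t, c (t + 2) - c (t + 1) = c (t + 1) - c t := fun t => by
    obtain ⟨m, hm⟩ := hg t
    have s1 := (tendsto_add_atTop_nat m).eventually (hc (t + 2))
    have s2 := (tendsto_add_atTop_nat m).eventually (hc (t + 1))
    obtain ⟨k, h1, h2, h3, h4, h5⟩ := (hm.and (s1.and (s2.and ((hc (t + 1)).and (hc t))))).exists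
    simp only [he] at h2 h3 h4 h5
    linarith
  have g2 : ∀ t, c (t + 1) - c t = c 1 - c 0 := fun t => by
    induction t using Int.induction_on with
    | zero => simp
    | succ i ih => rw [add_assoc, one_add_one_eq_two, g1, ih]
    | pred i ih =>
      have := g1 (-i - 1)
      rw [show -(i : ℤ) - 1 + 2 = -i + 1 by ring, show -(i : ℤ) - 1 + 1 = -i by ring] at this
      rw [show -(i : ℤ) - 1 + 1 = -i by ring, ← this, ih]
  have g3 : ∀ t, c t = c 0 + (c 1 - c 0) * t := fun t => by
    induction t using Int.induction_on with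
    | zero => simp
    | succ i ih => linarith [g2 i]
    | pred i ih =>
      have := g2 (-i - 1)
      rw [show -(i : ℤ) - 1 + 1 = -i by ring] at this
      linarith
  have mono : ∀ t k, k₁ ≤ k → ∀ k', k ≤ k' → e k' t ≤ e k t := fun t k hk k' hk' => by
    induction k', hk' using Nat.le_induction with
    | base => exact le_rfl
    | succ j hj ih => rw [e1]; linarith [hle j (hk.trans hj) t]
  have low : ∀ t k, k₁ ≤ k → c t ≤ e k t := fun t k hk => by
    obtain ⟨j, h1, h2⟩ := ((hc t).and (eventually_ge_atTop k)).exists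
    exact h1 ▸ mono t k hk j h2
  set C' := C - ∑ i ∈ Finset.range k₁, β i
  have up : ∀ t, e k₁ t ≤ C' := fun t => sub_le_sub_right (hbd t) _
  have g0 : c 1 - c 0 = 0 := by
    by_contra h
    have h1 := (low ((c 1 - c 0) * (|C' - c 0| + 1)) k₁ le_rfl).trans (up _)
    rw [g3] at h1
    have h2 : 1 ≤ (c 1 - c 0) * (c 1 - c 0) := mul_self_pos.2 h
    have h3 := le_abs_self (C' - c 0)
    have h4 := abs_nonneg (C' - c 0)
    nlinarith
  refine ⟨k₁ + (C' - c 0).toNat, fun t k hk => ?_⟩
  have ex : ∃ j, k₁ ≤ j ∧ j ≤ k₁ + (C' - c 0).toNat ∧ On j t := by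
    by_contra hn
    have key : ∀ j : ℕ, j ≤ (C' - c 0).toNat + 1 → e (k₁ + j) t ≤ C' - j := fun j hj => by
      induction j with
      | zero => simpa using up t
      | succ j ih =>
        have h1 := ih (by omega)
        have h2 := hle (k₁ + j) (by omega) t
        have h3 : a (k₁ + j + 1) t ≠ a (k₁ + j) t + β (k₁ + j) := fun h =>
          hn ⟨k₁ + j, by omega, by omega, heq _ (by omega) t h⟩
        rw [← add_assoc, e1]
        push_cast
        omega
    have h1 := (low t _ (by omega)).trans (key _ le_rfl)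
    rw [g3, g0] at h1
    have h2 := Int.self_le_toNat (C' - c 0)
    push_cast at h1
    omega
  obtain ⟨j, h1, h2, h3⟩ := ex
  have h4 : j ≤ k := h2.trans hk
  induction k, h4 using Nat.le_induction with
  | base => exact h3
  | succ i hi ih =>
    clear ih
    have : ∀ i, j ≤ i → On i t := fun i hi => by
      induction i, hi using Nat.le_induction with
      | base => exact h3
      | succ i hi ih => exact hstep i (h1.trans hi) t ih
    exact this _ (by omega)

end Vale.Agent.P277Z.F5.Mu
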