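import Vale.Agent.P277Z.F5.MuB
import Vale.Agent.P277Z.F5.MuN

/-!
# P277Z, non-vanishing: uniform regularity of numerically trivial divisors
-/

set_option linter.all false

open Set Filter Topology
open Vale.Agent.P297 (Place)
open Vale.Agent.P297Z.Pl

noncomputable section

namespace Vale.Agent.P277Z.F5.Mu

open FI Lift

variable {n N : ℕ} {K : Type} [Field K] [Algebra ℂ K]

/-- the rows that are used -/
structure Hy : Prop where
  tb : Tb
  cp : ∀ n, CP n
  const : ∀ n, CONST n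
  deg : ∀ n, DEG n
  dnn : ∀ n, DNN n
  drs : ∀ n, DRS n

/-- bounded numbers of sections -/
def BDc (M : Mdl n N K) (P : Div K) : Prop :=
  ∀ D, M.Dv D → IsInt D → ∃ C : ℕ, ∀ t : ℤ, h0 M (D + (t : ℝ) • P) ≤ C

/-- uniform generation -/
def MUc (M : Mdl n N K) (H P : Div K) : Prop :=
  ∀ (ι : Type) [Fintype ι] (w : ι → K), Bp M H w → ∀ D, M.Dv D → IsInt D → ∃ k₀ : ℕ,
    ∀ (t : ℤ) (k : ℕ), k₀ ≤ k → Gen M w (D + (k : ℝ) • H + (t : ℝ) • P) H

/-- the induction claim -/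
def Cl (n : ℕ) : Prop := ForM n fun _ K _ _ M => Cpt M → ∀ H P : Div K, Pol M H → M.Dv P →
  IsInt P → Fz n M H P → BDc M P ∧ MUc M H P

theorem div_mem {M : Mdl n N K} {f : K} (hf : f ≠ 0) : M.div f ∈ PrR M :=
  Submodule.subset_span ⟨f, hf, rfl⟩

theorem cut_free (h : Hy) {M : Mdl n N K} (hM : M.Proj) (hc : Cpt M) {H : Div K} (h1 : M.Dv H)
    (h2 : IsInt H) (h3 : ∀ x, M.Free H x) : ∃ (f : K) (Y : Finset (Place K)), f ≠ 0 ∧
      M.div f + H = ∑ P ∈ Y, Finsupp.single P 1 ∧ M.Snc (Y : Set (Place K)) := by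
  have hL := h.tb.box.loc _ N K M hM
  have := ((h.cp _ N K M hM).2 hc).1 H
  obtain ⟨r, w, hw⟩ := exists_bp hL h2 h3
  obtain ⟨c, Y, a1, a2, a3, -⟩ := cut_fin hL (h.tb.bert _) hM h1 h2 hw finite_empty
  exact ⟨_, Y, a1, a2, a3⟩

theorem dh (h : Hy) (n : ℕ) : DH n := by
  have key : ∀ (n N : ℕ) (K : Type) [Field K] [Algebra ℂ K] (M : Mdl (n + 1) N K), M.Proj →
      Cpt M → ∀ H, Pol M H → ∃ (f : K) (Y : Finset (Place K)), f ≠ 0 ∧
        M.div f + H = ∑ P ∈ Y, Finsupp.single P 1 ∧ M.Snc (Y : Set (Place K)) ∧ Y.Nonempty := by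
    intro n N K _ _ M hM hc H hH
    obtain ⟨f, Y, a1, a2, a3⟩ := cut_free h hM hc hH.dv hH.int hH.free
    refine ⟨f, Y, a1, a2, a3, Finset.nonempty_iff_ne_empty.2 fun e => ?_⟩
    have := (h.tb.box.pos _ N K M hM).div H f a1 hH.amp
    rw [add_comm H, a2, e, Finset.sum_empty] at this
    exact (((h.cp _ N K M hM).2 hc).2.2.2.1 n.succ_pos).2 0 dv_zero le_rfl (by rwa [neg_zero])
  induction n with
  | zero =>
    intro N K _ _ M hM hc H hH
    obtain ⟨f, Y, a1, a2, a3, a4⟩ := key 0 N K M hM hc H hH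
    have d := h.deg 0 N K M hM hc H hH.dv hH.int
    have e := congrArg (deg M H) a2
    rw [map_add, d.2.1 _ (div_mem a1), zero_add, map_sum,
      Finset.sum_congr rfl fun P hP => d.2.2.2 rfl P (a3.1 P hP)] at e
    rw [e, Finset.sum_const, nsmul_eq_mul, mul_one]
    exact_mod_cast a4.card_pos
  | succ n ih =>
    intro N K _ _ M hM hc H hH
    obtain ⟨f, Y, a1, a2, a3, a4⟩ := key _ N K M hM hc H hH
    have s : ∀ P ∈ Y, M.Snc {P} := fun P hP => snc_mono a3 (by simpa using hP)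
    have u : ∀ P : Y, SubM M P := fun P => (exists_subM h.tb hM (s P P.2)).some
    have e := h.drs n N K M hM hc H 1 Y u hH.dv hH.int s (by
      rw [← a2, Nat.cast_one, one_smul, add_sub_cancel_right]; exact div_mem a1) H hH.dv
    rw [Nat.cast_one, one_mul] at e
    have b : ∀ P : Y, 1 ≤ deg (u P).S ((u P).r H) ((u P).r H) := fun P =>
      ih N _ _ (u P).proj (ex (exs h.tb h.cp _) hM hc ⟨P, s P P.2⟩ (u P)).1 _
        (pol_r (exs h.tb h.cp _) hM hc (h.tb.box.loc _ N K M hM) ⟨P, s P P.2⟩ (u P) hH)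
    obtain ⟨P, hP⟩ := a4
    rw [← e]
    exact (b ⟨P, hP⟩).trans (Finset.single_le_sum (f := fun P : Y => deg (u P).S ((u P).r H)
      ((u P).r H)) (fun Q _ => zero_le_one.trans (b Q)) (Finset.mem_univ _))

theorem nt_of_mu (h : Hy) {M : Mdl n N K} (hM : M.Proj) (hc : Cpt M) {H P : Div K} (hH : Pol M H)
    (h1 : M.Dv P) (h2 : IsInt P) (h3 : MUc M H P) : P ∈ NT M := by
  have hL := h.tb.box.loc _ N K M hM
  have hP := h.tb.box.pos _ N K M hM
  have := ((h.cp _ N K M hM).2 hc).1 H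
  obtain ⟨r, w, hw⟩ := exists_bp hL hH.int hH.free
  obtain ⟨k₀, hk⟩ := h3 _ w hw 0 dv_zero IsInt.zero
  have int : ∀ (k : ℕ) (t : ℤ), IsInt (0 + (k : ℝ) • H + (t : ℝ) • P) := fun k t =>
    IsInt.add (IsInt.add IsInt.zero (IsInt.nsmul hH.int k)) (IsInt.zsmul h2 t)
  have fr : ∀ (t : ℤ) x, M.Free (0 + (k₀ : ℝ) • H + (t : ℝ) • P) x := fun t x => by
    obtain ⟨m, hm⟩ := hP.gg H _ hH.amp hH.int (int k₀ t)
    have key : ∀ j : ℕ, M.Free (0 + ((k₀ + j : ℕ) : ℝ) • H + (t : ℝ) • P) x →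
        M.Free (0 + (k₀ : ℝ) • H + (t : ℝ) • P) x := fun j => by
      induction j with
      | zero => exact id
      | succ j ih =>
        intro hf
        refine ih ?_
        rw [← add_assoc, Nat.cast_succ, add_smul, one_smul, ← add_assoc, add_right_comm] at hf
        obtain ⟨f, f1, f2⟩ := free_iff.1 hf
        obtain ⟨a, a1, rfl⟩ := hk t (k₀ + j) (by omega) f f1
        obtain ⟨i, hi, -⟩ := nv_sum hL (int _ t) hH.int a1 hw.1 f2
        exact free_iff.2 ⟨_, a1 i, hi⟩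
    refine key m ?_
    have := hm m le_rfl x
    rwa [add_right_comm, add_assoc 0, ← add_smul, ← Nat.cast_add] at this
  have nef : ∀ s : ℤ, M.Nef ((s : ℝ) • P) := fun s A hA => by
    obtain ⟨m, m1, m2⟩ :=
      ((amp_deep hP hA (-((k₀ : ℝ) • H))).and (eventually_gt_atTop 0)).exists
    have m3 : (0 : ℝ) < m := by exact_mod_cast m2
    have := hP.smul _ _ (inv_pos.2 m3) (hP.free _ (int k₀ (m * s)) (fr (m * s)) _ m1)
    rwa [show 0 + (k₀ : ℝ) • H + ((m * s : ℤ) : ℝ) • P + (-((k₀ : ℝ) • H) + (m : ℝ) • A) =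
      (m : ℝ) • ((s : ℝ) • P + A) by
        rw [smul_add, smul_smul, Int.cast_mul, Int.cast_natCast]; abel,
      smul_smul, inv_mul_cancel₀ m3.ne', one_smul] at this
  exact ⟨h1, h2, by simpa using nef 1, by simpa using nef (-1)⟩

theorem cl_zero (h : Hy) : Cl 0 := by
  intro N K _ _ M hM hc H P _ _ _ _
  refine ⟨fun D _ _ => ⟨1, fun t => (((h.cp _ N K M hM).2 hc).2.2.1 rfl _).le⟩,
    fun ι _ w hw D _ _ => ⟨0, fun t k _ f _ => ?_⟩⟩
  classical
  obtain ⟨x, hx⟩ := M.conn.nonempty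
  obtain ⟨i, hi⟩ := hw.2 ⟨x, hx⟩
  refine ⟨Pi.single i (f / w i), fun _ => Or.inr fun Q hQ => absurd hQ (CpH.not_pr M Q), ?_⟩
  rw [Finset.sum_eq_single i (fun j _ hj => by simp [hj]) (by simp), Pi.single_eq_same,
    div_mul_cancel₀ _ hi.1]

variable {M : Mdl (n + 1) N K} {u : ∀ P : SP M, SubM M P.1}

theorem tot_bd (hL : Loc M) {Q : Div K} (hB : ∀ P, BDc (u P).S ((u P).r Q)) (l : List (SP M))
    {D : Div K} (h2 : IsInt D) : ∃ C : ℕ, ∀ t : ℤ, tot u l (D + (t : ℝ) • Q) ≤ C := by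
  induction l generalizing D with
  | nil => exact ⟨0, fun _ => le_rfl⟩
  | cons P l ih =>
    obtain ⟨C, hC⟩ := ih (int_ss h2 P.1)
    obtain ⟨C', hC'⟩ := hB P _ (dv_r _ D) (int_r hL _ h2)
    refine ⟨C' + C, fun t => ?_⟩
    rw [tot, map_add, map_smul, add_sub_right_comm]
    exact add_le_add (hC' t) (hC t)

theorem all_gen (hL : Loc M) {H Q : Div K} {ι : Type} [Fintype ι] {w : ι → K} {l : List (SP M)}
    (hB : ∀ P ∈ l, Bp (u P).S ((u P).r H) fun i => (u P).s.res (w i))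
    (hU : ∀ P, MUc (u P).S ((u P).r H) ((u P).r Q)) {D : Div K} (h2 : IsInt D) :
    ∃ k₀ : ℕ, ∀ (t : ℤ) (k : ℕ), k₀ ≤ k →
      All (fun P D => Gen (u P).S (fun i => (u P).s.res (w i)) ((u P).r D) ((u P).r H)) l
        (D + (k : ℝ) • H + (t : ℝ) • Q) := by
  induction l generalizing D with
  | nil => exact ⟨0, fun _ _ _ => trivial⟩
  | cons P l ih =>
    obtain ⟨k₁, h1⟩ := ih (fun Q hQ => hB Q (List.mem_cons_of_mem _ hQ)) (int_ss h2 P.1)
    obtain ⟨k₂, h3⟩ := hU P _ _ (hB P List.mem_cons_self) _ (dv_r _ D) (int_r hL _ h2)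
    refine ⟨max k₁ k₂, fun t k hk => ⟨?_, ?_⟩⟩
    · simpa only [map_add, map_smul] using h3 t k ((le_max_right _ _).trans hk)
    · rw [add_sub_right_comm, add_sub_right_comm]
      exact h1 t k ((le_max_left _ _).trans hk)

theorem bp_r (hL : Loc M) {P : Place K} (v : SubM M P) (hS : Loc v.S) {H : Div K} (h0 : H P = 0)
    {ι : Type} {w : ι → K} (hw : Bp M H w) : Bp v.S (v.r H) fun i => v.s.res (w i) := by
  refine ⟨fun i => r_eq v h0 ▸ v.rst.sec _ h0 _ (hw.1 i), fun y => ?_⟩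
  obtain ⟨i, hi⟩ := hw.2 (Lift.pt v.s y)
  have n0 : (-H) P = 0 := by simp [h0]
  exact ⟨i, by rw [← map_neg, r_eq v n0]; exact hi.res hL hS v.rst n0⟩

theorem cl_succ (h : Hy) (ih : Cl n) : Cl (n + 1) := by
  intro N K _ _ M hM hc H P hH p1 p2 hF
  have hL := h.tb.box.loc _ N K M hM
  have hP := h.tb.box.pos _ N K M hM
  have hE := exs h.tb h.cp n
  have u : ∀ S : SP M, SubM M S.1 := fun S => (exists_subM h.tb hM S.2).some
  have IH := fun S : SP M => ih N _ _ (u S).proj (ex hE hM hc S (u S)).1 _ _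
    (pol_r hE hM hc hL S (u S) hH) (dv_r (u S) P) (int_r hL (u S) p2) (hF.2 S.1 (u S) S.2)
  have nt : ∀ (t : ℤ) (S : SP M), (u S).r ((t : ℝ) • P) ∈ NT (u S).S := fun t S => by
    rw [map_smul]
    exact nt_smul (nt_of_mu h (u S).proj (ex hE hM hc S (u S)).1 (pol_r hE hM hc hL S (u S) hH)
      (dv_r _ _) (int_r hL _ p2) (IH S).2) t
  have dv : ∀ D, M.Dv D → ∀ (k t : ℝ), M.Dv (D + k • H + t • P) := fun D hD k t =>
    dv_add (dv_add hD (dv_smul hH.dv _)) (dv_smul p1 _)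
  have int : ∀ D, IsInt D → ∀ (k : ℕ) (t : ℤ), IsInt (D + (k : ℝ) • H + (t : ℝ) • P) :=
    fun D hD k t => IsInt.add (IsInt.add hD (IsInt.nsmul hH.int k)) (IsInt.zsmul p2 t)
  have bd : BDc M P := fun D d1 d2 => by
    obtain ⟨f, Y, a1, a2, a3⟩ := cut_free h hM hc hH.dv hH.int hH.free
    obtain ⟨l, -, -, l3⟩ := of_fin a3
    have key : ∀ R : ℕ, ∃ C : ℕ, ∀ t : ℤ,
        h0 M (D + (t : ℝ) • P) ≤ h0 M (D - (R : ℝ) • H + (t : ℝ) • P) + C := fun R => by
      induction R with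
      | zero => exact ⟨0, fun t => by simp⟩
      | succ R ih =>
        obtain ⟨C, hC⟩ := ih
        have i1 := IsInt.sub d2 (IsInt.nsmul hH.int R)
        obtain ⟨C', hC'⟩ := tot_bd hL (fun S => (IH S).1) l i1
        refine ⟨C' + C, fun t => ?_⟩
        have := le_tot (u := u) hE hM hc l (dv_add (dv_sub d1 (dv_smul hH.dv (R : ℝ)))
          (dv_smul p1 (t : ℝ))) (IsInt.add i1 (IsInt.zsmul p2 t))
        rw [l3, ← a2, show D - (R : ℝ) • H + (t : ℝ) • P - (M.div f + H) =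
          D - ((R + 1 : ℕ) : ℝ) • H + (t : ℝ) • P - M.div f by
            rw [Nat.cast_succ, add_smul, one_smul]; abel, h0_div hL _ a1] at this
        have := hC t
        have := hC' t
        omega
    obtain ⟨R, hR⟩ := exists_nat_gt (deg M H D)
    obtain ⟨C, hC⟩ := key R
    refine ⟨C, fun t => (hC t).trans (le_of_eq ?_)⟩
    have z : (M.H0 (D - (R : ℝ) • H + (t : ℝ) • P)).restrictScalars ℂ = ⊥ := by
      refine (Submodule.eq_bot_iff _).2 fun g hg => by_contra fun g0 => ?_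
      have b1 := h.dnn n N K M hM hc H hH _ (div_add_nonneg hL
        (dv_add (dv_sub d1 (dv_smul hH.dv (R : ℝ))) (dv_smul p1 (t : ℝ))) hg g0)
      rw [map_add, (h.deg n N K M hM hc H hH.dv hH.int).2.1 _ (div_mem g0), map_add, map_sub,
        map_smul, map_smul, hF.1, smul_eq_mul, smul_zero] at b1
      have b2 := dh h n N K M hM hc H hH
      have b3 : (0 : ℝ) ≤ R := by positivity
      nlinarith
    rw [h0, z, finrank_bot, zero_add]
  refine ⟨bd, fun ι _ w hw D d1 d2 => ?_⟩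
  obtain ⟨κ, hκ⟩ := exists_can hL
  obtain ⟨c, Y, a1, a2, a3, a4⟩ := cut_fin hL (h.tb.bert _) hM hH.dv hH.int hw
    ((D.support.finite_toSet.union H.support.finite_toSet).union P.support.finite_toSet)
  obtain ⟨l, l1, l2, l3⟩ := of_fin a3
  set f := ∑ i, algebraMap ℂ K (c i) * w i with hf
  rw [← l3] at a2
  rw [← l2] at a3
  have av : ∀ Q ∈ st l, D Q = 0 ∧ H Q = 0 ∧ P Q = 0 := fun Q hQ => by
    have := a4 Q (by rwa [l2] at hQ)
    simpa [and_assoc] using this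
  have av' : ∀ (k t : ℝ), ∀ Q ∈ st l, (D + k • H + t • P) Q = 0 := fun k t Q hQ => by
    simp [av Q hQ]
  have suc : ∀ (k : ℕ) (t : ℝ), D + ((k + 1 : ℕ) : ℝ) • H + t • P = D + (k : ℝ) • H + t • P + H :=
    fun k t => by rw [Nat.cast_succ, add_smul, one_smul]; abel
  have dn : ∀ E : Div K, E + H - sl l = E - M.div f := fun E => by rw [← a2]; abel
  obtain ⟨k₂, hg⟩ := all_gen (u := u) (w := w) (l := l) hL (fun S hS => bp_r hL (u S)
    (h.tb.box.loc _ N _ _ (u S).proj) (av _ ⟨S, hS, rfl⟩).2.1 hw) (fun S => (IH S).2) d2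
  have deep : ∀ t : ℝ, ∀ᶠ k : ℕ in atTop, M.Amp (D + (k : ℝ) • H + t • P - κ) := fun t =>
    (amp_deep hP hH.amp (D + t • P - κ)).mono fun k hk => by
      rwa [show D + (k : ℝ) • H + t • P - κ = D + t • P - κ + (k : ℝ) • H by abel]
  have amp : ∀ E : Div K, M.Amp (E - κ) → M.Amp (E + H - sl l - κ) := fun E hE => by
    have := amp_div hL hP hE a1 (-1)
    rwa [dn, show E - M.div f - κ = E - κ + (-1 : ℝ) • M.div f by
      rw [neg_smul, one_smul]; abel]
  obtain ⟨k₃, h3⟩ := eventually_atTop.1 (deep 0)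
  have tt : ∀ k, k₃ ≤ k → ∀ t : ℤ, tot u l (D + ((k + 1 : ℕ) : ℝ) • H + (t : ℝ) • P) =
      tot u l (D + ((k + 1 : ℕ) : ℝ) • H) := fun k hk t =>
    tot_add hE hM hc hL (h.const n) hκ l1 a3 (IsInt.add d2 (IsInt.nsmul hH.int _)) (by
      have := amp _ (h3 k hk)
      rwa [← suc, zero_smul, add_zero] at this) (nt t)
  have h0d : ∀ (k : ℕ) (t : ℤ), h0 M (D + ((k + 1 : ℕ) : ℝ) • H + (t : ℝ) • P - sl l) =
      h0 M (D + (k : ℝ) • H + (t : ℝ) • P) := fun k t => by rw [suc, dn, h0_div hL _ a1]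
  obtain ⟨C, hC⟩ := bd _ (dv_add d1 (dv_smul hH.dv ((max k₂ k₃ : ℕ) : ℝ)))
    (IsInt.add d2 (IsInt.nsmul hH.int _))
  obtain ⟨k₀, h4⟩ := num (fun k t => h0 M (D + (k : ℝ) • H + (t : ℝ) • P))
    (fun k => tot u l (D + ((k + 1 : ℕ) : ℝ) • H))
    (fun k t => All (Ont u) l (D + ((k + 1 : ℕ) : ℝ) • H + (t : ℝ) • P)) (max k₂ k₃) C
    (fun k hk t => by
      have := le_tot (u := u) hE hM hc l (dv D d1 ((k + 1 : ℕ) : ℝ) t) (int D d2 (k + 1) t)
      rw [h0d, tt k ((le_max_right _ _).trans hk)] at this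
      exact_mod_cast this)
    (fun k hk t e => on_of_eq hE hM hc h.cp l1 (dv D d1 _ _) (int D d2 _ t) (av' _ _) (by
      rw [h0d, tt k ((le_max_right _ _).trans hk)]
      exact_mod_cast e))
    (fun t => by
      filter_upwards [deep t, eventually_ge_atTop k₃] with k b1 b2
      have := eq_tot (u := u) hE hM hc hκ l1 a3 (dv D d1 ((k + 1 : ℕ) : ℝ) t) (int D d2 (k + 1) t)
        (by rw [suc]; exact amp _ b1)
      rw [h0d, tt k b2] at this
      exact_mod_cast this)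
    (fun t => by
      obtain ⟨m, hm⟩ := hP.gg H P hH.amp hH.int p2
      have q1 := dv_add p1 (dv_smul hH.dv (m : ℝ))
      have q2 := IsInt.add p2 (IsInt.nsmul hH.int m)
      obtain ⟨f', Y', b1, b2, b3⟩ := cut_free h hM hc q1 q2 (hm m le_rfl)
      obtain ⟨l', m1, m2, m3⟩ := of_fin b3
      rw [← m3] at b2
      rw [← m2] at b3
      have s1 : M.Dv (sl l') := b2 ▸ dv_add (dv_div f') q1
      have s2 : IsInt (sl l') := b2 ▸ IsInt.add (int_div hL f') q2
      have st : ∀ (k : ℕ) (t : ℤ), M.Amp (D + (k : ℝ) • H + (t : ℝ) • P - κ) →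
          h0 M (D + ((k + m : ℕ) : ℝ) • H + ((t + 1 : ℤ) : ℝ) • P) =
            h0 M (D + (k : ℝ) • H + (t : ℝ) • P) +
              tot u l' (D + (k : ℝ) • H + (t : ℝ) • P + sl l') := fun k t b => by
        have := eq_tot (u := u) hE hM hc hκ m1 b3 (dv_add (dv D d1 k t) s1)
          (IsInt.add (int D d2 k t) s2) (by rwa [add_sub_cancel_right])
        rw [add_sub_cancel_right] at this
        rw [← this, ← h0_div hL (_ + sl l') b1, ← b2]
        congr 1
        push_cast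
        simp only [add_smul, one_smul]
        abel
      refine ⟨m, ?_⟩
      filter_upwards [deep t, deep ((t + 1 : ℤ) : ℝ)] with k c1 c2
      have e1 := st k t c1
      have e2 := st k (t + 1) c2
      have e3 := tot_add hE hM hc hL (h.const n) hκ m1 b3 (IsInt.add (int D d2 k t) s2)
        (by rwa [add_sub_cancel_right]) (nt 1)
      rw [show D + (k : ℝ) • H + (t : ℝ) • P + sl l' + ((1 : ℤ) : ℝ) • P =
        D + (k : ℝ) • H + ((t + 1 : ℤ) : ℝ) • P + sl l' by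
          push_cast; simp only [add_smul, one_smul]; abel] at e3
      rw [add_assoc t, one_add_one_eq_two] at e2
      beta_reduce
      omega)
    (fun t => by exact_mod_cast hC t)
    (fun k hk t b => by
      rw [suc]
      exact (gen_step hw.1 hH.int l1 (fun Q hQ => (av Q hQ).2.1) (int D d2 _ t) (av' _ _) b
        (hg t _ (by omega))).1)
  refine ⟨max k₀ k₂ + 1, fun t k hk g hg' => ?_⟩
  obtain ⟨k, rfl⟩ : ∃ j, k = j + 1 := ⟨k - 1, by omega⟩
  obtain ⟨a, b1, b2⟩ := (gen_step hw.1 hH.int l1 (fun Q hQ => (av Q hQ).2.1) (int D d2 _ t)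
    (av' _ _) (h4 t k (by omega)) (hg t _ (by omega))).2 g hg'
  rw [dn] at b2
  have b3 := mul_zpow_mem hL b2 a1 (-1)
  rw [Int.cast_neg, Int.cast_one, neg_smul, one_smul, sub_neg_eq_add, sub_add_cancel] at b3
  refine ⟨fun i => a i + algebraMap ℂ K (c i) * ((g - ∑ i, a i * w i) * f ^ (-1 : ℤ)),
    fun i => add_mem (b1 i) (by simpa using (fam_H0 M).mul (const_mem (c i)) b3), ?_⟩
  simp only [add_mul, Finset.sum_add_distrib]
  rw [Finset.sum_congr rfl fun i _ => mul_right_comm (algebraMap ℂ K (c i)) _ (w i),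
    ← Finset.sum_mul, ← hf, zpow_neg_one, mul_left_comm, mul_inv_cancel₀ a1, mul_one,
    add_sub_cancel]

theorem cl (h : Hy) (n : ℕ) : Cl n := by
  induction n with
  | zero => exact cl_zero h
  | succ n ih => exact cl_succ h ih

theorem ntf (h : Hy) (n : ℕ) : NTF n := fun N K _ _ M hM hc H P hH p1 p2 hF =>
  nt_of_mu h hM hc hH p1 p2 (cl h n N K M hM hc H P hH p1 p2 hF).2

end Vale.Agent.P277Z.F5.Mu
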