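import Vale.Agent.P277Z.F5.Bas

/-!
# P277Z, non-vanishing: the case distinction
-/

set_option linter.all false

noncomputable section

namespace Vale.Agent.P277Z.F5

open FI

theorem nv_of (h : Tb) (n : ℕ) (h1 : NVR (n + 1)) (h2 : NV1 n) (h3 : C2 n) (h4 : D1 n)
    (h5 : SHO (n + 1)) : NV (n + 1) := by
  intro N K _ _ M hM
  by_cases hc : Cpt M
  swap
  · exact h1 N K M hM hc
  intro κ B D T hκ hB hD hA hp
  by_cases hb : ∀ H', M.Dv H' → ∃ c : ℕ, ∀ m : ℕ, h0 M ((m : ℝ) • D + H') ≤ c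
  · obtain ⟨H, hH⟩ := exists_pol (h.box.pos _ N K M hM)
    obtain ⟨ν, v1, v2, v3, v4⟩ := h3 N K M hM hc H D hH hD hp hb
    exact h5 N K M hM hc κ B D ν T hκ hB hD hA v1 v2
      (h4 N K M hM hc H _ hH (dv_sub hD v1) v3 v4)
  · push Not at hb
    obtain ⟨H, hH, hb⟩ := hb
    exact h2 N K M hM hc κ B D H T hκ hB hD hA hp hH hb

end Vale.Agent.P277Z.F5
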