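import Vale.Agent.P277Z.F5.Ar
import Vale.Agent.P277Z.Bir.Alg

/-!
# P277Z, non-vanishing: the relative case and the case of many sections
-/

set_option linter.all false

open Set Filter Topology
open Vale.Agent.P297 (Place)

noncomputable section

namespace Vale.Agent.P277Z.F5

open FI

namespace Nvr

variable {n N : ℕ} {K : Type} [Field K] [Algebra ℂ K] {M M' : Mdl n N K}

theorem shift {Φ D G : Div K} (h0 : 0 ≤ Φ) (h1 : Φ ≠ 0) (h2 : Φ ∈ PrR M) (h : Rep M D G) :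
    ∃ G', Rep M D G' ∧ ∃ Q ∈ Φ.support, G' Q = 0 := by
  obtain ⟨Q, hQ, hm⟩ := Φ.support.exists_min_image (fun Q => G Q / Φ Q)
    (Finsupp.support_nonempty_iff.2 h1)
  refine ⟨G - (G Q / Φ Q) • Φ, ⟨fun R => ?_, ?_⟩, Q, hQ, ?_⟩
  · by_cases hR : R ∈ Φ.support
    · simpa using (le_div_iff₀ ((h0 R).lt_of_ne' (Finsupp.mem_support_iff.1 hR))).1 (hm R hR)
    · simpa [Finsupp.notMem_support_iff.1 hR] using h.1 R
  · rw [sub_right_comm]
    exact sub_mem h.2 (Submodule.smul_mem _ _ h2)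
  · simp [div_mul_cancel₀ _ (Finsupp.mem_support_iff.1 hQ)]

theorem supp (hL : Loc M) {m : Mod M' M} (hB : Bir M' M m) {G : Div K} {T : Set (Place K)}
    (h : ∀ Q, M'.Pr Q → Q ∈ (G.support : Set (Place K)) ∨ Q ∈ Exc M' M → Q ∈ T) (c : ℝ) :
    ((c • M.pull M' G).support : Set (Place K)) ⊆ T := fun Q hQ => by
  have k := Finsupp.support_smul hQ
  exact h Q (dv_pull G Q k) ((pull_supp hL hB G (Finsupp.mem_support_iff.1 k)).imp_left
    Finsupp.mem_support_iff.2)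

theorem core (h : Tb) (hT : TH n) (hM : M.Proj) (m : Mod M' M) (hM' : M'.Proj)
    {κ D Ψ W A : Div K} {T : Set (Place K)} {l : ℝ} {G : ℕ → Div K} {E : Place K}
    (hg : Lg M' κ T) (hD : M.Dv D) (hA : M'.Dv A) (hA' : M'.Amp A)
    (h1 : (Ψ.support : Set (Place K)) ⊆ T) (h2 : (W.support : Set (Place K)) ⊆ T)
    (h3 : ∀ Q, Ψ Q < 1) (h4 : ∀ Q, Q ∉ Exc M' M → 0 ≤ Ψ Q) (h5 : 0 ≤ W) (hl : 0 ≤ l)
    (a0 : M'.Amp (M.pull M' D - κ - Ψ)) (a1 : M'.Amp ((1 + l) • M.pull M' D - κ - Ψ - W))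
    (hG : ∀ k : ℕ, Rep M' (M.pull M' D + (1 / ((k : ℝ) + 1)) • A) (G k))
    (hE : ∃ᶠ k in atTop, G k E = 0) (hE' : 1 ≤ (Ψ + W) E) : Eff M D := by
  obtain ⟨t, F, t0, -, k1, k2, k3⟩ := hT N K M' hM' κ _ Ψ W A T l G E hg (dv_pull D) hA hA' h1 h2
    (fun Q => (h3 Q).le) hl a0 a1 hG hE hE'
  refine Eff.of_smul (c := 1 + t * l) (by positivity) ((pp h n N K M hM M' m hM').2.2.2 _ F
    (dv_smul hD _) (fun Q hQ => k2 Q (add_nonneg (h4 Q hQ) (mul_nonneg t0 (h5 Q))))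
    (fun Q hQ => hg.snc.1 Q (k1 hQ)) ?_)
  rwa [← pl_apply (h.box.bir n N K M hM M' m hM'), map_smul]

end Nvr

open Nvr

theorem nvr (h : Tb) (n : ℕ) (hC : CP n) (hR : LR n) (hT : TH n) : NVR n := by
  intro N K _ _ M hM hc κ B D T hg hb hD hA hp
  obtain ⟨f, f0, f1, f2⟩ := (hC N K M hM).1 hc
  obtain ⟨a, ha⟩ := hR N K M hM κ B D T M (Mod.refl M) hg hb hA hM
  obtain ⟨M', m, κ', Ψ, T', hM', hg', -, k2, k3, k4, k5, k6⟩ :=
    ha _ (M.div f).support.finite_toSet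
  have hL := h.box.loc n N K M hM
  have hL' := h.box.loc n N K M' hM'
  have hP' := h.box.pos n N K M' hM'
  have hB := h.box.bir n N K M hM M' m hM'
  have p0 := pull_nonneg hB f1
  have p2 := pull_prR hL hL' hB (div_mem_prR f0)
  have p1 : M.pull M' (M.div f) ≠ 0 := fun e => f2 (dv_ext (dv_div f) dv_zero fun P hP => by
    rw [← pull_pr hL hB hP, e])
  obtain ⟨A, a1, -, a2⟩ := hP'.ex
  have key : ∀ k : ℕ, ∃ G, Rep M' (M.pull M' D + (1 / ((k : ℝ) + 1)) • A) G ∧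
      ∃ Q ∈ (M.pull M' (M.div f)).support, G Q = 0 := fun k =>
    let ⟨_, hG⟩ := (pp h n N K M hM M' m hM').2.2.1 D hp _ (dv_smul a1 _)
      (hP'.smul _ _ Nat.one_div_pos_of_nat a2)
    shift p0 p1 p2 hG
  choose G hG hQ using key
  obtain ⟨E, hE, hE'⟩ : ∃ E ∈ (M.pull M' (M.div f)).support, ∃ᶠ k in atTop, G k E = 0 := by
    by_contra e
    simp only [not_exists, not_and, not_frequently] at e
    obtain ⟨k, hk⟩ := ((eventually_all_finset _).2 e).exists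
    obtain ⟨Q, h1, h2⟩ := hQ k
    exact hk Q h1 h2
  have e0 := Finsupp.mem_support_iff.1 hE
  refine core h hT hM m hM' (l := 0) (W := ((1 - Ψ E) / M.pull M' (M.div f) E) • M.pull M' (M.div f))
    hg' hD a1 a2 k3 (supp hL hB k2 _) k4 k5
    (smul_nonneg (div_nonneg (sub_nonneg.2 (k4 E).le) (p0 E)) p0) le_rfl k6
    (amp_congr hL' hP' k6 ?_) hG hE' ?_
  · rw [add_zero, one_smul, sub_sub_cancel_left]
    exact neg_mem (Submodule.smul_mem _ _ p2)
  · simp [div_mul_cancel₀ _ e0]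

theorem nv1 (h : Tb) (n : ℕ) (hp : PT n) (hR : LR (n + 1)) (hT : TH (n + 1)) : NV1 n := by
  intro N K _ _ M hM hc κ B D H T hg hb hD hA hs hH hh
  have hL := h.box.loc _ N K M hM
  have hP := h.box.pos _ N K M hM
  obtain ⟨A, a1, -, a2⟩ := hP.ex
  obtain ⟨r, r0, hr⟩ := amp_large hP a2 H
  obtain ⟨ε, ε0, hε⟩ := hP.opn _ (-(H + r • A)) hA
  choose G hG using fun k : ℕ => hs ((1 / ((k : ℝ) + 1)) • A) (dv_smul a1 _)
    (hP.smul _ _ Nat.one_div_pos_of_nat a2)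
  obtain ⟨M₁, m₁, E, hM₁, hE, e1, e2⟩ := hp N K M hM hc (⋃ k, (G k).support)
    (countable_iUnion fun k => (G k).support.countable_toSet)
  obtain ⟨a, ha⟩ := hR N K M hM κ B (D - ε • (H + r • A)) T M₁ m₁ hg hb
    (Eq.mp (congrArg M.Amp (by module)) hε) hM₁
  obtain ⟨s, hs⟩ := exists_nat_ge ((1 - a E) / ε)
  obtain ⟨c, hc⟩ := e2 s
  obtain ⟨q, hq⟩ := hh c
  have d1 := dv_add (dv_smul hD q) hH
  obtain ⟨f, f1, f0, f2⟩ := hc _ d1 hq
  obtain ⟨M', m, κ', Ψ, T', hM', hg', k1, k2, k3, k4, k5, k6⟩ :=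
    ha _ (M.div f + ((q : ℝ) • D + H)).support.finite_toSet
  have hL' := h.box.loc _ N K M' hM'
  have hP' := h.box.pos _ N K M' hM'
  have hB := h.box.bir _ N K M hM M' m hM'
  have pE : ∀ X, M.pull M' X E = M.ordD E X := fun X => by
    rw [Bi.pull_apply hL hL', if_pos (k1 E hE).1]
  obtain ⟨A', b1, -, b2⟩ := hP'.ex
  obtain ⟨G', g1, g2⟩ := amp_move hL' hP' b1 b2 (finite_singleton E)
  have n1 := hB.nef _ (nef_of_amp hP a2)
  have n2 := nef_smul hP' (hB.nef _ (nef_of_amp hP (hr r le_rfl))) ε0.le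
  have n3 := nef_smul hP' n1 (mul_pos ε0 r0).le
  refine core h hT hM m hM' (l := ε * q) (A := A' + M.pull M' A) (E := E)
    (G := fun k => M.pull M' (G k) + (1 / ((k : ℝ) + 1)) • G') hg' hD (dv_add b1 (dv_pull _))
    (amp_add_nef b2 n1) k3 (supp hL hB k2 ε) k4 k5
    (smul_nonneg ε0.le (pull_nonneg hB (div_add_nonneg hL d1 f1 f0))) (by positivity)
    (Eq.mp (congrArg M'.Amp ?_) (amp_add_nef k6 n2))
    (amp_congr hL' hP' (amp_add_nef k6 n3) (Eq.mp (congrArg (· ∈ PrR M') ?_)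
      (Submodule.smul_mem _ (-ε) (pull_prR hL hL' hB (div_mem_prR f0))))) (fun k => ?_)
    (.of_forall fun k => ?_) ?_
  · simp only [← pl_apply hB, map_sub, map_smul]
    module
  · simp only [← pl_apply hB, map_sub, map_smul, map_add]
    module
  · have := ((hG k).pull hL hL' hB).add (g1.smul (Nat.one_div_pos_of_nat (n := k)).le)
    refine Eq.mp (congrArg (Rep M' · _) ?_) this
    simp only [← pl_apply hB, map_smul, map_add]
    module
  · simp [pE, e1 (G k) (subset_iUnion (fun k => ((G k).support : Set (Place K))) k), g2 E rfl]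
  · have := (div_le_iff₀' ε0).1 hs
    have := mul_le_mul_of_nonneg_left f2 ε0.le
    simp only [Finsupp.add_apply, Finsupp.smul_apply, smul_eq_mul, pE]
    linarith [(k1 E hE).2]

end Vale.Agent.P277Z.F5
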