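import Vale.Agent.P277Z.F5.Exs

/-!
# P277Z, non-vanishing: the function `h⁰` on adjoint divisors
-/

set_option linter.all false

open Set
open Vale.Agent.P297 (Place)

noncomputable section

namespace Vale.Agent.P277Z.F5

open FI

variable {n N : ℕ} {K : Type} [Field K] [Algebra ℂ K]

namespace Py

theorem h0_div {M : Mdl n N K} (hL : Loc M) (D : Div K) {f : K} (hf : f ≠ 0) :
    h0 M (D + M.div f) = h0 M D := by
  simpa using ExsH.h0_sub hL D hf (-1)

/-- the reduced divisor of a finite set of primes -/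
def sm (Y : Finset (Place K)) : Div K := ∑ P ∈ Y, Finsupp.single P 1

open Classical in
theorem sm_apply (Y : Finset (Place K)) (Q : Place K) : sm Y Q = if Q ∈ Y then 1 else 0 := by
  simp [sm, Finsupp.finset_sum_apply, Finsupp.single_apply]

theorem int_sm (Y : Finset (Place K)) : IsInt (sm Y) := IsInt.sum _ fun P _ => IsInt.single P

theorem dv_sm {M : Mdl n N K} {Y : Finset (Place K)} (h : ∀ P ∈ Y, M.Pr P) : M.Dv (sm Y) :=
  dv_sum _ fun P hP => dv_single (h P hP) 1

theorem bd_sm {T : Set (Place K)} {B : Div K} (hB : Bd1 T B) {Y : Finset (Place K)}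
    (h : Disjoint (Y : Set (Place K)) T) : Bd1 (T ∪ Y) (B + sm Y) := by
  have h1 : ∀ Q, Q ∉ T → B Q = 0 := fun Q hQ =>
    by_contra fun e => hQ (hB.1 (Finsupp.mem_support_iff.2 e))
  refine ⟨fun Q hQ => by_contra fun e => Finsupp.mem_support_iff.1 hQ ?_, fun Q => ?_⟩
  · rw [Finsupp.add_apply, sm_apply, h1 Q fun k => e (Or.inl k),
      if_neg fun k : Q ∈ Y => e (Or.inr k), add_zero]
  · rw [Finsupp.add_apply, sm_apply]
    split_ifs with k
    · rw [h1 Q (disjoint_left.1 h k)]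
      norm_num
    · simpa using hB.2 Q

variable {M : Mdl (n + 1) N K}

theorem dv_r {P : Place K} (u : SubM M P) (D : Div K) : u.S.Dv (u.r D) := dv_rs _ _

theorem int_r (hL : Loc M) {P : Place K} (u : SubM M P) {D : Div K} (h : IsInt D) :
    IsInt (u.r D) := by
  obtain ⟨k, hk⟩ := h P
  refine rs_int u.rst (nr_self u.ht D) ?_
  rw [nr_apply, hk]
  exact IsInt.sub h (IsInt.zsmul (int_div hL _) k)

theorem exists_subM (h : Tb) (hM : M.Proj) {P : Place K} (hP : M.Snc {P}) :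
    Nonempty (SubM M P) := by
  obtain ⟨L, _, _, S, hS, ⟨s⟩⟩ := h.box.sub n N K M hM P hP
  obtain ⟨x, t, ht⟩ := hP.1 P rfl
  exact ⟨⟨L, S, s, hS, h.box.rst n N K M hM L S P s hP, t, by
    rw [div_apply (h.box.loc _ N K M hM) t ⟨x, t, ht⟩, ht.ord, Int.cast_one]⟩⟩

/-- `V` contains the functions `h⁰` of the adjoint divisors on the smooth prime divisors -/
def Low (M : Mdl (n + 1) N K) (c : Div K) (V : AddSubgroup (Div K → ℤ)) : Prop :=
  ∀ (P : Place K) (u : SubM M P) (κ' B' : Div u.L) (T' : Set (Place u.L)) (E : Div K),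
    M.Snc {P} → Cpt u.S → Lg u.S κ' T' → Bd1 T' B' → M.Dv E → IsInt E →
    (∀ A, M.Amp A → u.S.Amp (u.r A)) → (∀ D, M.Nef D → u.S.Nef (u.r D)) →
    (∀ L, u.r (L + E) - κ' - B' = u.r (L - c)) → (fun L => (h0 u.S (u.r (L + E)) : ℤ)) ∈ V

variable (h : Tb) (hE : EXS n) (hM : M.Proj) (hC : Cpt M) {κ B : Div K} {T : Set (Place K)}
  (hl : Lg M κ T) (hB : Bd1 T B)

include h hE hM hC hl hB

/-- adding a reduced divisor -/
theorem add {E : Div K} (h1 : M.Dv E) (h2 : IsInt E) {V : AddSubgroup (Div K → ℤ)}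
    (hV : Low M (κ + B - E) V) (Y : Finset (Place K)) (hY : Disjoint (Y : Set (Place K)) T)
    (hS : M.Snc (T ∪ Y)) : ∃ F ∈ V, ∀ L, M.Dv L → IsInt L → M.Amp (L + E - κ - B) →
      (h0 M (L + E + sm Y) : ℤ) = h0 M (L + E) + F L := by
  classical
  induction Y using Finset.induction_on with
  | empty => exact ⟨0, zero_mem _, fun L _ _ _ => by simp [sm]⟩
  | insert P Y hP ih =>
    rw [Finset.coe_insert] at hY hS
    have h3 := hY.mono_left (subset_insert _ _)
    obtain ⟨F, hF, h4⟩ := ih h3 (snc_mono hS (union_subset_union_right _ (subset_insert _ _)))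
    have h5 : M.Snc {P} := snc_mono hS (by simp)
    obtain ⟨u⟩ := exists_subM h hM h5
    obtain ⟨k1, -, k2, k3, -, -, k4⟩ := hE N K M hM hC u.L u.S P u.s u.rst u.t u.ht u.proj h5
    obtain ⟨⟨T', k5, k6⟩, k7⟩ := k4 κ (T ∪ Y) (B + sm Y)
      (fun k => k.elim (disjoint_left.1 hY (mem_insert _ _)) hP)
      ⟨hl.can, (hl.fin.union Y.finite_toSet).insert P, by rwa [← union_insert]⟩ (bd_sm hB h3)
    have h6 : M.Dv (E + sm Y) :=
      dv_add h1 (dv_sm fun Q hQ => hS.1 Q (Or.inr (mem_insert_of_mem _ hQ)))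
    have h7 := IsInt.add h2 (int_sm Y)
    refine ⟨_, add_mem hF (hV P u _ _ T' (E + sm Y + Finsupp.single P 1) h5 k1 k5 k6
      (dv_add h6 (dv_single (h5.1 P rfl) 1)) (IsInt.add h7 (IsInt.single P)) k2 k3 fun L => ?_),
      fun L hL hL' hA => ?_⟩
    · rw [SubM.r, ← map_sub, ← map_sub]
      congr 1
      abel
    · have k8 := k7 (L + (E + sm Y)) (dv_add hL h6) (IsInt.add hL' h7) (by
        rwa [← add_assoc, show L + E + sm Y - κ - (B + sm Y) = L + E - κ - B by abel])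
      have e : L + E + sm (insert P Y) = L + (E + sm Y) + Finsupp.single P 1 := by
        rw [sm, Finset.sum_insert hP, sm]
        abel
      rw [e, k8, Nat.cast_add, ← add_assoc L, h4 L hL hL' hA, Pi.add_apply, add_assoc,
        ← add_assoc L (E + sm Y), ← add_assoc L]
      rfl

/-- adding an integral divisor -/
theorem key (hT : BT (n + 1)) {a : Div K} (h1 : M.Dv a) (h2 : IsInt a)
    {V : AddSubgroup (Div K → ℤ)} (hV : Low M (κ + B) V) (hV' : Low M (κ + B - a) V) :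
    ∃ F ∈ V, ∀ L, M.Dv L → IsInt L → M.Amp (L - κ - B) → M.Amp (L + a - κ - B) →
      (h0 M (L + a) : ℤ) = h0 M L + F L := by
  have hP := h.box.pos _ N K M hM
  have hL := h.box.loc _ N K M hM
  obtain ⟨H, k1, k2, k3⟩ := hP.ex
  have bt : ∀ D, M.Dv D → IsInt D → ∃ m₀ : ℕ, ∀ m : ℕ, m₀ ≤ m → ∃ Y : Finset (Place K),
      Disjoint (Y : Set (Place K)) T ∧ M.Snc (T ∪ Y) ∧
        ∀ L, h0 M (L + sm Y) = h0 M (L + D + (m : ℝ) • H) := fun D hD hD' => by
    obtain ⟨m₀, k4⟩ := hP.gg H D k3 k2 hD'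
    refine ⟨m₀, fun m hm => ?_⟩
    obtain ⟨f, Y, f0, e, -, k5, -, k6, -⟩ := hT N K M hM M (Mod.refl M) T T ∅ _ hM hl.fin hl.snc
      hl.fin hl.snc (fun Q hQ => (hQ.2 hQ.1).elim) finite_empty (dv_add hD (dv_smul k1 m))
      (IsInt.add hD' (IsInt.nsmul k2 m)) (k4 m hm)
    refine ⟨Y, k5, k6, fun L => ?_⟩
    rw [sm, ← e, ← h0_div hL (L + D + _) f0]
    congr 1
    abel
  obtain ⟨m, k4⟩ := bt a h1 h2
  obtain ⟨m', k5⟩ := bt 0 dv_zero IsInt.zero
  obtain ⟨Y, y1, y2, y3⟩ := k4 _ (le_max_left m m')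
  obtain ⟨Y', y4, y5, y6⟩ := k5 _ (le_max_right m m')
  obtain ⟨F, hF, e⟩ := add h hE hM hC hl hB dv_zero IsInt.zero (by rwa [sub_zero]) Y y1 y2
  obtain ⟨F', hF', e'⟩ := add h hE hM hC hl hB h1 h2 hV' Y' y4 y5
  refine ⟨F - F', sub_mem hF hF', fun L l1 l2 l3 l4 => ?_⟩
  have e1 := e L l1 l2 (by rwa [add_zero])
  have e2 := e' L l1 l2 l4
  rw [y6, add_zero] at e2
  rw [add_zero, y3] at e1
  rw [Pi.sub_apply]
  linarith

end Py

open Py

theorem poly' (h : Tb) (hP : ∀ n, CP n) (hE : ∀ n, EXS n) (hT : ∀ n, BT n) {ι : Type} (n : ℕ) :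
    ForM n fun _ K _ _ M => Cpt M → ∀ (κ B L : Div K) (T : Set (Place K)) (s : Finset ι)
      (a : ι → Div K), n < s.card → Lg M κ T → Bd1 T B → M.Dv L → IsInt L →
      (∀ i, M.Dv (a i) ∧ IsInt (a i)) → (∀ J ⊆ s, M.Amp (L + ∑ i ∈ J, a i - κ - B)) →
      ∑ J ∈ s.powerset, (-1 : ℤ) ^ J.card * (h0 M (L + ∑ i ∈ J, a i) : ℤ) = 0 := by
  classical
  induction n with
  | zero =>
    intro N K _ _ M hM hC κ B L T s a hs _ _ _ _ _ _
    simp only [((hP 0 N K M hM).2 hC).2.2.1 rfl, Nat.cast_one, mul_one]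
    exact Finset.sum_powerset_neg_one_pow_card_of_nonempty (Finset.card_pos.1 hs)
  | succ n ih =>
    intro N K _ _ M hM hC κ B L T s a hs hl hB l1 l2 ha hA
    have hL := h.box.loc _ N K M hM
    obtain ⟨i, s, hi, rfl⟩ : ∃ i s', i ∉ s' ∧ s = insert i s' :=
      let ⟨i, hi⟩ := Finset.card_pos.1 (Nat.zero_lt_of_lt hs)
      ⟨i, s.erase i, Finset.notMem_erase _ _, (Finset.insert_erase hi).symm⟩
    rw [Finset.card_insert_of_notMem hi, Nat.add_lt_add_iff_right] at hs
    let V : AddSubgroup (Div K → ℤ) :=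
      { carrier := {F | ∑ J ∈ s.powerset, (-1 : ℤ) ^ J.card * F (L + ∑ i ∈ J, a i) = 0}
        zero_mem' := by simp
        add_mem' := fun {F F'} k k' => by
          simp only [mem_setOf_eq, Pi.add_apply, mul_add, Finset.sum_add_distrib] at k k' ⊢
          rw [k, k', add_zero]
        neg_mem' := fun {F} k => by
          simp only [mem_setOf_eq, Pi.neg_apply, mul_neg, Finset.sum_neg_distrib] at k ⊢
          rw [k, neg_zero] }
    have h1 : ∀ J ⊆ s, M.Amp (L + ∑ i ∈ J, a i - κ - B) := fun J hJ =>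
      hA J (hJ.trans (Finset.subset_insert _ _))
    have h2 : ∀ J ⊆ s, M.Amp (L + ∑ i ∈ J, a i + a i - κ - B) := fun J hJ => by
      have := hA (insert i J) (Finset.insert_subset_insert _ hJ)
      rwa [Finset.sum_insert fun k => hi (hJ k), add_comm (a i), ← add_assoc] at this
    have hV : ∀ c, (∀ J ⊆ s, M.Amp (L + ∑ i ∈ J, a i - c)) → Low M c V := by
      intro c hc P u κ' B' T' E _ k1 k2 k3 _ k5 k6 _ k8
      have e : ∀ J : Finset ι, u.r (L + ∑ i ∈ J, a i + E) = u.r (L + E) + ∑ i ∈ J, u.r (a i) :=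
        fun J => by rw [add_right_comm, map_add, map_sum]
      have := ih N u.L u.S u.proj k1 κ' B' (u.r (L + E)) T' s (fun i => u.r (a i)) hs k2 k3
        (dv_r u _) (int_r hL u (IsInt.add l2 k5)) (fun i => ⟨dv_r u _, int_r hL u (ha i).2⟩)
        fun J hJ => by rw [← e, k8]; exact k6 _ (hc J hJ)
      simp only [← e] at this
      exact this
    obtain ⟨F, hF, e⟩ := key h (hE n) hM hC hl hB (hT _) (ha i).1 (ha i).2
      (hV _ fun J hJ => by rw [← sub_sub]; exact h1 J hJ)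
      (hV _ fun J hJ => by rw [← sub_add, sub_add_eq_add_sub, ← sub_sub]; exact h2 J hJ)
    rw [Finset.sum_powerset_insert hi, ← Finset.sum_add_distrib, ← neg_eq_zero,
      ← Finset.sum_neg_distrib]
    refine (Finset.sum_congr rfl fun J hJ => ?_).trans hF
    have hJ' := Finset.mem_powerset.1 hJ
    rw [Finset.sum_insert fun k => hi (hJ' k), Finset.card_insert_of_notMem fun k => hi (hJ' k),
      add_comm (a i), ← add_assoc, e _ (dv_add l1 (dv_sum _ fun i _ => (ha i).1))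
        (IsInt.add l2 (IsInt.sum _ fun i _ => (ha i).2)) (h1 J hJ') (h2 J hJ')]
    ring

theorem poly (h : Tb) (hP : ∀ n, CP n) (hE : ∀ n, EXS n) (hT : ∀ n, BT n) (n : ℕ) : POLY n :=
  fun N K _ _ M hM hC κ B L T a hl hB l1 l2 ha hA => by
    simpa only [Finset.powerset_univ] using poly' h hP hE hT n N K M hM hC κ B L T Finset.univ a
      (by simp) hl hB l1 l2 ha fun J _ => hA J

theorem Py.affine {x : ℤ → ℕ} (h : ∀ t, (x (t + 1 + 1) : ℤ) - x (t + 1) = x (t + 1) - x t) :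
    x 1 = x 0 := by
  have h1 : ∀ t, (x (t + 1) : ℤ) - x t = x 1 - x 0 := fun t => by
    induction t using Int.induction_on with
    | zero => rfl
    | succ t ih => rw [h, ih]
    | pred t ih => rw [← h, sub_add_cancel, ih]
  have h2 : ∀ t, (x t : ℤ) = x 0 + t * (x 1 - x 0) := fun t => by
    induction t using Int.induction_on with
    | zero => simp
    | succ t ih => linear_combination h1 t + ih
    | pred t ih =>
      have := h1 (-t - 1)
      rw [sub_add_cancel] at this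
      linear_combination ih - this
  have h3 := h2 (x 0 + 1)
  have h4 := h2 (-(x 0 + 1))
  have h5 := Int.natCast_nonneg (x (x 0 + 1))
  have h6 := Int.natCast_nonneg (x (-(x 0 + 1)))
  have h7 := Int.natCast_nonneg (x 0)
  by_contra k
  rcases lt_or_gt_of_ne k with k | k <;> have k' := Int.ofNat_lt.2 k <;> nlinarith

theorem const (h : Tb) (hP : ∀ n, CP n) (hE : ∀ n, EXS n) (hT : ∀ n, BT n) (n : ℕ) :
    CONST n := by
  induction n with
  | zero =>
    intro N K _ _ M hM hC κ B L P T _ _ _ _ _ _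
    simp only [((hP 0 N K M hM).2 hC).2.2.1 rfl]
  | succ n ih =>
    intro N K _ _ M hM hC κ B L P T hl hB l1 l2 hA ⟨p1, p2, p3, p4⟩
    have hL := h.box.loc _ N K M hM
    have h1 : ∀ t : ℤ, M.Amp (L + (t : ℝ) • P - κ - B) := fun t => by
      induction t using Int.induction_on with
      | zero => simpa using hA
      | succ t ih =>
        have := p3 _ ih
        rwa [show P + (L + ((t : ℤ) : ℝ) • P - κ - B) = L + ((t + 1 : ℤ) : ℝ) • P - κ - B by
          push_cast; module] at this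
      | pred t ih =>
        have := p4 _ ih
        rwa [show -P + (L + ((-t : ℤ) : ℝ) • P - κ - B) = L + ((-t - 1 : ℤ) : ℝ) • P - κ - B by
          push_cast; module] at this
    have h2 : ∀ t : ℤ, L + ((t + 1 : ℤ) : ℝ) • P = L + (t : ℝ) • P + P := fun t => by
      push_cast; module
    let V : AddSubgroup (Div K → ℤ) :=
      { carrier := {F | ∀ t : ℤ, F (L + (t : ℝ) • P + P) = F (L + (t : ℝ) • P)}
        zero_mem' := fun _ => rfl
        add_mem' := fun {F F'} k k' t => by rw [Pi.add_apply, Pi.add_apply, k, k']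
        neg_mem' := fun {F} k t => by rw [Pi.neg_apply, Pi.neg_apply, k] }
    have hV : ∀ c, (∀ t : ℤ, M.Amp (L + (t : ℝ) • P - c)) → Low M c V := by
      intro c hc Q u κ' B' T' E _ k1 k2 k3 _ k5 k6 k7 k8 t
      have := ih N u.L u.S u.proj k1 κ' B' (u.r (L + (t : ℝ) • P + E)) (u.r P) T' k2 k3
        (dv_r u _) (int_r hL u (IsInt.add (IsInt.add l2 (IsInt.zsmul p2 t)) k5))
        (by rw [k8]; exact k6 _ (hc t))
        ⟨dv_r u _, int_r hL u p2, k7 _ p3, by rw [← map_neg]; exact k7 _ p4⟩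
      rw [← map_add, add_right_comm] at this
      exact congrArg Nat.cast this
    obtain ⟨F, hF, e⟩ := key h (hE n) hM hC hl hB (hT _) p1 p2
      (hV _ fun t => by rw [← sub_sub]; exact h1 t)
      (hV _ fun t => by rw [← sub_add, sub_add_eq_add_sub, ← sub_sub, ← h2]; exact h1 _)
    have h3 : ∀ t : ℤ, (h0 M (L + ((t + 1 : ℤ) : ℝ) • P) : ℤ) - h0 M (L + (t : ℝ) • P) =
        F (L + (t : ℝ) • P) := fun t => by
      rw [h2, e _ (dv_add l1 (dv_smul p1 _)) (IsInt.add l2 (IsInt.zsmul p2 t)) (h1 t)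
        (h2 t ▸ h1 _), add_sub_cancel_left]
    simpa using affine (x := fun t => h0 M (L + (t : ℝ) • P)) fun t => by
      rw [h3, h3, h2, hF]

end Vale.Agent.P277Z.F5
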