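import Vale.Agent.P277Z.F5.Bas

/-!
# P277Z, non-vanishing: the trick of Shokurov
-/

set_option linter.all false

open Set Filter Topology
open Vale.Agent.P297 (Place)

noncomputable section

open Classical

namespace Vale.Agent.P277Z.F5

open FI

variable {n N : ℕ} {K : Type} [Field K] [Algebra ℂ K] {M : Mdl n N K}

namespace ShoH

theorem mem_of_rat {J : Type} [Fintype J] {C U : Set (J → ℝ)} (hC : Convex ℝ C) (hU : IsOpen U)
    (h : ∀ y ∈ U, (∀ j, ∃ q : ℚ, y j = q) → y ∈ C) : U ⊆ C := by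
  have key : ∀ s : Finset J, ∀ y ∈ U, (∀ j ∉ s, ∃ q : ℚ, y j = q) → y ∈ C := fun s => by
    induction s using Finset.induction_on with
    | empty => exact fun y hy h1 => h y hy fun j => h1 j (by simp)
    | insert j s hj ih =>
      intro y hy h1
      have c : Continuous fun t : ℝ => Function.update y j t := continuous_const.update j continuous_id
      have e : ∀ᶠ t in 𝓝 (y j), Function.update y j t ∈ U :=
        c.continuousAt.eventually (hU.mem_nhds (by simpa using hy))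
      obtain ⟨a, b, ab, h2⟩ := (mem_nhds_iff_exists_Ioo_subset).1 e
      obtain ⟨p, p1, p2⟩ := exists_rat_btwn ab.1
      obtain ⟨q, q1, q2⟩ := exists_rat_btwn ab.2
      have k : ∀ r : ℚ, (r : ℝ) ∈ Ioo a b → Function.update y j r ∈ C := fun r hr =>
        ih _ (h2 hr) fun i hi => by
          by_cases e : i = j
          · exact ⟨r, by simp [e]⟩
          · simpa [e] using h1 i (by simp [e, hi])
      have d : (0 : ℝ) < q - p := by linarith
      convert hC (k p ⟨p1, p2.trans ab.2⟩) (k q ⟨ab.1.trans q1, q2⟩) (a := (q - y j) / (q - p))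
        (b := (y j - p) / (q - p)) (div_nonneg (by linarith) d.le) (div_nonneg (by linarith) d.le)
        (by field_simp; ring) using 1
      ext i
      by_cases e : i = j
      · simp only [e, Pi.add_apply, Pi.smul_apply, Function.update_self, smul_eq_mul]
        field_simp
        ring
      · simp only [Pi.add_apply, Pi.smul_apply, Function.update_of_ne e, smul_eq_mul]
        field_simp
        ring
  exact fun y hy => key Finset.univ y hy (by simp)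

theorem exists_den {J : Type} [Fintype J] {y : J → ℝ} (h : ∀ j, ∃ q : ℚ, y j = q) :
    ∃ m : ℕ, 0 < m ∧ ∀ j, ∃ z : ℤ, m * y j = z := by
  choose q hq using h
  refine ⟨∏ j, (q j).den, Finset.prod_pos fun j _ => (q j).den_pos, fun j => ?_⟩
  obtain ⟨c, hc⟩ := Finset.dvd_prod_of_mem (fun j => (q j).den) (Finset.mem_univ j)
  refine ⟨c * (q j).num, ?_⟩
  rw [hc, hq, ← Rat.mul_den_eq_num (q j) |> fun e => (by exact_mod_cast e.symm :
    ((q j).num : ℝ) = q j * (q j).den) |> fun e => (by push_cast; rw [e]; ring :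
      ((c * (q j).num : ℤ) : ℝ) = ((q j).den * c : ℕ) * (q j : ℝ))]

theorem step (hL : Loc M) (hP : Pos M) (hF : ∀ D, Module.Finite ℂ ((M.H0 D).restrictScalars ℂ))
    {κ B ν P : Div K} {T : Set (Place K)} (hκ : Lg M κ T)
    (hC : ∀ B L P, Bd1 T B → M.Dv L → IsInt L → M.Amp (L - κ - B) → P ∈ NT M →
      h0 M (L + P) = h0 M L)
    (b1 : ∀ Q ∉ T, B Q = 0) (b2 : ∀ Q, 0 ≤ B Q ∧ B Q < 1) (v1 : ∀ Q ∉ T, ν Q = 0) (v2 : 0 ≤ ν)
    (p1 : M.Dv P ∧ M.Nef P ∧ M.Nef (-P)) {m : ℕ} (hm : 0 < m) (i1 : IsInt ((m : ℝ) • ν))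
    (i2 : IsInt ((m : ℝ) • P)) (hA : M.Amp (ν + P - κ - B)) : Eff M (ν + P) := by
  have m0 : (0 : ℝ) < m := by exact_mod_cast hm
  have m1 : (1 : ℝ) ≤ m := by exact_mod_cast hm
  set X : Div K := ((m : ℝ) - 1) • ν + B
  have Xa : ∀ Q, X Q = (m - 1) * ν Q + B Q := fun Q => rfl
  set Y : Div K := X.mapRange (fun x => (⌊x⌋ : ℝ)) (by simp)
  have Ya : ∀ Q, Y Q = ⌊X Q⌋ := fun Q => rfl
  have X0 : ∀ Q ∉ T, X Q = 0 := fun Q hQ => by simp [Xa, b1 Q hQ, v1 Q hQ]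
  have Y0 : ∀ Q ∉ T, Y Q = 0 := fun Q hQ => by simp [Ya, X0 Q hQ]
  have dvT : ∀ {Z : Div K}, (∀ Q ∉ T, Z Q = 0) → M.Dv Z := fun hZ =>
    dv_iff.2 fun Q hQ => hZ Q fun e => hQ (hκ.snc.1 Q e)
  have Yn : 0 ≤ Y := fun Q => by
    have : 0 ≤ X Q := add_nonneg (mul_nonneg (by linarith) (v2 Q)) (b2 Q).1
    change (0 : ℝ) ≤ ⌊X Q⌋
    exact_mod_cast Int.floor_nonneg.2 this
  have Ln : 0 ≤ (m : ℝ) • ν - Y := fun Q => by
    obtain ⟨z, hz⟩ := i1 Q
    have a : (m : ℝ) * ν Q = z := hz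
    have b : 0 ≤ ν Q := v2 Q
    have : ⌊X Q⌋ ≤ z := Int.floor_le_iff.2 (by rw [Xa]; linarith [(b2 Q).2])
    change (0 : ℝ) ≤ m * ν Q - ⌊X Q⌋
    rw [a, sub_nonneg]
    exact_mod_cast this
  have dL : M.Dv ((m : ℝ) • ν - Y) := dv_sub (dv_smul (dvT v1) _) (dvT Y0)
  have e := hC (X - Y) ((m : ℝ) • ν - Y) ((m : ℝ) • P)
    ⟨fun Q hQ => by_contra fun k => Finsupp.mem_support_iff.1 hQ (by simp [X0 Q k, Y0 Q k]),
      fun Q => ⟨Int.fract_nonneg (X Q), (Int.fract_lt_one (X Q)).le⟩⟩ dL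
    (IsInt.sub i1 fun Q => ⟨_, Ya Q⟩) (by convert amp_add_nef hA p1.2.2 using 1; simp only [X]; module)
    ⟨dv_smul p1.1 _, i2, nef_smul hP p1.2.1 m0.le, by
      rw [← smul_neg]; exact nef_smul hP p1.2.2 m0.le⟩
  have := hF ((m : ℝ) • ν - Y)
  have pos : h0 M ((m : ℝ) • ν - Y) ≠ 0 := fun k =>
    one_ne_zero ((Submodule.eq_bot_iff _).1 (Submodule.finrank_eq_zero.1 k) (1 : K) (one_mem_H0 Ln))
  refine Eff.of_smul m0 ((eff_of_h0 hL (dv_add dL (dv_smul p1.1 _)) (e ▸ pos)).mono ?_)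
  rw [smul_add]
  exact add_le_add (sub_le_self _ Yn) le_rfl

end ShoH

open ShoH in
theorem sho (h : Tb) (n : ℕ) (hLR : LR n) (hPP : PP n) (hC : CONST n) (hCP : CP n) : SHO n := by
  intro N K _ _ M hM hc κ B D ν T hκ hB hD hA v1 v2 hv
  obtain ⟨a, ha⟩ := hLR N K M hM κ B D T M (Mod.refl M) hκ hB hA hM
  obtain ⟨M', m, κ', Ψ, T', hM', hκ', -, t1, t2, t3, t4, t5⟩ := ha _ ν.support.finite_toSet
  have hL := h.box.loc n N K M hM
  have hL' := h.box.loc n N K M' hM'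
  have hP' := h.box.pos n N K M' hM'
  have hb := h.box.bir n N K M hM M' m hM'
  obtain ⟨p0, -, -, p2⟩ := hPP N K M hM M' m hM'
  have Ψ0 : ∀ Q ∉ T', Ψ Q = 0 := fun Q hQ => by_contra fun e =>
    hQ (t2 (Finsupp.mem_support_iff.2 e))
  set Ψ' : Div K := Ψ ⊔ 0 - Ψ
  have Ψa : ∀ Q, Ψ' Q = max (Ψ Q) 0 - Ψ Q := fun Q => rfl
  have Ψ1 : ∀ Q ∉ T', Ψ' Q = 0 := fun Q hQ => by simp [Ψa, Ψ0 Q hQ]
  set ν' := M.pull M' ν + Ψ'
  have w1 : 0 ≤ ν' := add_nonneg (pull_nonneg hb v2) fun Q => sub_nonneg.2 (le_max_left _ _)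
  have w2 : ∀ Q ∉ T', ν' Q = 0 := fun Q hQ => by
    rw [Finsupp.add_apply, Ψ1 Q hQ, add_zero]
    by_contra e
    by_cases hq : M'.Pr Q
    · exact hQ (t1 Q hq ((pull_supp hL hb ν e).imp_left fun e' => Finsupp.mem_support_iff.2 e'))
    · exact e (dv_iff.1 (dv_pull ν) Q hq)
  obtain ⟨k, r, g, e⟩ := Submodule.mem_span_set'.1 hv
  have hg : ∀ i, M.pull M' (g i) ∈ NT M' := fun i => ⟨dv_pull _, pull_int hb (g i).2.2.1,
    hb.nef _ (g i).2.2.2.1, by rw [← pl_apply hb, ← map_neg]; exact hb.nef _ (g i).2.2.2.2⟩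
  let E : ν'.support ⊕ Fin k → Div K :=
    Sum.elim (fun Q => Finsupp.single (Q : Place K) 1) fun i => M.pull M' (g i)
  let π : (ν'.support ⊕ Fin k → ℝ) →ₗ[ℝ] Div K := Fintype.linearCombination ℝ E
  have πa : ∀ y, π y = ∑ Q : ν'.support, y (.inl Q) • Finsupp.single (Q : Place K) (1 : ℝ) +
      ∑ i, y (.inr i) • M.pull M' (g i) := fun y => by
    simp only [π, Fintype.linearCombination_apply, Fintype.sum_sum_type, E, Sum.elim_inl,
      Sum.elim_inr]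
  let x : ν'.support ⊕ Fin k → ℝ := Sum.elim (fun Q => ν' Q) r
  have πx : π x = M.pull M' D + Ψ' := by
    rw [πa]
    simp only [x, Sum.elim_inl, Sum.elim_inr]
    rw [Finset.sum_coe_sort ν'.support fun Q => ν' Q • Finsupp.single Q (1 : ℝ),
      ← eq_sum_single subset_rfl]
    simp only [ν', ← pl_apply hb, ← map_smul, ← map_sum, e, map_sub]
    abel
  have ev : ∀ᶠ y in 𝓝 x, (∀ Q, 0 < y (.inl Q)) ∧ M'.Amp (π y - κ' - Ψ ⊔ 0) := by
    refine (eventually_all.2 fun Q => ((continuous_apply (Sum.inl Q)).tendsto x).eventually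
      (lt_mem_nhds (lt_of_le_of_ne (w1 Q) (Finsupp.mem_support_iff.1 Q.2).symm))).and ?_
    obtain ⟨ε, e0, e1⟩ := amp_box hP' E Finset.univ _ t5
    filter_upwards [Metric.closedBall_mem_nhds x e0] with y hy
    convert e1 (y - x) fun j _ => (dist_pi_le_iff e0.le).1 hy j using 1
    change _ = _ + π (y - x)
    rw [map_sub, πx]
    simp only [Ψ']
    abel
  obtain ⟨U, U1, U2, U3⟩ := eventually_nhds_iff.1 ev
  have fin := mem_of_rat (C := {y | Eff M' (π y)}) (fun y hy z hz a b a0 b0 _ => by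
    rw [mem_ofPred_eq, map_add, map_smul, map_smul]
    exact (Eff.smul hy a0).add (Eff.smul hz b0)) U2 (fun y hy hq => ?_) U3
  · refine p2 D (-Ψ') hD (fun Q hQ => by simp [Ψa, max_eq_left (t4 Q hQ)])
      (dv_iff.2 fun Q hQ => by simp [Ψ1 Q fun e => hQ (hκ'.snc.1 Q e)]) ?_
    rw [sub_neg_eq_add, ← πx]
    exact fin
  obtain ⟨d, d0, d1⟩ := exists_den hq
  have int : ∀ {ι : Type} [Fintype ι] (c : ι → ℝ) (X : ι → Div K), (∀ i, ∃ z : ℤ, d * c i = z) →
      (∀ i, IsInt (X i)) → IsInt ((d : ℝ) • ∑ i, c i • X i) := fun c X h1 h2 => by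
    rw [Finset.smul_sum]
    exact IsInt.sum _ fun i _ => by
      obtain ⟨z, hz⟩ := h1 i
      rw [smul_smul, hz]
      exact IsInt.zsmul (h2 i) z
  rw [mem_ofPred_eq, πa]
  refine step hL' hP' ((hCP N K M' hM').2 (p0 hc)).1 hκ'
    (fun B L P => hC N K M' hM' (p0 hc) κ' B L P T' hκ') (B := Ψ ⊔ 0)
    (fun Q hQ => by simp [Ψ0 Q hQ]) (fun Q => ⟨le_max_right _ _, max_lt (t3 Q) one_pos⟩)
    (fun Q hQ => ?_) (Finset.sum_nonneg fun Q _ => smul_nonneg ((U1 y hy).1 Q).le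
      (Finsupp.single_nonneg.2 zero_le_one))
    (nef_of_span hP' (Submodule.sum_mem _ fun i _ => Submodule.smul_mem _ _
      (Submodule.subset_span (hg i)))) d0 (int _ _ (fun Q => d1 _) fun Q => IsInt.single _)
    (int _ _ (fun i => d1 _) fun i => (hg i).2.1) (πa y ▸ (U1 y hy).2)
  rw [Finsupp.finset_sum_apply]
  refine Finset.sum_eq_zero fun R _ => ?_
  rw [Finsupp.smul_apply, Finsupp.single_eq_of_ne, smul_zero]
  rintro rfl
  exact Finsupp.mem_support_iff.1 R.2 (w2 _ hQ)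

end Vale.Agent.P277Z.F5
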