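import Vale.Agent.P277Z.F5.Sk2
import Vale.Agent.P277Z.S4.T43
import Vale.Agent.P277Z.Gr.Ver
import Vale.Agent.P277Z.Bir.Alg

/-!
# P277Z, non-vanishing: Theorem 4.3 of Cascini and Lazic for models
-/

set_option linter.all false

open Set Filter Topology
open Vale.Agent.P297 (Place)
open Vale.Agent.P297Z.Pl
open P277Z.Gor P277Z.Gr P277Z.S4

noncomputable section

namespace Vale.Agent.P277Z.F5

open FI

namespace T43A

theorem cone_cpt {ι : Type} [Fintype ι] {U C : Set (ι → ℝ)} (hU : IsOpen U)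
    (hs : ∀ c : ℝ, 0 < c → ∀ v ∈ U, c • v ∈ U) (hC : IsCompact C) (h : C ⊆ U) :
    ∃ s : Finset (ι → ℤ), (∀ a ∈ s, toR a ∈ U) ∧ C ⊆ cone s := by
  classical
  have key : ∀ v ∈ U, ∃ s : Finset (ι → ℤ), (∀ a ∈ s, toR a ∈ U) ∧ cone s ∈ 𝓝 v := fun v hv => by
    by_cases h0 : v = 0
    · subst h0
      simpa using exists_cone_nhds hU hs (t := 0) (by simpa using hv)
    obtain ⟨ε, hε, H⟩ := Metric.isOpen_iff.1 hU v hv
    obtain ⟨k, w, z, h1, -, h2, h3⟩ := P277Z.Cvx.hull_fin (P277Z.Cvx.dio v one_pos hε)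
    have h4 := fun i => H (mem_ball_iff_norm'.2 (P277Z.Cvx.Appr.norm_lt one_pos (h2 i)))
    choose m m0 h5 using h2
    choose b hb using fun i => (h5 i).1
    have ha : ∀ i, (m i : ℝ) • z i = toR (b i) := fun i => funext (hb i)
    clear hb
    revert b
    intro a ha
    have m1 : ∀ i, (0 : ℝ) < m i := fun i => by exact_mod_cast m0 i
    obtain ⟨s, s1, s2⟩ := exists_cone_nhds' hU hs (V := {t | toR t ∈ U})
      (fun t ht => ⟨1, le_rfl, by simpa using ht⟩) (T := Finset.univ.image a) fun t ht => by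
        obtain ⟨i, -, rfl⟩ := Finset.mem_image.1 ht
        exact ha i ▸ hs _ (m1 i) _ (h4 i)
    refine ⟨s, s1, s2 v (h3 ▸ sum_mem_cone _ _ fun i _ => ?_) h0⟩
    have := smul_mem_cone (toR_mem_cone (Finset.mem_image_of_mem a (Finset.mem_univ i)))
      (mul_pos (h1 i) (inv_pos.2 (m1 i))).le
    rwa [← ha, smul_smul, inv_mul_cancel_right₀ (m1 i).ne'] at this
  choose! s s1 s2 using key
  obtain ⟨F, F1, F2⟩ := hC.elim_nhds_subcover (fun v => cone (s v)) fun v hv => s2 v (h hv)
  refine ⟨F.biUnion s, fun a ha => ?_, fun v hv => ?_⟩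
  · obtain ⟨v, hv, ha⟩ := Finset.mem_biUnion.1 ha
    exact s1 v (h (F1 v hv)) a ha
  · obtain ⟨w, hw, k⟩ := mem_iUnion₂.1 (F2 hv)
    exact cone_mono (Finset.subset_biUnion_of_mem s hw) k

variable {n N : ℕ} {K : Type} [Field K] [Algebra ℂ K] {M : Mdl n N K} (S : Finset (Place K))

/-- divisors with support in `S` -/
def emb : (S → ℝ) →ₗ[ℝ] Div K := Fintype.linearCombination ℝ fun Q : S => Finsupp.single Q.1 1

/-- coefficients -/
def co : Div K →ₗ[ℝ] S → ℝ := LinearMap.pi fun Q => Finsupp.lapply Q.1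

variable {S}

theorem emb_apply (v : S → ℝ) (Q : S) : emb S v Q = v Q := by
  classical
  simp [emb, Fintype.linearCombination_apply, Finsupp.finset_sum_apply, Finsupp.single_apply]

theorem emb_off (v : S → ℝ) {Q : Place K} (h : Q ∉ S) : emb S v Q = 0 := by
  simp only [emb, Fintype.linearCombination_apply, Finsupp.finset_sum_apply]
  exact Finset.sum_eq_zero fun R _ => by
    rw [Finsupp.smul_apply, Finsupp.single_eq_of_ne (by rintro rfl; exact h R.2), smul_zero]

theorem co_emb (v : S → ℝ) : co S (emb S v) = v := funext (emb_apply v)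

theorem emb_co {D : Div K} (h : D.support ⊆ S) : emb S (co S D) = D := Finsupp.ext fun Q => by
  by_cases k : Q ∈ S
  · exact emb_apply _ ⟨Q, k⟩
  · rw [emb_off _ k, Finsupp.notMem_support_iff.1 fun e => k (h e)]

theorem emb_dv (h : ∀ Q ∈ S, M.Pr Q) (v : S → ℝ) : M.Dv (emb S v) :=
  dv_iff.2 fun Q k => emb_off v fun e => k (h Q e)

theorem emb_int (a : S → ℤ) : IsInt (emb S (toR a)) := fun Q => by
  by_cases k : Q ∈ S
  · exact ⟨_, emb_apply _ ⟨Q, k⟩⟩
  · exact ⟨0, by simp [emb_off _ k]⟩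

variable (S) in
/-- integral divisors with support in `S` -/
def lat : (S → ℤ) →+ Div K where
  toFun a := emb S (toR a)
  map_zero' := by simp
  map_add' a b := by rw [toR_add, map_add]

open Classical in
theorem emb_cone {r : Finset (S → ℤ)} {w : S → ℝ} (h : w ∈ cone r) :
    emb S w ∈ Cone (r.image (lat S)) := by
  have inj : Function.Injective (lat S) := fun a b e =>
    toR_injective ((co_emb _).symm.trans ((congrArg (co S) e).trans (co_emb _)))
  obtain ⟨t, ht, rfl⟩ := h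
  refine ⟨Function.extend (lat S) t 0, fun L => ?_, ?_⟩
  · by_cases k : ∃ a, lat S a = L
    · obtain ⟨a, rfl⟩ := k
      rw [inj.extend_apply]
      exact ht a
    · rw [Function.extend_apply' _ _ _ k]
      rfl
  · rw [Finset.sum_image fun _ _ _ _ k => inj k, map_sum]
    exact Finset.sum_congr rfl fun a _ => by rw [inj.extend_apply, map_smul]; rfl

theorem eff_add {D E : Div K} (h : Eff M D) (h' : Eff M E) : Eff M (D + E) :=
  let ⟨G, a, b⟩ := h
  let ⟨G', a', b'⟩ := h'
  ⟨G + G', add_nonneg a a', add_sub_add_comm G G' D E ▸ add_mem b b'⟩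

theorem eff_smul {D : Div K} (h : Eff M D) {c : ℝ} (hc : 0 ≤ c) : Eff M (c • D) :=
  let ⟨G, a, b⟩ := h
  ⟨c • G, smul_nonneg hc a, smul_sub c G D ▸ Submodule.smul_mem _ c b⟩

theorem nle {P : Place K} (hP : M.Pr P) {L : Div K} {f : K} (hf : f ∈ M.H0 L) (h0 : f ≠ 0)
    (h : (P.ord f : ℝ) + L P = 0) : ¬ M.H0 L ≤ M.H0 (L - Finsupp.single P 1) := fun e => by
  have := (e hf).resolve_left h0 P hP
  simp only [Finsupp.sub_apply, Finsupp.single_eq_same] at this
  linarith

theorem prm {P : Place K} : Prm (fun a => M.H0 (lat S a))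
    fun a => M.H0 (lat S a - Finsupp.single P 1) := by
  intro a b f g hf hg h
  by_contra H
  rw [not_or] at H
  have key : ∀ {a : S → ℤ} {f : K}, f ∈ M.H0 (lat S a) →
      f ∉ M.H0 (lat S a - Finsupp.single P 1) → f ≠ 0 ∧ M.Pr P ∧ (P.ord f : ℝ) + lat S a P ≤ 0 := by
    intro a f hf H
    have h0 : f ≠ 0 := fun e => H (.inl e)
    obtain ⟨Q, hQ⟩ := not_forall.1 fun e => H (.inr e)
    obtain ⟨h1, h2⟩ := Classical.not_imp.1 hQ
    obtain rfl : Q = P := by
      by_contra e
      exact h2 (by simpa [Finsupp.single_eq_of_ne e] using hf.resolve_left h0 Q h1)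
    obtain ⟨k, hk⟩ : ∃ k : ℤ, lat S a Q = k := emb_int a Q
    simp only [Finsupp.sub_apply, Finsupp.single_eq_same, hk] at h2 ⊢
    refine ⟨h0, h1, ?_⟩
    have : ¬ 0 ≤ Q.ord f + (k - 1) := by exact_mod_cast h2
    exact_mod_cast (by omega : Q.ord f + k ≤ 0)
  obtain ⟨a1, a2, a3⟩ := key hf H.1
  obtain ⟨b1, -, b3⟩ := key hg H.2
  have := h.resolve_left (mul_ne_zero a1 b1) P a2
  simp only [ord_mul P a1 b1, map_add, Finsupp.sub_apply, Finsupp.add_apply,
    Finsupp.single_eq_same, Int.cast_add] at this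
  linarith

theorem adj_open (hP : Pos M) (κ : Div K) (T : Set (Place K)) :
    IsOpen {v | Adj M κ T (emb S v)} := by
  refine Metric.isOpen_iff.2 fun v ⟨d, hd, B, b1, b2, b3⟩ => ?_
  obtain ⟨ε, hε, H⟩ := Bi.amp_open hP Finset.univ (fun Q : S => Finsupp.single Q.1 (1 : ℝ)) b3
  refine ⟨d * ε, mul_pos hd hε, fun w hw => ⟨d, hd, B, b1, b2, ?_⟩⟩
  have := H (d⁻¹ • (w - v)) fun i _ => by
    rw [Pi.smul_apply, smul_eq_mul, abs_mul, abs_of_pos (inv_pos.2 hd), inv_mul_le_iff₀ hd]
    exact (norm_le_pi_norm (w - v) i).trans (mem_ball_iff_norm.1 hw).le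
  rw [← Fintype.linearCombination_apply ℝ, ← emb, map_smul, map_sub] at this
  exact cast (congrArg _ (by module)) this

theorem adj_smul (κ : Div K) (T : Set (Place K)) : ∀ c : ℝ, 0 < c →
    ∀ v ∈ {v | Adj M κ T (emb S v)}, c • v ∈ {v | Adj M κ T (emb S v)} := by
  rintro c hc v ⟨d, hd, B, b1, b2, b3⟩
  refine ⟨c * d, mul_pos hc hd, B, b1, b2, ?_⟩
  rwa [map_smul, smul_smul, mul_inv_rev, inv_mul_cancel_right₀ hc.ne']

theorem core (hM : M.Proj) (hL : Loc M) (hP : Pos M) (hA : AR n) (hR : ThR M) {κ A : Div K}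
    {P : Place K} {T : Set (Place K)} (h1 : P ∉ T) (h2 : IsCan M κ) (h3 : T.Finite)
    (h4 : M.Snc (insert P T)) (hS : ∀ Q ∈ S, M.Pr Q) (hPS : P ∈ S) (a1 : A.support ⊆ S)
    (a2 : M.Amp A) {T₀ : Finset (S → ℤ)}
    (t1 : ∀ a ∈ T₀, Adj M (κ + Finsupp.single P 1) T (emb S (toR a))) :
    ∃ s : Finset (S → ℤ), (∀ v ∈ cone s, Eff M (emb S v)) ∧
      ∀ v ∈ cone T₀, Z M (emb S v) P → v ∈ cone s := by
  classical
  have hH := (fam_H0 M).comap (lat S)
  have pr := hS P hPS
  have one : (1 : K) ∉ M.H0 (lat S 0 - Finsupp.single P 1) := fun e =>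
    absurd (by simpa using e.resolve_left one_ne_zero P pr) (not_le.2 (zero_lt_one' ℝ))
  obtain ⟨s, s1, s2⟩ := t43 (N := fun a => M.H0 (lat S a - Finsupp.single P 1)) hH
    (fun hf hg => by simp only [map_add, add_sub_assoc]; exact (fam_H0 M).mul hf hg) prm one
    (adj_open hP _ T) (adj_smul _ T) (V := {t | Adj M (κ + Finsupp.single P 1) T (emb S (toR t))})
    (fun t ht => ⟨1, le_rfl, by simpa using ht⟩) (fun T' hT =>
      (hR κ P T (T'.image (lat S)) h1 h2 h3 h4 fun L hL => by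
        obtain ⟨a, ha, rfl⟩ := Finset.mem_image.1 hL
        exact ⟨emb_dv hS _, emb_int a, hT a ha⟩).comap (fam_H0 M) (lat S) _ ⟨T', rfl⟩
        fun a ha => by
          rw [Finset.coe_image, ← AddMonoidHom.map_mclosure]
          exact ⟨a, ha, rfl⟩) t1
  refine ⟨s, cone_subset (C := {v | Eff M (emb S v)}) ⟨0, le_rfl, by simp⟩
    (fun x hx y hy => by rw [mem_ofPred_eq, map_add]; exact eff_add hx hy)
    (fun x hx c hc => by rw [mem_ofPred_eq, map_smul]; exact eff_smul hx hc) fun a ha => ?_,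
    fun v hv hZ => s2 v hv ?_⟩
  · obtain ⟨f, f1, f2⟩ := SetLike.not_le_iff_exists.1 (s1 a ha).2
    have f0 : f ≠ 0 := fun e => f2 (.inl e)
    exact ⟨_, div_add_nonneg hL (emb_dv hS _) f1 f0, by
      rw [add_sub_cancel_right]; exact Submodule.subset_span ⟨f, f0, rfl⟩⟩
  generalize hW : {w | ∃ (c : ℝ) (a : S → ℤ), 0 ≤ c ∧
    ¬M.H0 (lat S a) ≤ M.H0 (lat S a - Finsupp.single P 1) ∧ w = c • toR a} = W
  have w1 : ∀ r : Finset (S → ℤ), (∀ a ∈ r, ¬M.H0 (lat S a) ≤
      M.H0 (lat S a - Finsupp.single P 1)) → cone r ⊆ closure W := by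
    rintro r hr _ ⟨t, ht, rfl⟩
    refine mem_closure_of_tendsto (tendsto_finset_sum r fun a _ =>
      (tendsto_nat_floor_mul_div_atTop (ht a)).smul_const (toR a)) ?_
    filter_upwards [eventually_ge_atTop 0] with x hx
    rw [← hW]
    refine ⟨x⁻¹, ∑ a ∈ r, ⌊t a * x⌋₊ • a, inv_nonneg.2 hx, Finset.sum_induction _
      (fun a => ¬M.H0 (lat S a) ≤ M.H0 (lat S a - Finsupp.single P 1))
      (fun _ _ => prm.not_le_add hH) (fun e => one (e hH.one)) fun a ha =>
        prm.not_le_nsmul hH one (hr a ha) _, ?_⟩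
    simp only [toR_sum, toR_nsmul, Finset.smul_sum, smul_smul, div_eq_inv_mul]
  let r : Finset (S → ℤ) := Finset.univ.image fun p : S × Bool => Pi.single p.1 (cond p.2 1 (-1))
  have r1 : ∀ w : S → ℝ, w ∈ cone r := fun w => by
    rw [pi_eq_sum_univ' w]
    refine sum_mem_cone _ _ fun i _ => ?_
    have e : ∀ b, toR (Pi.single i (cond b 1 (-1))) ∈ cone r := fun b =>
      toR_mem_cone (Finset.mem_image_of_mem _ (Finset.mem_univ (i, b)))
    rcases le_total 0 (w i) with k | k
    · exact cast (congrArg (· ∈ cone r) (funext fun j => by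
        by_cases h : j = i <;> simp [h])) (smul_mem_cone (e true) k)
    · exact cast (congrArg (· ∈ cone r) (funext fun j => by
        by_cases h : j = i <;> simp [h])) (smul_mem_cone (e false) (neg_nonneg.2 k))
  have key : ∀ δ : ℝ, 0 < δ → ∃ g : ℝ, |g| ≤ δ ∧
      v + δ • co S A - g • co S (Finsupp.single P 1) ∈ closure W := fun δ hδ => by
    have a3 : M.Dv A := fun Q k => hS Q (a1 k)
    obtain ⟨G, ⟨g1, g2⟩, g3⟩ := hZ _ (dv_smul a3 δ) (hP.smul _ δ hδ a2) δ hδ
    refine ⟨G P, (abs_of_nonneg (g1 P)).trans_le g3, ?_⟩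
    generalize hw : v + δ • co S A - G P • co S (Finsupp.single P 1) = w
    have e : emb S w = emb S v + δ • A - G P • Finsupp.single P 1 := by
      rw [← hw, map_sub, map_add, map_smul, map_smul, emb_co a1,
        emb_co (Finsupp.support_single_subset.trans (by simpa using hPS))]
    obtain ⟨s', ⟨c, c0, c1⟩, s4⟩ := (hA N K M hM).2 (r.image (lat S)) {P} (emb S w)
      (G - G P • Finsupp.single P 1) (fun L hL => by
        obtain ⟨a, ha, rfl⟩ := Finset.mem_image.1 hL
        exact ⟨emb_dv hS _, emb_int a⟩) (emb_cone (r1 w))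
      ⟨fun Q => by
        by_cases k : Q = P
        · simp [k]
        · simpa [Finsupp.single_eq_of_ne k] using g1 Q, by rwa [e, sub_sub_sub_cancel_right]⟩
      (by simp)
    have : ∀ L ∈ s', ∃ a, lat S a = L := fun L hL => by
      have := (s4 L hL).1
      rw [Finset.coe_image, ← AddMonoidHom.map_mclosure] at this
      exact this.imp fun _ k => k.2
    choose! a ha using this
    refine w1 (s'.image a) (fun b hb => ?_) ?_
    · obtain ⟨L, k, rfl⟩ := Finset.mem_image.1 hb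
      obtain ⟨f, f1, f2, f3⟩ := (s4 L k).2
      rw [ha L k]
      exact nle pr f1 f2 (by simpa [div_apply hL f pr] using f3)
    · rw [← co_emb w, c1, map_sum]
      refine sum_mem_cone _ _ fun L k => ?_
      rw [map_smul, show co S L = toR (a L) from (congrArg _ (ha L k).symm).trans (co_emb _)]
      exact smul_mem_cone (toR_mem_cone (Finset.mem_image_of_mem a k)) (c0 _)
  choose! g g1 g2 using key
  have lim : Tendsto g (𝓝[>] 0) (𝓝 0) := squeeze_zero_norm' (a := id)
    (eventually_mem_nhdsWithin.mono g1) (tendsto_id.mono_left nhdsWithin_le_nhds)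
  refine isClosed_closure.mem_of_tendsto (b := 𝓝[>] (0 : ℝ)) ?_ (eventually_mem_nhdsWithin.mono g2)
  simpa using (tendsto_const_nhds.add ((tendsto_id.mono_left nhdsWithin_le_nhds).smul_const
    (co S A))).sub (lim.smul_const (co S (Finsupp.single P 1)))

end T43A

open T43A

theorem t43h (h : Tb) (n : ℕ) (hA : AR n) (hR : THR n) : T43H n := by
  intro N K _ _ M hM κ A P T h1 h2 h3 h4 a1 a2
  classical
  obtain ⟨S, hS⟩ : ∃ S : Finset (Place K), S = κ.support ∪ A.support ∪ insert P h3.toFinset :=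
    ⟨_, rfl⟩
  have s1 : ∀ Q ∈ S, M.Pr Q := fun Q k => by
    simp only [hS, Finset.mem_union, Finset.mem_insert, Finite.mem_toFinset] at k
    exact k.elim (fun k => k.elim (h2.dv Q) (a1 Q)) (h4.1 Q)
  have s2 : P ∈ S := by simp [hS]
  have s3 : A.support ⊆ S := fun Q k => by simp only [hS, Finset.mem_union, k, or_true, true_or]
  have s4 : ∀ B : Div K, (B.support : Set (Place K)) ⊆ T → B.support ⊆ S := fun B k Q k' => by
    simp [hS, k k']
  have s5 : emb S (co S (κ + Finsupp.single P 1 + A)) = κ + Finsupp.single P 1 + A := by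
    rw [map_add, map_add, map_add, map_add, emb_co s3,
      emb_co (Finsupp.support_single_subset.trans (by simpa using s2)),
      emb_co fun Q k => by simp only [hS, Finset.mem_union, k, true_or]]
  have s6 : ∀ B : Div K, (B.support : Set (Place K)) ⊆ T →
      emb S (co S (κ + Finsupp.single P 1 + A + B)) = κ + Finsupp.single P 1 + A + B :=
    fun B k => by rw [map_add, map_add, s5, emb_co (s4 B k)]
  obtain ⟨T₀, t1, t2⟩ := cone_cpt (adj_open (h.box.pos n N K M hM) (κ + Finsupp.single P 1) T)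
    (adj_smul _ T) ((isCompact_Icc (a := (0 : S → ℝ)) (b := fun Q => if Q.1 ∈ T then 1 else 0)).image
      (continuous_const_add (co S (κ + Finsupp.single P 1 + A)))) (by
      rintro _ ⟨b, ⟨b1, b2⟩, rfl⟩
      refine ⟨1, one_pos, emb S b, fun Q k => ?_, fun Q => ?_, by
        rw [map_add, s5]; exact cast (congrArg _ (by module)) a2⟩
      · by_contra k'
        by_cases e : Q ∈ S
        · exact Finsupp.mem_support_iff.1 k ((emb_apply b ⟨Q, e⟩).trans
            (le_antisymm ((b2 ⟨Q, e⟩).trans (if_neg k').le) (b1 _)))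
        · exact Finsupp.mem_support_iff.1 k (emb_off b e)
      · by_cases e : Q ∈ S
        · rw [show emb S b Q = _ from emb_apply b ⟨Q, e⟩]
          exact ⟨b1 _, (b2 _).trans (by dsimp only; split_ifs <;> norm_num)⟩
        · simp [emb_off b e])
  obtain ⟨s, c1, c2⟩ := core hM (h.box.loc n N K M hM) (h.box.pos n N K M hM) hA (hR N K M hM)
    h1 h2 h3 h4 s1 s2 s3 a2 t1
  obtain ⟨H, hH⟩ := exists_hcone s
  refine ⟨H.card, fun i => LinearMap.comp ⟨⟨pr (H.equivFin.symm i).1, pr_add _⟩, pr_smul _⟩ (co S),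
    fun B hB hZ i => ?_, fun B hB k => s6 B hB ▸ c1 _ (hH ▸ fun a ha => ?_)⟩
  · refine (hH ▸ c2 _ (t2 ⟨co S B, ⟨fun Q => (hB.2 Q).1, fun Q => ?_⟩, (map_add _ _ _).symm⟩)
      ((s6 B hB.1).symm ▸ hZ) : _ ∈ hcone H) _ (H.equivFin.symm i).2
    dsimp only
    split_ifs with e
    · exact (hB.2 Q).2
    · exact (Finsupp.notMem_support_iff.1 fun k => e (hB.1 k)).le
  · simpa using k (H.equivFin ⟨a, ha⟩)

theorem t43m (h : Tb) (n : ℕ) (hA : AR n) (hR : THR n) : T43 n := by
  intro N K _ _ M hM κ P T h1 h2 h3 h4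
  classical
  obtain ⟨A, a1, -, a2⟩ := (h.box.pos n N K M hM).ex
  have key := fun (S : Finset (Place K)) (hS : ∀ Q ∈ S, M.Pr Q) =>
    @core n N K _ _ M (insert P (A.support ∪ S)) hM (h.box.loc n N K M hM) (h.box.pos n N K M hM)
      hA (hR N K M hM) κ A P T h1 h2 h3 h4 (fun Q k => by
        simp only [Finset.mem_union, Finset.mem_insert] at k
        exact k.elim (fun k => h4.1 Q (.inl k)) fun k => k.elim (a1 Q) (hS Q))
      (Finset.mem_insert_self _ _) (Finset.subset_union_left.trans (Finset.subset_insert _ _)) a2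
  have sub : ∀ S : Finset (Place K), S ⊆ insert P (A.support ∪ S) := fun S =>
    Finset.subset_union_right.trans (Finset.subset_insert _ _)
  refine ⟨fun v v1 v2 v3 => ?_, fun s hs => ?_⟩
  · have e := emb_co (sub v.support)
    obtain ⟨T₀, t1, t2⟩ := cone_cpt (adj_open (h.box.pos n N K M hM) (κ + Finsupp.single P 1) T)
      (adj_smul _ T) isCompact_singleton (singleton_subset_iff.2 (e.symm ▸ v2 : Adj M _ T (emb _ _)))
    obtain ⟨s, c1, c2⟩ := key _ v1 t1
    exact e ▸ c1 _ (c2 _ (t2 rfl) (e.symm ▸ v3))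
  · generalize hS : s.biUnion Finsupp.support = S
    have e : ∀ L ∈ s, emb _ (co (insert P (A.support ∪ S)) L) = L := fun L k =>
      emb_co ((hS ▸ Finset.subset_biUnion_of_mem _ k : _ ⊆ S).trans (sub S))
    choose! a ha using fun L (k : L ∈ s) => (hs L k).2.1
    have e' : ∀ L ∈ s, toR (fun Q : ↥(insert P (A.support ∪ S)) => a L Q) = co _ L :=
      fun L k => funext fun Q => (ha L k Q).symm
    obtain ⟨s', c1, c2⟩ := key S (fun Q k => by
      obtain ⟨L, k, k'⟩ := Finset.mem_biUnion.1 (hS ▸ k)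
      exact (hs L k).1 Q k') (T₀ := s.image fun L Q => a L Q) fun b hb => by
        obtain ⟨L, k, rfl⟩ := Finset.mem_image.1 hb
        rw [e' L k, e L k]
        exact (hs L k).2.2
    refine ⟨s'.image (lat _), fun L k => ?_, ?_⟩
    · obtain ⟨b, hb, rfl⟩ := Finset.mem_image.1 k
      exact c1 _ (toR_mem_cone hb)
    · rintro _ ⟨c, c0, rfl⟩ hZ
      have e2 : emb _ (co (insert P (A.support ∪ S)) (∑ L ∈ s, c L • L)) = ∑ L ∈ s, c L • L := by
        rw [map_sum, map_sum]
        exact Finset.sum_congr rfl fun L k => by rw [map_smul, map_smul, e L k]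
      rw [← e2] at hZ ⊢
      refine emb_cone (c2 _ ?_ hZ)
      rw [map_sum]
      exact sum_mem_cone _ _ fun L k => by
        rw [map_smul, ← e' L k]
        exact smul_mem_cone (toR_mem_cone (Finset.mem_image_of_mem _ k)) (c0 L)

end Vale.Agent.P277Z.F5
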