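import Vale.Agent.P277Z.F5.Sk

/-!
# P277Z, non-vanishing: the threshold argument
-/

set_option linter.all false

open Set Filter Topology
open Vale.Agent.P297 (Place)

noncomputable section

namespace Vale.Agent.P277Z.F5

open FI

namespace Th

variable {n N : ℕ} {K : Type} [Field K] [Algebra ℂ K] {M : Mdl n N K}

theorem amp_lim (hP : Pos M) {A : Div K} (hA : M.Amp A) {ι : Type*} {l : Filter ι}
    {X : ι → Div K} (T : Finset (Place K)) (h1 : ∀ k, (X k).support ⊆ T)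
    (h2 : ∀ Q, Tendsto (fun k => X k Q) l (𝓝 0)) : ∀ᶠ k in l, M.Amp (A + X k) := by
  obtain ⟨ε, hε, h⟩ := amp_box hP (fun Q => Finsupp.single Q (1 : ℝ)) T A hA
  filter_upwards [(eventually_all_finset T).2 fun Q _ =>
    (h2 Q).abs.eventually (Iic_mem_nhds (by simpa using hε))] with k hk
  have e : ∑ Q ∈ T, X k Q • Finsupp.single Q (1 : ℝ) = X k := by
    simp only [Finsupp.smul_single, smul_eq_mul, mul_one]
    rw [← Finsupp.sum_of_support_subset (X k) (h1 k) Finsupp.single fun _ _ => Finsupp.single_zero _,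
      Finsupp.sum_single]
  exact e ▸ h (X k) hk

theorem amp_cvx (hP : Pos M) {A B : Div K} (hA : M.Amp A) (hB : M.Amp B) {t : ℝ} (h0 : 0 ≤ t)
    (h1 : t ≤ 1) : M.Amp ((1 - t) • A + t • B) := by
  rcases h0.eq_or_lt with rfl | h0
  · simpa using hA
  rcases h1.eq_or_lt with rfl | h1
  · simpa using hB
  exact hP.add _ _ (hP.smul _ _ (sub_pos.2 h1) hA) (hP.smul _ _ h0 hB)

theorem thr {ι : Type*} {T : Finset ι} {Γ : ι → ℝ → ℝ} (hc : ∀ Q, Continuous (Γ Q))
    (h0 : ∀ Q, Γ Q 0 ≤ 1) {E : ι} (hE : E ∈ T) (h1 : 1 ≤ Γ E 1) :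
    ∃ t, 0 ≤ t ∧ t ≤ 1 ∧ (∀ Q ∈ T, Γ Q t ≤ 1) ∧ ∃ P ∈ T, Γ P t = 1 := by
  have h2 : Continuous fun t => T.sup' ⟨E, hE⟩ fun Q => Γ Q t :=
    Continuous.finset_sup'_apply _ fun Q _ => hc Q
  obtain ⟨t, ht, h3⟩ := intermediate_value_Icc zero_le_one h2.continuousOn
    (⟨Finset.sup'_le _ _ fun Q _ => h0 Q, h1.trans (Finset.le_sup' (fun Q => Γ Q 1) hE)⟩ :
      (1 : ℝ) ∈ Icc _ _)
  obtain ⟨P, hP, h4⟩ := Finset.exists_mem_eq_sup' ⟨E, hE⟩ fun Q => Γ Q t
  exact ⟨t, ht.1, ht.2, fun Q hQ => (Finset.le_sup' (fun Q => Γ Q t) hQ).trans h3.le, P, hP,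
    h4.symm.trans h3⟩

theorem lim {ι : Type*} {g : ℕ → ι → ℝ} {C : ι → ℝ} (hC : ∀ Q, 0 ≤ C Q) (h : ∀ k Q, 0 ≤ g k Q)
    (U : Ultrafilter ℕ) : ∃ σ : ι → ℝ, ∀ Q, 0 ≤ σ Q ∧
      Tendsto (fun k => min (g k Q) (C Q)) U (𝓝 (σ Q)) := by
  have key : ∀ Q, ∃ s, 0 ≤ s ∧ Tendsto (fun k => min (g k Q) (C Q)) U (𝓝 s) := fun Q => by
    obtain ⟨s, hs, h1⟩ := (isCompact_Icc (a := 0) (b := C Q)).ultrafilter_le_nhds
      (U.map fun k => min (g k Q) (C Q)) (le_principal_iff.2 (mem_map.2 (univ_mem' fun k =>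
        ⟨le_min (h k Q) (hC Q), min_le_right _ _⟩)))
    exact ⟨s, hs.1, h1⟩
  exact ⟨fun Q => (key Q).choose, fun Q => (key Q).choose_spec⟩

end Th

open Th

theorem th (h : Tb) (n : ℕ) (hAR : AR n) (h43 : T43 n) : TH n := by
  classical
  intro N K _ _ M hM κ D Ψ W A T l G E hL hD hA hA' hΨ hW hΨ1 hl a0 a1 hG hE hE1
  have hP := h.box.pos n N K M hM
  have off : ∀ {X : Div K}, (X.support : Set (Place K)) ⊆ T → ∀ Q, Q ∉ T → X Q = 0 :=
    fun hX Q hQ => Finsupp.notMem_support_iff.1 fun k => hQ (hX k)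
  haveI := frequently_iff_neBot.1 hE
  obtain ⟨U, hU⟩ := Ultrafilter.exists_le (atTop ⊓ 𝓟 {k | G k E = 0})
  set C : Place K → ℝ := fun Q => |Ψ Q| + |W Q| + 1 with hC
  have hC0 : ∀ Q, 0 ≤ C Q := fun Q => by positivity
  obtain ⟨σ, hσ⟩ := lim hC0 (g := fun k Q => G k Q) (fun k Q => (hG k).1 Q) U
  have hσE : σ E = 0 := tendsto_nhds_unique (hσ E).2 (tendsto_const_nhds.congr' (by
    filter_upwards [(hU.trans inf_le_right) (mem_principal_self _)] with k hk
    rw [hk, min_eq_left (hC0 E)]))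
  have hET : E ∈ T := by
    by_contra k
    rw [Finsupp.add_apply, off hΨ E k, off hW E k] at hE1
    linarith
  obtain ⟨t, t0, t1, h1, P, hPT, h2⟩ := thr (T := hL.fin.toFinset)
    (Γ := fun Q t => Ψ Q + t * W Q - (1 + t * l) * σ Q) (fun Q => by fun_prop)
    (fun Q => by linarith [hΨ1 Q, (hσ Q).1]) (hL.fin.mem_toFinset.2 hET) (by simpa [hσE] using hE1)
  rw [hL.fin.mem_toFinset] at hPT
  set c := 1 + t * l with hc
  have c1 : 1 ≤ c := le_add_of_nonneg_right (mul_nonneg t0 hl)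
  have c0 : 0 ≤ c := by linarith
  have hlt : ∀ Q, Ψ Q + t * W Q < c * C Q := fun Q => by
    have k1 : t * W Q ≤ |W Q| := (mul_le_mul_of_nonneg_left (le_abs_self _) t0).trans
      (mul_le_of_le_one_left (abs_nonneg _) t1)
    have k2 := le_mul_of_one_le_left (hC0 Q) c1
    linarith [le_abs_self (Ψ Q)]
  let F : Div K := Finsupp.onFinset hL.fin.toFinset (fun Q => min (c * σ Q) (Ψ Q + t * W Q))
    fun Q hQ => hL.fin.mem_toFinset.2 (by_contra fun k => hQ (by
      simp [off hΨ Q k, off hW Q k, mul_nonneg c0 (hσ Q).1]))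
  have hF : ∀ Q, F Q = min (c * σ Q) (Ψ Q + t * W Q) := fun _ => rfl
  have hFT : (F.support : Set (Place K)) ⊆ T := fun Q hQ =>
    hL.fin.mem_toFinset.1 (Finsupp.support_onFinset_subset hQ)
  have dv : ∀ {X : Div K}, (X.support : Set (Place K)) ⊆ T → M.Dv X :=
    fun hX Q hQ => hL.snc.1 Q (hX hQ)
  have hFP : F P = c * σ P := min_eq_left (by linarith)
  refine ⟨t, F, t0, t1, hFT, fun Q hQ => le_min (mul_nonneg c0 (hσ Q).1) hQ,
    (h43 N K M hM κ P (T \ {P}) (by simp) hL.can hL.fin.diff (by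
      simpa [insert_eq_of_mem hPT] using hL.snc)).1 _ (dv_sub (dv_smul hD c) (dv hFT))
      ⟨1, one_pos, Ψ + t • W - F - Finsupp.single P 1, fun Q hQ => ?_, fun Q => ?_, ?_⟩
      fun A' hA1 hA2 η hη => ?_⟩
  · have k := Finsupp.mem_support_iff.1 hQ
    have k1 : Q ≠ P := by
      rintro rfl
      exact k (by simp [hFP]; linarith)
    exact ⟨by_contra fun k2 => k (by simp [off hΨ Q k2, off hW Q k2, off hFT Q k2, k1]), k1⟩
  · by_cases k1 : Q = P
    · subst k1
      simp only [Finsupp.sub_apply, Finsupp.add_apply, Finsupp.smul_apply, smul_eq_mul, hFP,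
        Finsupp.single_eq_same]
      constructor <;> linarith
    · simp only [Finsupp.sub_apply, Finsupp.add_apply, Finsupp.smul_apply, smul_eq_mul,
        Finsupp.single_eq_of_ne k1, sub_zero]
      refine ⟨sub_nonneg.2 (min_le_right _ _), ?_⟩
      by_cases k2 : Q ∈ T
      · rw [hF, sub_le_comm, le_min_iff]
        constructor <;> linarith [h1 Q (hL.fin.mem_toFinset.2 k2)]
      · simp [off hΨ Q k2, off hW Q k2, off hFT Q k2]
  · have e : (1 : ℝ)⁻¹ • (c • D - F) - (κ + Finsupp.single P 1) -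
        (Ψ + t • W - F - Finsupp.single P 1) =
        (1 - t) • (D - κ - Ψ) + t • ((1 + l) • D - κ - Ψ - W) := by
      rw [inv_one, one_smul, hc]
      module
    rw [e]
    exact amp_cvx hP a0 a1 t0 t1
  · have k0 : ∀ k Q, 0 ≤ c * G k Q := fun k Q => mul_nonneg c0 ((hG k).1 Q)
    have k1 : ∀ Q, Tendsto (fun k => (F ⊓ c • G k) Q) U (𝓝 (F Q)) := fun Q => by
      have k2 := (tendsto_const_nhds (x := F Q)).min ((hσ Q).2.const_mul c)
      rw [min_eq_left (a := F Q) (min_le_left _ _)] at k2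
      refine k2.congr fun k => ?_
      rw [mul_min_of_nonneg _ _ c0, min_comm (c * G k Q), ← min_assoc,
        min_eq_left (a := F Q) ((min_le_right _ _).trans (hlt Q).le)]
      rfl
    have k2 : ∀ k, ((F ⊓ c • G k).support : Set (Place K)) ⊆ T := fun k Q hQ => by
      by_contra k3
      refine Finsupp.mem_support_iff.1 hQ ?_
      rw [Finsupp.inf_apply, off hFT Q k3]
      exact min_eq_left (k0 k Q)
    have k3 : ∀ᶠ k in U, M.Amp (A' + (F ⊓ c • G k - F - c • (1 / ((k : ℝ) + 1)) • A)) := by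
      refine amp_lim hP hA2 (hL.fin.toFinset ∪ A.support) (fun k Q hQ => ?_) fun Q => ?_
      · by_contra k4
        simp only [Finset.mem_union, Finite.mem_toFinset, not_or, Finsupp.notMem_support_iff] at k4
        refine Finsupp.mem_support_iff.1 hQ ?_
        simp only [Finsupp.sub_apply, Finsupp.smul_apply, off (k2 k) Q k4.1, off hFT Q k4.1, k4.2]
        simp
      · have k4 := ((k1 Q).sub_const (F Q)).sub (((tendsto_one_div_add_atTop_nhds_zero_nat.mono_left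
          (hU.trans inf_le_left)).mul_const (A Q)).const_mul c)
        simpa using k4
    have k4 : ∀ᶠ k in U, c * G k P - (F ⊓ c • G k) P ≤ η := by
      have k5 : σ P < C P := lt_of_mul_lt_mul_left (by linarith [hlt P]) c0
      have k6 : Tendsto (fun k => G k P) U (𝓝 (σ P)) := (hσ P).2.congr'
        (((hσ P).2.eventually (Iio_mem_nhds k5)).mono fun k hk =>
          min_eq_left ((min_lt_iff.1 hk).resolve_right (lt_irrefl _)).le)
      exact ((k6.const_mul c).sub (k1 P)).eventually (Iic_mem_nhds (by rwa [hFP, sub_self]))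
    obtain ⟨k, k5, k6⟩ := (k3.and k4).exists
    obtain ⟨G', k7, k8⟩ := (hAR N K M hM).1 _ {P} (dv_add hA1 (dv_sub (dv_sub (dv (k2 k))
      (dv hFT)) (dv_smul (dv_smul hA _) c))) k5 (finite_singleton P)
    refine ⟨c • G k - F ⊓ c • G k + G', ⟨add_nonneg (sub_nonneg.2 inf_le_right) k7.1, ?_⟩, ?_⟩
    · have e : c • G k - F ⊓ c • G k + G' - (c • D - F + A') =
          c • (G k - (D + (1 / ((k : ℝ) + 1)) • A)) +
            (G' - (A' + (F ⊓ c • G k - F - c • (1 / ((k : ℝ) + 1)) • A))) := by module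
      rw [e]
      exact add_mem (Submodule.smul_mem _ c (hG k).2) k7.2
    · simpa [k8 P rfl] using k6

end Vale.Agent.P277Z.F5
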