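import Vale.Agent.P277Z.F5.A2
import Vale.Agent.P277Z.F5.Nv
import Vale.Agent.P277Z.F5.Sho
import Vale.Agent.P277Z.F5.Cp
import Vale.Agent.P277Z.F5.Exs
import Vale.Agent.P277Z.F5.Frac
import Vale.Agent.P277Z.F5.Lr
import Vale.Agent.P277Z.F5.Mum
import Vale.Agent.P277Z.F5.T43
import Vale.Agent.P277Z.F5.Th
import Vale.Agent.P277Z.F5.C2
import Vale.Agent.P277Z.F5.Poly
import Vale.Agent.P277Z.F5.D1
import Vale.Agent.P277Z.F5.Nvr
import Vale.Agent.P277Z.F5.Cnt
import Vale.Agent.P277Z.F5.Pt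

/-!
# P277Z, non-vanishing: assembly
-/

namespace Vale.Agent.P277Z.F5

open FI

theorem s5r (h : Tb) : S5R := fun n hR => by
  have a := ar h
  have c := fun k => cp h k (a k)
  have e := exs h c
  have b := bt h
  have p := poly h c e b
  have k := const h c e b
  have d := deg_of h p e c
  have r := drs_of h p e
  have q := dnn_of h p e c b
  have y : Mu.Hy := ⟨h, c, k, d, q, r⟩
  have t := th h _ (a _) (t43m h _ (a _) hR)
  exact thb_of h (a _) (t43h h _ (a _) hR) (lr h _) (pp h _)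
    (nv_of h n (nvr h _ (c _) (lr h _) t) (nv1 h n (ptm h n) (lr h _) t)
      (c2 h n frac (cnt h b e d r c n) (d n) (q n) (dpos_of h a p e c b (Mu.dh y) (Mu.ntf y) k n)
        (a _) (c _))
      (d1_of h a p e c b (Mu.dh y) (Mu.ntf y) n) (sho h _ (lr h _) (pp h _) (k _) (c _)))

end Vale.Agent.P277Z.F5
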