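import Vale.Agent.P277Z.F5.Bas
import Vale.Agent.P277Z.Cvx.Gordan

/-!
# P277Z, non-vanishing: moving ample divisors, rational points, pull back
-/

set_option linter.all false

open Set Filter Topology
open Vale.Agent.P297 (Place)
open Vale.Agent.P297Z.Pl

noncomputable section

namespace Vale.Agent.P277Z.F5

open FI P277Z.Gor

variable {n N : ℕ} {K : Type} [Field K] [Algebra ℂ K] {M : Mdl n N K} {A D E G : Div K}

/-- A free integral divisor has a member avoiding finitely many places. -/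
theorem free_move (hL : Loc M) (hd : M.Dv D) (hi : IsInt D) (hf : ∀ x, M.Free D x)
    {T : Set (Place K)} (hT : T.Finite) :
    ∃ f ∈ M.H0 D, f ≠ 0 ∧ ∀ P ∈ T, (M.div f + D) P = 0 := by
  haveI := (hT.inter_of_left {P | M.Pr P}).to_subtype
  obtain ⟨f, h⟩ := Submodule.exists_forall_notMem_of_forall_ne_top
    (fun i : Option ↥(T ∩ {P | M.Pr P}) => Submodule.comap ((M.H0 D).restrictScalars ℂ).subtype
      (i.elim ⊥ fun P => (M.H0 (D - Finsupp.single P.1 1)).restrictScalars ℂ)) (by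
      rintro (_ | ⟨P, hP, x, hx⟩) e
      · obtain ⟨x, hx⟩ := M.conn.nonempty
        obtain ⟨f, h1, h2, -⟩ := hf ⟨x, hx⟩
        exact h2 (Submodule.eq_top_iff'.1 e ⟨f, h1⟩)
      · obtain ⟨f, h1, h2, h3⟩ := hf x
        have := (mem_H0.1 (Submodule.eq_top_iff'.1 e ⟨f, h1⟩)).resolve_left h2 P ⟨x, hx⟩
        have := h3 P hx
        simp at *
        linarith)
  have f0 : (f : K) ≠ 0 := h none
  refine ⟨f, f.2, f0, fun P hP => ?_⟩
  by_cases k : M.Pr P
  · by_contra e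
    refine h (some ⟨P, hP, k⟩) (mem_H0_div hL fun Q => ?_)
    have h1 := div_add_nonneg hL hd f.2 f0
    by_cases e' : Q = P
    · subst e'
      obtain ⟨z, hz⟩ := IsInt.add (int_div hL (f : K)) hi Q
      have h2 : (0 : ℤ) < z := by exact_mod_cast (hz ▸ lt_of_le_of_ne (h1 Q) (Ne.symm e) : (0 : ℝ) < z)
      have h3 : (1 : ℝ) ≤ z := by exact_mod_cast h2
      simp at hz ⊢
      linarith
    · simpa [Finsupp.single_eq_of_ne e'] using h1 Q
  · simp [dv_iff.1 hd P k, dv_iff.1 (dv_div _) P k]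

/-- Ample divisors are positive combinations of polarisations. -/
theorem amp_ind (hP : Pos M) {p : Div K → Prop} (add : ∀ D E, p D → p E → p (D + E))
    (smul : ∀ D (c : ℝ), 0 < c → p D → p (c • D)) (pol : ∀ H, Pol M H → p H) (hd : M.Dv A)
    (hA : M.Amp A) : p A := by
  classical
  have inv : ∀ D (c : ℝ), 0 < c → p (c • D) → p D := fun D c hc h => by
    simpa [smul_smul, inv_mul_cancel₀ hc.ne'] using smul _ _ (inv_pos.2 hc) h
  suffices h : ∀ S : Finset (Place K), (∀ P ∈ S, M.Pr P) → ∀ A, M.Dv A → M.Amp A → ∀ m : ℕ, 0 < m →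
      (∀ P ∉ S, ∃ z : ℤ, m * A P = z) → p A from
    h _ hd A hd hA 1 one_pos fun P h => ⟨0, by simpa using h⟩
  intro S
  induction S using Finset.induction_on with
  | empty =>
    intro _ A hd hA m hm h
    have hm' : (0 : ℝ) < m := by exact_mod_cast hm
    obtain ⟨k, h1, h2⟩ := pol_mul hP (dv_smul hd m) (fun P => h P (by simp)) (hP.smul _ _ hm' hA)
    exact inv _ _ hm' (inv _ _ (by exact_mod_cast h1) (pol _ (h2 k le_rfl)))
  | insert P S _ ih =>
    intro hS A hd hA m hm h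
    obtain ⟨ε, h0, h1⟩ := amp_seg hP hA (Finsupp.single P 1)
    have key : ∀ q : ℚ, |q - A P| ≤ ε → p (A + (q - A P) • Finsupp.single P 1) := fun q hq => by
      refine ih (fun Q hQ => hS Q (Finset.mem_insert_of_mem hQ)) _
        (dv_add hd (dv_smul (dv_single (hS P (Finset.mem_insert_self _ _)) 1) _)) (h1 _ hq)
        (m * q.den) (Nat.mul_pos hm q.den_pos) fun Q hQ => ?_
      by_cases e : Q = P
      · refine ⟨m * q.num, ?_⟩
        have : (q.den : ℝ) * q = q.num := by exact_mod_cast Rat.den_mul_eq_num q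
        simp [e, mul_assoc, this]
      · obtain ⟨z, hz⟩ := h Q (by simp [e, hQ])
        refine ⟨q.den * z, ?_⟩
        simp [Finsupp.single_eq_of_ne e, ← hz]
        ring
    obtain ⟨q, a1, a2⟩ := exists_rat_btwn (sub_lt_self (A P) h0)
    obtain ⟨r, b1, b2⟩ := exists_rat_btwn (lt_add_of_pos_right (A P) h0)
    have := add _ _ (smul _ _ (sub_pos.2 b1) (key q (abs_le.2 ⟨by linarith, by linarith⟩)))
      (smul _ _ (sub_pos.2 a2) (key r (abs_le.2 ⟨by linarith, by linarith⟩)))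
    refine inv _ _ (sub_pos.2 (a2.trans b1)) (Eq.mp (congrArg p ?_) this)
    module

theorem amp_move (hL : Loc M) (hP : Pos M) (hd : M.Dv A) (hA : M.Amp A) {T : Set (Place K)}
    (hT : T.Finite) : ∃ G, Rep M A G ∧ ∀ P ∈ T, G P = 0 := by
  refine amp_ind hP (p := fun A => ∃ G, Rep M A G ∧ ∀ P ∈ T, G P = 0) ?_ ?_ ?_ hd hA
  · rintro D E ⟨G, h1, h2⟩ ⟨G', h3, h4⟩
    exact ⟨_, h1.add h3, fun P hP => by simp [h2 P hP, h4 P hP]⟩
  · rintro D c hc ⟨G, h1, h2⟩
    exact ⟨_, h1.smul hc.le, fun P hP => by simp [h2 P hP]⟩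
  · intro H h
    obtain ⟨f, h1, h2, h3⟩ := free_move hL h.dv h.int h.free hT
    exact ⟨_, rep_sec hL h.dv h1 h2, h3⟩

theorem eff_amp (hL : Loc M) (hP : Pos M) (hd : M.Dv A) (hA : M.Amp A) : Eff M A :=
  let ⟨_, h, _⟩ := amp_move hL hP hd hA finite_empty
  h.eff

theorem psef_zero (hL : Loc M) (hP : Pos M) : Psef M 0 := fun A h1 h2 => by
  simpa using eff_amp hL hP h1 h2

theorem Eff.psef (hL : Loc M) (hP : Pos M) (h : Eff M D) : Psef M D := by
  simpa using (psef_zero hL hP).add_eff h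

theorem psef_nef (hL : Loc M) (hP : Pos M) (hd : M.Dv D) (h : M.Nef D) : Psef M D := by
  simpa using (psef_zero hL hP).add_nef hd h

theorem div_prod (hL : Loc M) {ι : Type*} (s : Finset ι) {f : ι → K} (h : ∀ i ∈ s, f i ≠ 0) :
    M.div (∏ i ∈ s, f i) = ∑ i ∈ s, M.div (f i) :=
  dv_ext (dv_div _) (dv_sum s fun _ _ => dv_div _) fun P hP => by
    simp [Finsupp.finset_sum_apply, div_apply hL _ hP, ord_prod P s h]

theorem rat_pts (hL : Loc M) {s : Finset (Div K)} {T : Set (Place K)} {v : Div K}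
    (hs : ∀ L ∈ s, IsInt L) (hv : v ∈ Cone s) (hG : Rep M v G) (hT : ∀ P ∈ T, G P = 0) :
    ∃ s' : Finset (Div K), v ∈ Cone s' ∧ ∀ L ∈ s', L ∈ AddSubmonoid.closure (s : Set (Div K)) ∧
      ∃ f ∈ M.H0 L, f ≠ 0 ∧ ∀ P ∈ T, (M.div f + L) P = 0 := by
  classical
  obtain ⟨a, a0, rfl⟩ := hv
  obtain ⟨k, r, f, f0, e⟩ := prR_sum hG.2
  let D : s ⊕ Fin k → Div K := Sum.elim (↑) fun j => M.div (f j)
  have hD : ∀ P i, ∃ z : ℤ, D i P = z := fun P i => by
    rcases i with L | j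
    exacts [hs _ L.2 P, int_div hL _ P]
  choose c hc using hD
  have fin : (range c).Finite := by
    refine (((Finset.univ.biUnion fun i => (D i).support).finite_toSet.image c).insert 0).subset ?_
    rintro _ ⟨P, rfl⟩
    refine or_iff_not_imp_left.2 fun h => ⟨P, ?_, rfl⟩
    obtain ⟨i, hi⟩ := Function.ne_iff.1 h
    exact Finset.mem_biUnion.2 ⟨i, Finset.mem_univ _, Finsupp.mem_support_iff.2
      (by rw [hc]; exact_mod_cast hi)⟩
  have fin' : (range c ∪ (fun P => -c P) '' T ∪ range fun L : s => Pi.single (.inl L) 1).Finite :=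
    (fin.union ((fin.image Neg.neg).subset (by rintro _ ⟨P, -, rfl⟩; exact ⟨_, ⟨P, rfl⟩, rfl⟩))).union
      (finite_range _)
  obtain ⟨u, hu⟩ := exists_cone fin'.toFinset
  have hpr : ∀ P x, pr (c P) x = (∑ i, x i • D i) P := fun P x => by
    simp [pr, Finsupp.finset_sum_apply, hc, mul_comm]
  have hm : ∀ x, x ∈ cone u ↔ 0 ≤ ∑ i, x i • D i ∧ (∀ P ∈ T, (∑ i, x i • D i) P ≤ 0) ∧
      ∀ L : s, 0 ≤ x (.inl L) := fun x => by
    have h1 : ∀ P, pr (-c P) x = -pr (c P) x := fun P => by simp [pr]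
    have h2 : ∀ i, pr (Pi.single i 1) x = x i := fun i => by simp [pr, Pi.single_apply]
    simp only [← hu, hcone, mem_setOf_eq, Finite.mem_toFinset, mem_union, or_imp, forall_and,
      forall_mem_range, forall_mem_image, h1, h2, hpr, neg_nonneg, and_assoc]
    rfl
  let ψ := Fintype.linearCombination ℝ (Sum.elim (↑) 0 : s ⊕ Fin k → Div K)
  have hψ : ∀ x, ψ x = ∑ L : s, x (.inl L) • (L : Div K) := fun x => by
    simp [ψ, Fintype.linearCombination_apply]
  have hG' : ∑ i, Sum.elim (fun L : s => a L) r i • D i = G := by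
    simp only [Fintype.sum_sum_type, D, Sum.elim_inl, Sum.elim_inr]
    rw [← e, Finset.sum_coe_sort s fun L => a L • L, add_sub_cancel]
  obtain ⟨t, t0, ht⟩ := (hm (Sum.elim (fun L => a L) r)).2
    ⟨hG' ▸ hG.1, fun P hP => hG' ▸ (hT P hP).le, fun L => a0 L⟩
  refine ⟨u.image fun z => ψ (toR z), ?_, fun L hL' => ?_⟩
  · have := congrArg ψ ht
    rw [hψ, map_sum] at this
    simp only [Sum.elim_inl, map_smul] at this
    rw [← Finset.sum_coe_sort s fun L => a L • L, this]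
    exact sum_mem_Cone u fun z hz => smul_mem_Cone (mem_Cone (Finset.mem_image_of_mem _ hz)) (t0 z)
  · obtain ⟨z, hz, rfl⟩ := Finset.mem_image.1 hL'
    obtain ⟨h1, h2, h3⟩ := (hm _).1 (toR_mem_cone hz)
    have e' : M.div (∏ j, f j ^ z (.inr j)) + ψ (toR z) = ∑ i, toR z i • D i := by
      rw [div_prod hL _ fun j _ => zpow_ne_zero _ (f0 j), hψ, add_comm]
      simp [D, div_zpow hL]
    refine ⟨?_, _, mem_H0_div hL (e' ▸ h1), Finset.prod_ne_zero_iff.2 fun j _ =>
      zpow_ne_zero _ (f0 j), fun P hP => e' ▸ le_antisymm (h2 P hP) (h1 P)⟩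
    rw [hψ]
    refine sum_mem fun L _ => ?_
    obtain ⟨m, hm⟩ := Int.eq_ofNat_of_zero_le (a := z (.inl L)) (by simpa using h3 L)
    rw [toR_apply, hm, Int.cast_natCast, Nat.cast_smul_eq_nsmul]
    exact nsmul_mem (AddSubmonoid.subset_closure L.2) m

theorem ar (h : Tb) (n : ℕ) : AR n := fun N K _ _ M hM =>
  ⟨fun _ _ h1 h2 h3 => amp_move (h.box.loc n N K M hM) (h.box.pos n N K M hM) h1 h2 h3,
    fun _ _ _ _ h1 => rat_pts (h.box.loc n N K M hM) fun L hL => (h1 L hL).2⟩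

section pull

variable {M' : Mdl n N K} {m : Mod M' M}

theorem cpt_mod (m : Mod M' M) (h : Cpt M) : Cpt M' := by
  refine eventually_nhdsSet_iff_forall.2 fun y hy => ?_
  filter_upwards [eventually_nhdsSet_iff_forall.1 m.base y hy, (m.cont y hy).eventually
    (eventually_nhdsSet_iff_forall.1 h _ (img_mem m ⟨y, hy⟩))] with z h1 h2 using h1.trans h2

theorem pull_prR (hL : Loc M) (hL' : Loc M') (hB : Bir M' M m) (h : D ∈ PrR M) :
    M.pull M' D ∈ PrR M' :=
  (Submodule.map_span_le (pl hB) _ (PrR M')).2 (by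
    rintro _ ⟨f, hf, rfl⟩
    rw [pl_apply, pull_div hL hL' hB hf]; exact div_mem_prR hf) (Submodule.mem_map_of_mem h)

theorem Rep.pull (hL : Loc M) (hL' : Loc M') (hB : Bir M' M m) (h : Rep M D G) :
    Rep M' (M.pull M' D) (M.pull M' G) :=
  ⟨pull_nonneg hB h.1, ((pl hB).map_sub G D).subst (motive := (· ∈ PrR M')) (pull_prR hL hL' hB h.2)⟩

theorem Eff.pull (hL : Loc M) (hL' : Loc M') (hB : Bir M' M m) (h : Eff M D) :
    Eff M' (M.pull M' D) :=
  let ⟨_, k⟩ := h
  (k.pull hL hL' hB).eff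

theorem tr_pull (hL : Loc M) (hB : Bir M' M m) (h : M.Dv D) : M.tr (M.pull M' D) = D :=
  dv_ext (dv_tr _) h fun _ hP => by rw [tr_apply hP, pull_pr hL hB hP]

theorem tr_div (hL : Loc M) (hL' : Loc M') (hB : Bir M' M m) (f : K) : M.tr (M'.div f) = M.div f :=
  dv_ext (dv_tr _) (dv_div _) fun P hP => by
    rw [tr_apply hP, div_apply hL' f (hB.pr P hP), div_apply hL f hP]

theorem tr_prR (hL : Loc M) (hL' : Loc M') (hB : Bir M' M m) (h : D ∈ PrR M') : M.tr D ∈ PrR M :=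
  (Submodule.map_span_le (trl M) _ (PrR M)).2 (by
    rintro _ ⟨f, hf, rfl⟩
    rw [trl_apply, tr_div hL hL' hB]; exact div_mem_prR hf) (Submodule.mem_map_of_mem h)

theorem Rep.tr (hL : Loc M) (hL' : Loc M') (hB : Bir M' M m) (h : Rep M' D G) :
    Rep M (M.tr D) (M.tr G) :=
  ⟨tr_nonneg fun P _ => h.1 P,
    ((trl M).map_sub G D).subst (motive := (· ∈ PrR M)) (tr_prR hL hL' hB h.2)⟩

end pull

theorem pp (h : Tb) (n : ℕ) : PP n := by
  intro N K _ _ M hM M' m hM'
  have hL := h.box.loc n N K M hM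
  have hL' := h.box.loc n N K M' hM'
  have hP' := h.box.pos n N K M' hM'
  have hB := h.box.bir n N K M hM M' m hM'
  refine ⟨cpt_mod m, fun _ _ => Rep.pull hL hL' hB, fun D hD A' h1 h2 => ?_,
    fun D F hD h1 _ ⟨G, hG⟩ => ?_⟩
  · have hP := h.box.pos n N K M hM
    obtain ⟨A, a1, -, a2⟩ := hP.ex
    obtain ⟨ε, h3, h4⟩ := hP'.opn A' (-pl hB A) h2
    have := ((hD _ (dv_smul a1 ε) (hP.smul _ _ h3 a2)).pull hL hL' hB).add
      (eff_amp hL' hP' (dv_add h1 (dv_smul (dv_neg (dv_pull A)) ε)) h4)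
    rwa [← pl_apply hB, map_add, map_smul, smul_neg, add_assoc, pl_apply hB A,
      add_add_neg_cancel'_right] at this
  · have := (hG.tr hL hL' hB).eff.add (eff_of_nonneg (tr_nonneg fun P hP => h1 P fun k => k.2 hP))
    rwa [← trl_apply, map_sub, trl_apply, trl_apply, sub_add_cancel, tr_pull hL hB hD] at this

end Vale.Agent.P277Z.F5
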