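import Vale.Agent.P277Z.F5.MuD
import Vale.Agent.P277Z.F5.Exs
import Vale.Agent.P277Z.F5.Cp

/-!
# P277Z, non-vanishing: base point free systems, smooth members
-/

set_option linter.all false

open Set Filter Topology MeasureTheory
open Vale.Agent.P297 (Place)
open Vale.Agent.P297Z.Pl

noncomputable section

namespace Vale.Agent.P277Z.F5.Mu

open FI Lift

variable {n N : ℕ} {K : Type} [Field K] [Algebra ℂ K] {M : Mdl n N K}

/-- a finite base point free system of sections -/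
def Bp (M : Mdl n N K) (H : Div K) {ι : Type} (w : ι → K) : Prop :=
  (∀ i, w i ∈ M.H0 H) ∧ ∀ x, ∃ i, LG M x (-H) (w i)

/-- the sections of `L + H` are products -/
def Gen (M : Mdl n N K) {ι : Type} [Fintype ι] (w : ι → K) (L H : Div K) : Prop :=
  ∀ f ∈ M.H0 (L + H), ∃ a : ι → K, (∀ i, a i ∈ M.H0 L) ∧ f = ∑ i, a i * w i

theorem free_iff {D : Div K} {x : M.F} : M.Free D x ↔ ∃ f ∈ M.H0 D, LG M x (-D) f :=
  exists_congr fun f => and_congr_right fun _ => and_congr_right fun _ =>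
    forall₂_congr fun P _ => by rw [Finsupp.neg_apply, eq_neg_iff_add_eq_zero]

theorem lg_of_val (hL : Loc M) {D : Div K} (hD : IsInt D) {x : M.F} {a : K} (ha : a ∈ M.H0 D)
    (h : M.val (a * eqD M x D) x ≠ 0) : LG M x (-D) a := by
  have h3 := (lg_eqD (x := x) hL hD).mem hL ha
  have h4 : a * eqD M x D ≠ 0 := fun e => h (by rw [e, M.val_zero])
  refine ⟨left_ne_zero_of_mul h4, fun R hR => ?_⟩
  have h5 := ord_unit R (ct_of_on hR _ h3) (ct_of_on hR _ (M.inv_mem h3 h))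
  rw [ord_mul R (left_ne_zero_of_mul h4) (right_ne_zero_of_mul h4)] at h5
  rw [Finsupp.neg_apply, ← (lg_eqD (x := x) hL hD).2 R hR, ← Int.cast_neg, Int.cast_inj]
  omega

theorem nv_sum (hL : Loc M) {L H : Div K} (h1 : IsInt L) (h2 : IsInt H) {ι : Type} [Fintype ι]
    {a w : ι → K} (ha : ∀ i, a i ∈ M.H0 L) (hw : ∀ i, w i ∈ M.H0 H) {x : M.F}
    (h : LG M x (-(L + H)) (∑ i, a i * w i)) : ∃ i, LG M x (-L) (a i) ∧ LG M x (-H) (w i) := by
  have e1 := lg_eqD (x := x) hL h1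
  have e2 := lg_eqD (x := x) hL h2
  have h3 := (h.mul (e1.mul e2))
  rw [neg_add_cancel] at h3
  have h4 := (h3.val_ne hL).2
  have h5 : M.val ((∑ i, a i * w i) * (eqD M x L * eqD M x H)) x =
      ∑ i, M.val (a i * eqD M x L) x * M.val (w i * eqD M x H) x := by
    have := map_sum (M.ev x) (fun i => (⟨_, e1.mem hL (ha i)⟩ : M.O x) * ⟨_, e2.mem hL (hw i)⟩)
      Finset.univ
    simp only [map_mul] at this
    refine Eq.trans ?_ this
    change _ = M.val _ x
    congr 1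
    rw [AddSubmonoidClass.coe_finset_sum, Finset.sum_mul]
    exact Finset.sum_congr rfl fun i _ => by simp only [MulMemClass.coe_mul]; ring
  obtain ⟨i, -, hi⟩ := Finset.exists_ne_zero_of_sum_ne_zero (h5 ▸ h4)
  exact ⟨i, lg_of_val hL h1 (ha i) (left_ne_zero_of_mul hi),
    lg_of_val hL h2 (hw i) (right_ne_zero_of_mul hi)⟩

theorem const_mem (c : ℂ) : algebraMap ℂ K c ∈ M.H0 0 := by
  have : algebraMap ℂ K c * 1 ∈ M.H0 0 :=
    (M.H0 0).smul_mem ⟨_, algebraMap_mem M.O₀ c⟩ (fam_H0 M).one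
  rwa [mul_one] at this

theorem exists_bp (hL : Loc M) {H : Div K} (h2 : IsInt H)
    [Module.Finite ℂ ((M.H0 H).restrictScalars ℂ)] (h : ∀ x, M.Free H x) :
    ∃ (r : ℕ) (w : Fin r → K), Bp M H w := by
  obtain ⟨r, s, hs⟩ := Module.Finite.exists_fin (R := ℂ) (M := (M.H0 H).restrictScalars ℂ)
  refine ⟨r, fun i => s i, fun i => (s i).2, fun x => ?_⟩
  obtain ⟨f, f1, f2⟩ := free_iff.1 (h x)
  obtain ⟨c, hc⟩ := (Submodule.mem_span_range_iff_exists_fun ℂ).1
    (hs ▸ Submodule.mem_top : (⟨f, f1⟩ : (M.H0 H).restrictScalars ℂ) ∈ Submodule.span ℂ (range s))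
  have e : f = ∑ i, algebraMap ℂ K (c i) * s i := by
    have := congrArg Subtype.val hc
    simp only [AddSubmonoidClass.coe_finset_sum, SetLike.val_smul, Algebra.smul_def] at this
    exact this.symm
  obtain ⟨i, -, hi⟩ := nv_sum hL IsInt.zero h2 (fun i => const_mem (c i)) (fun i => (s i).2)
    (x := x) (by rwa [zero_add, ← e])
  exact ⟨i, hi⟩

theorem cut_fin (hL : Loc M) (hB : BERT n) (hM : M.Proj) {H : Div K} (h1 : M.Dv H) (h2 : IsInt H)
    {ι : Type} [Fintype ι] {w : ι → K} (hw : Bp M H w) {T : Set (Place K)} (hT : T.Finite) :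
    ∃ (c : ι → ℂ) (Y : Finset (Place K)), ∑ i, algebraMap ℂ K (c i) * w i ≠ 0 ∧
      M.div (∑ i, algebraMap ℂ K (c i) * w i) + H = ∑ P ∈ Y, Finsupp.single P 1 ∧
      M.Snc (Y : Set (Place K)) ∧ ∀ P ∈ Y, P ∉ T := by
  classical
  set s : Finset K := Finset.univ.image w with hs
  have s1 : ∀ f ∈ s, f ∈ M.H0 H := fun f hf => by
    obtain ⟨i, -, rfl⟩ := Finset.mem_image.1 hf
    exact hw.1 i
  have b := hB N K M hM ∅ H s finite_empty ⟨by simp, fun x =>
    let ⟨t, ht⟩ := hL.coord x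
    ⟨t, ht, by simp⟩⟩ h1 h2 s1 fun x => by
      obtain ⟨i, hi⟩ := hw.2 x
      exact ⟨w i, Finset.mem_image_of_mem _ (Finset.mem_univ i), hi.1, fun P hP => by
        rw [hi.2 P hP, Finsupp.neg_apply, neg_add_cancel]⟩
  let φ : (s → ℂ) →ₗ[ℂ] K := Fintype.linearCombination ℂ fun a : s => (a : K)
  have φe : ∀ c, φ c = ∑ a : s, algebraMap ℂ K (c a) * a := fun c => by
    simp only [φ, Fintype.linearCombination_apply, Algebra.smul_def]
  have av : ∀ P ∈ T, ∀ᵐ c : s → ℂ, M.Pr P → φ c ∉ M.H0 (H - Finsupp.single P 1) := fun P _ => by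
    by_cases hP : M.Pr P
    swap
    · exact .of_forall fun _ h => absurd h hP
    obtain ⟨x, hx⟩ := id hP
    obtain ⟨i, hi⟩ := hw.2 x
    have := Measure.addHaar_submodule (volume : Measure (s → ℂ))
      ((((M.H0 (H - Finsupp.single P 1)).restrictScalars ℂ).comap φ).restrictScalars ℝ) fun e => by
        have h3 : (Pi.single ⟨w i, Finset.mem_image_of_mem _ (Finset.mem_univ i)⟩ 1 : s → ℂ) ∈
          (((M.H0 (H - Finsupp.single P 1)).restrictScalars ℂ).comap φ).restrictScalars ℝ :=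
          e ▸ Submodule.mem_top
        have h4 : w i ∈ M.H0 (H - Finsupp.single P 1) := by simpa [φ] using h3
        have h5 := h4.resolve_left hi.1 P hP
        rw [hi.2 P hx, Finsupp.neg_apply, Finsupp.sub_apply, Finsupp.single_eq_same] at h5
        linarith
    filter_upwards [measure_eq_zero_iff_ae_notMem.1 this] with c hc _ using hc
  obtain ⟨c, ⟨f, hf, f0, f1, -, f2⟩, h3⟩ := (b.and ((eventually_all_finite hT).2 av)).exists
  have fm : f ∈ M.H0 H := by
    rw [hf]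
    exact sum_mem fun a _ => by simpa using (fam_H0 M).mul (const_mem (c a)) (s1 a a.2)
  have g0 := div_add_nonneg hL h1 fm f0
  have gi := IsInt.add (int_div hL f) h2
  have one : ∀ P ∈ (M.div f + H).support, (M.div f + H) P = 1 := fun P hP => by
    obtain ⟨k, hk⟩ := gi P
    have a1 : (0 : ℝ) ≤ (M.div f + H) P := g0 P
    have a2 := f1 P
    have a3 := Finsupp.mem_support_iff.1 hP
    rw [hk] at a1 a2 a3 ⊢
    have b1 : 0 ≤ k := by exact_mod_cast a1
    have b2 : k ≤ 1 := by exact_mod_cast a2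
    have b3 : k ≠ 0 := by exact_mod_cast a3
    exact_mod_cast (by omega : k = 1)
  obtain ⟨c', hc'⟩ := (Submodule.mem_span_range_iff_exists_fun ℂ (v := w) (x := f)).1 (by
    rw [hf]
    refine sum_mem fun a _ => ?_
    rw [← Algebra.smul_def]
    obtain ⟨i, -, hi⟩ := Finset.mem_image.1 a.2
    exact Submodule.smul_mem _ _ (Submodule.subset_span ⟨i, hi⟩))
  simp only [Algebra.smul_def] at hc'
  refine ⟨c', (M.div f + H).support, hc' ▸ f0, ?_, by simpa using f2, fun P hP hPT => ?_⟩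
  · rw [hc']
    conv_lhs => rw [← Finsupp.sum_single (M.div f + H)]
    exact Finset.sum_congr rfl fun P hP => by rw [one P hP]
  · refine h3 P hPT (dv_add (dv_div f) h1 P hP) ?_
    rw [φe, ← hf]
    refine mem_H0_div hL fun Q => ?_
    rw [← add_sub_assoc, Finsupp.sub_apply, Finsupp.single_apply]
    split_ifs with e
    · rw [← e, one P hP]; simp
    · simpa using g0 Q

theorem amp_deep (hP : Pos M) {H : Div K} (hH : M.Amp H) (D : Div K) :
    ∀ᶠ k : ℕ in atTop, M.Amp (D + (k : ℝ) • H) := by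
  obtain ⟨ε, e0, e1⟩ := hP.opn H D hH
  filter_upwards [tendsto_natCast_atTop_atTop.eventually (eventually_gt_atTop ε⁻¹)] with k hk
  have := hP.add _ _ (hP.smul _ _ (inv_pos.2 e0) e1) (hP.smul _ _ (sub_pos.2 hk) hH)
  rwa [smul_add, smul_smul, inv_mul_cancel₀ e0.ne', one_smul, sub_smul, add_comm (ε⁻¹ • H),
    add_assoc, add_sub_cancel] at this

theorem nef_nat {P : Div K} (h : M.Nef P) (k : ℕ) : M.Nef ((k : ℝ) • P) := fun A hA => by
  induction k with
  | zero => simpa using hA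
  | succ k ih =>
    rw [Nat.cast_succ, add_smul, one_smul, add_comm _ P, add_assoc]
    exact h _ ih

theorem nt_smul {P : Div K} (h : P ∈ NT M) (t : ℤ) : (t : ℝ) • P ∈ NT M := by
  refine ⟨dv_smul h.1 _, IsInt.zsmul h.2.1 t, ?_⟩
  obtain ⟨k, rfl | rfl⟩ := t.eq_nat_or_neg
  · exact ⟨nef_nat h.2.2.1 k, by simpa using nef_nat h.2.2.2 k⟩
  · exact ⟨by simpa using nef_nat h.2.2.2 k, by simpa using nef_nat h.2.2.1 k⟩

theorem h0_div (hL : Loc M) (D : Div K) {f : K} (hf : f ≠ 0) : h0 M (D - M.div f) = h0 M D := by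
  simpa using ExsH.h0_sub hL D hf 1

theorem exists_can (hL : Loc M) : ∃ κ, IsCan M κ := by
  obtain ⟨x, hx⟩ := M.conn.nonempty
  obtain ⟨t, ht⟩ := hL.coord ⟨x, hx⟩
  obtain ⟨κ, h, -⟩ := can_coord hL ht
  exact ⟨κ, isCan_of hL h⟩

theorem exists_subM (h : Tb) {M : Mdl (n + 1) N K} (hM : M.Proj) {P : Place K} (hP : M.Snc {P}) :
    Nonempty (SubM M P) := by
  obtain ⟨L, _, _, S, hS, ⟨s⟩⟩ := h.box.sub n N K M hM P hP
  obtain ⟨x, t, ht⟩ := hP.1 P rfl
  exact ⟨⟨L, S, s, hS, h.box.rst n N K M hM L S P s hP, t, by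
    rw [div_apply (h.box.loc _ N K M hM) t ⟨x, t, ht⟩, ht.ord, Int.cast_one]⟩⟩

end Vale.Agent.P277Z.F5.Mu
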