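import Vale.Agent.P277Z.F5.MuA

/-!
# P277Z, non-vanishing: filtrations by the components of a smooth member
-/

set_option linter.all false

open Set Filter Topology
open Vale.Agent.P297 (Place)
open Vale.Agent.P297Z.Pl

noncomputable section

namespace Vale.Agent.P277Z.F5.Mu

open FI Lift

variable {n N : ℕ} {K : Type} [Field K] [Algebra ℂ K] {M : Mdl (n + 1) N K}

/-- smooth prime divisors -/
abbrev SP (M : Mdl (n + 1) N K) : Type := {P : Place K // M.Snc {P}}

/-- the sum of a list of prime divisors -/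
def sl : List (SP M) → Div K
  | [] => 0
  | P :: l => Finsupp.single P.1 1 + sl l

/-- the members of a list -/
def st (l : List (SP M)) : Set (Place K) := {P | ∃ Q ∈ l, Q.1 = P}

variable (u : ∀ P : SP M, SubM M P.1)

/-- the sum of the dimensions of the spaces of sections on the members -/
def tot : List (SP M) → Div K → ℕ
  | [], _ => 0
  | P :: l, D => h0 (u P).S ((u P).r D) + tot l (D - Finsupp.single P.1 1)

/-- a property of the restrictions to all members -/
def All (p : SP M → Div K → Prop) : List (SP M) → Div K → Prop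
  | [], _ => True
  | P :: l, D => p P D ∧ All p l (D - Finsupp.single P.1 1)

/-- the restriction is onto -/
def Ont (P : SP M) (D : Div K) : Prop :=
  ∀ v ∈ (u P).S.H0 ((u P).r D), ∃ a ∈ M.H0 D, (u P).s.res a = v

variable {u}

theorem st_cons (P : SP M) (l : List (SP M)) : st (P :: l) = insert P.1 (st l) := by
  ext Q
  simp [st, eq_comm]

theorem st_fin (l : List (SP M)) : (st l).Finite :=
  ((l.finite_toSet).image Subtype.val).subset fun _ ⟨Q, h1, h2⟩ => ⟨Q, h1, h2⟩

theorem sl_off {l : List (SP M)} {P : Place K} (h : P ∉ st l) : sl l P = 0 := by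
  induction l with
  | nil => rfl
  | cons Q l ih =>
    rw [st_cons, mem_insert_iff, not_or] at h
    rw [sl, Finsupp.add_apply, ih h.2, Finsupp.single_eq_of_ne h.1, add_zero]

theorem not_st {l : List (SP M)} {P : SP M} (h : P ∉ l) : P.1 ∉ st l :=
  fun ⟨Q, h1, h2⟩ => h (Subtype.ext h2 ▸ h1)

theorem sl_bd {l : List (SP M)} (h : l.Nodup) : Bd1 (st l) (sl l) := by
  refine ⟨fun P hP => by_contra fun e => Finsupp.mem_support_iff.1 hP (sl_off e), fun P => ?_⟩
  induction l with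
  | nil => simp [sl]
  | cons Q l ih =>
    obtain ⟨h1, h2⟩ := List.nodup_cons.1 h
    rw [sl, Finsupp.add_apply]
    by_cases e : P = Q.1
    · rw [e, sl_off (not_st h1)]; simp
    · rw [Finsupp.single_eq_of_ne e, zero_add]; exact ih h2

theorem pr_sp (P : SP M) : M.Pr P.1 := P.2.1 _ rfl

theorem dv_ss {D : Div K} (h : M.Dv D) (P : SP M) : M.Dv (D - Finsupp.single P.1 1) :=
  dv_sub h (dv_single (pr_sp P) 1)

theorem int_ss {D : Div K} (h : IsInt D) (P : Place K) : IsInt (D - Finsupp.single P 1) :=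
  IsInt.sub h (IsInt.single P)

theorem dv_r {P : Place K} (v : SubM M P) (D : Div K) : v.S.Dv (v.r D) := dv_rs _ _

theorem int_r (hL : Loc M) {P : Place K} (v : SubM M P) {D : Div K} (h : IsInt D) :
    IsInt (v.r D) := by
  refine rs_int v.rst (nr_self v.ht D) ?_
  obtain ⟨k, hk⟩ := h P
  rw [nr_apply, hk]
  exact IsInt.sub h (IsInt.zsmul (int_div hL _) k)

theorem r_eq {P : Place K} (v : SubM M P) {D : Div K} (h : D P = 0) : v.r D = v.s.rs D :=
  rsn_of_zero v.rst v.ht h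

theorem of_fin {Y : Finset (Place K)} (hY : M.Snc (Y : Set (Place K))) :
    ∃ l : List (SP M), l.Nodup ∧ st l = Y ∧ sl l = ∑ P ∈ Y, Finsupp.single P 1 := by
  classical
  induction Y using Finset.induction_on with
  | empty => exact ⟨[], List.nodup_nil, by simp [st], rfl⟩
  | insert P Y hP ih =>
    obtain ⟨l, h1, h2, h3⟩ := ih (snc_mono hY (by simp))
    refine ⟨⟨P, snc_mono hY (by simp)⟩ :: l, List.nodup_cons.2 ⟨fun h => hP ?_, h1⟩,
      by rw [st_cons, h2]; simp, by rw [sl, h3, Finset.sum_insert hP]⟩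
    have : P ∈ st l := ⟨_, h, rfl⟩
    rwa [h2] at this

section

variable (hE : EXS n) (hM : M.Proj) (hc : Cpt M)
include hE hM hc

theorem ex (P : SP M) (v : SubM M P.1) : Cpt v.S ∧
    (∀ L, M.Dv L → IsInt L →
      h0 M (L + Finsupp.single P.1 1) ≤ h0 M L + h0 v.S (v.r (L + Finsupp.single P.1 1))) ∧
    (∀ A, M.Amp A → v.S.Amp (v.r A)) ∧ (∀ D, M.Nef D → v.S.Nef (v.r D)) ∧
    (∀ D, IsInt D → (∀ x, M.Free D x) → ∀ y, v.S.Free (v.r D) y) ∧
    (∀ D ∈ PrR M, v.r D ∈ PrR v.S) ∧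
    ∀ κ T B, P.1 ∉ T → Lg M κ (insert P.1 T) → Bd1 T B →
      (∃ T', Lg v.S (v.r (κ + Finsupp.single P.1 1)) T' ∧ Bd1 T' (v.r B)) ∧
      ∀ L, M.Dv L → IsInt L → M.Amp (L - κ - B) →
        h0 M (L + Finsupp.single P.1 1) = h0 M L + h0 v.S (v.r (L + Finsupp.single P.1 1)) :=
  hE N K M hM hc v.L v.S P.1 v.s v.rst v.t v.ht v.proj P.2

theorem pol_r (hL : Loc M) (P : SP M) (v : SubM M P.1) {H : Div K} (h : Pol M H) :
    Pol v.S (v.r H) :=
  ⟨dv_r v H, int_r hL v h.int, (ex hE hM hc P v).2.2.1 H h.amp,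
    (ex hE hM hc P v).2.2.2.2.1 H h.int h.free⟩

theorem le_one (P : SP M) {D : Div K} (h1 : M.Dv D) (h2 : IsInt D) :
    h0 M D ≤ h0 M (D - Finsupp.single P.1 1) + h0 (u P).S ((u P).r D) := by
  simpa using (ex hE hM hc P (u P)).2.1 _ (dv_ss h1 P) (int_ss h2 P.1)

theorem le_tot (l : List (SP M)) {D : Div K} (h1 : M.Dv D) (h2 : IsInt D) :
    h0 M D ≤ h0 M (D - sl l) + tot u l D := by
  induction l generalizing D with
  | nil => simp [sl, tot]
  | cons P l ih =>
    have a := le_one (u := u) hE hM hc P h1 h2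
    have b := ih (dv_ss h1 P) (int_ss h2 P.1)
    rw [sl, tot, ← sub_sub]
    omega

theorem eq_tot {κ : Div K} (hκ : IsCan M κ) {l : List (SP M)} (hl : l.Nodup) (hs : M.Snc (st l))
    {D : Div K} (h1 : M.Dv D) (h2 : IsInt D) (h3 : M.Amp (D - sl l - κ)) :
    h0 M D = h0 M (D - sl l) + tot u l D := by
  induction l generalizing D with
  | nil => simp [sl, tot]
  | cons P l ih =>
    obtain ⟨k1, k2⟩ := List.nodup_cons.1 hl
    rw [st_cons] at hs
    rw [sl, ← sub_sub] at h3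
    have a := ((ex hE hM hc P (u P)).2.2.2.2.2.2 κ _ _ (not_st k1)
      ⟨hκ, (st_fin l).insert _, hs⟩ (sl_bd k2)).2 _ (dv_ss h1 P) (int_ss h2 P.1)
      (by rwa [sub_right_comm])
    have b := ih k2 (snc_mono hs (subset_insert _ _)) (dv_ss h1 P) (int_ss h2 P.1) h3
    rw [sub_add_cancel] at a
    rw [sl, tot, ← sub_sub]
    omega

theorem tot_add (hL : Loc M) (hC : CONST n) {κ : Div K} (hκ : IsCan M κ) {l : List (SP M)}
    (hl : l.Nodup) (hs : M.Snc (st l)) {D Q : Div K} (h2 : IsInt D)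
    (h3 : M.Amp (D - sl l - κ)) (hQ : ∀ P, (u P).r Q ∈ NT (u P).S) :
    tot u l (D + Q) = tot u l D := by
  induction l generalizing D with
  | nil => rfl
  | cons P l ih =>
    obtain ⟨k1, k2⟩ := List.nodup_cons.1 hl
    rw [st_cons] at hs
    rw [sl, ← sub_sub] at h3
    have e := ex hE hM hc P (u P)
    obtain ⟨T', a1, a2⟩ := (e.2.2.2.2.2.2 κ _ _ (not_st k1)
      ⟨hκ, (st_fin l).insert _, hs⟩ (sl_bd k2)).1
    have a := hC N _ _ (u P).proj e.1 _ _ ((u P).r D) _ T' a1 a2 (dv_r _ _) (int_r hL _ h2) (by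
      rw [← map_sub, ← map_sub]
      refine e.2.2.1 _ ?_
      rwa [show D - (κ + Finsupp.single P.1 1) - sl l = D - Finsupp.single P.1 1 - sl l - κ by abel])
      (hQ P)
    rw [tot, tot, map_add, a, add_sub_right_comm,
      ih k2 (snc_mono hs (subset_insert _ _)) (int_ss h2 P.1) h3]

theorem on_of_eq (hP : ∀ n, CP n) {l : List (SP M)} (hl : l.Nodup) {D : Div K} (h1 : M.Dv D)
    (h2 : IsInt D) (h3 : ∀ P ∈ st l, D P = 0) (h : h0 M D = h0 M (D - sl l) + tot u l D) :
    All (Ont u) l D := by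
  induction l generalizing D with
  | nil => trivial
  | cons P l ih =>
    obtain ⟨k1, k2⟩ := List.nodup_cons.1 hl
    rw [st_cons] at h3
    have a := le_one (u := u) hE hM hc P h1 h2
    have b := le_tot (u := u) hE hM hc l (dv_ss h1 P) (int_ss h2 P.1)
    rw [sl, tot, ← sub_sub] at h
    have d0 := h3 _ (mem_insert _ _)
    refine ⟨fun v hv => ?_, ih k2 (dv_ss h1 P) (int_ss h2 P.1) (fun Q hQ => ?_) (by omega)⟩
    · have f1 := ((hP _ N K M hM).2 hc).1 D
      have f2 := ((hP _ N _ _ (u P).proj).2 (ex hE hM hc P (u P)).1).1 ((u P).s.rs D)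
      have c := ExsH.rank (u P).rst d0 h2
      rw [r_eq _ d0] at a h hv
      have e := Submodule.eq_top_of_finrank_eq (S := LinearMap.range (ExsH.rl (u P).rst d0))
        (by change _ = h0 (u P).S ((u P).s.rs D); omega)
      obtain ⟨f, hf⟩ : (⟨v, hv⟩ : ((u P).S.H0 ((u P).s.rs D)).restrictScalars ℂ) ∈
        LinearMap.range (ExsH.rl (u P).rst d0) := e ▸ Submodule.mem_top
      exact ⟨f, f.2, congrArg Subtype.val hf⟩
    · rw [Finsupp.sub_apply, h3 Q (mem_insert_of_mem _ hQ), Finsupp.single_eq_of_ne, sub_zero]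
      rintro rfl
      exact not_st k1 hQ

end

theorem res_sum {P : Place K} (v : SubM M P) {ι : Type} (s : Finset ι) {f : ι → K}
    (h : ∀ i, f i ∈ P.ring) : v.s.res (∑ i ∈ s, f i) = ∑ i ∈ s, v.s.res (f i) := by
  classical
  induction s using Finset.induction_on with
  | empty => simpa using res_zero' v.s
  | insert i s hi ih =>
    rw [Finset.sum_insert hi, Finset.sum_insert hi, v.s.res_add _ (h i) _ (sum_mem fun j _ => h j),
      ih]

theorem gen_one {ι : Type} [Fintype ι] {w : ι → K} {H D : Div K} {P : SP M}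
    (hw : ∀ i, w i ∈ M.H0 H) (hH : H P.1 = 0) (hD : D P.1 = 0) (h1 : Ont u P D)
    (h2 : Gen (u P).S (fun i => (u P).s.res (w i)) ((u P).r D) ((u P).r H)) :
    ∀ v ∈ (u P).S.H0 ((u P).r (D + H)), ∃ a : ι → K, (∀ i, a i ∈ M.H0 D) ∧
      (u P).s.res (∑ i, a i * w i) = v := fun v hv => by
  obtain ⟨b, b1, b2⟩ := h2 v (by rwa [map_add] at hv)
  choose a a1 a2 using fun i => h1 _ (b1 i)
  have r1 := fun i => mem_ring_of_H0 (a1 i) (pr_sp P) hD
  have r2 := fun i => mem_ring_of_H0 (hw i) (pr_sp P) hH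
  refine ⟨a, a1, ?_⟩
  rw [res_sum _ _ fun i => mul_mem (r1 i) (r2 i), b2]
  exact Finset.sum_congr rfl fun i _ => by rw [(u P).s.res_mul _ (r1 i) _ (r2 i), a2]

theorem gen_step {ι : Type} [Fintype ι] {w : ι → K} {H : Div K} (hw : ∀ i, w i ∈ M.H0 H)
    (iH : IsInt H) {l : List (SP M)} (hl : l.Nodup) (hH : ∀ P ∈ st l, H P = 0) {D : Div K}
    (iD : IsInt D) (hD : ∀ P ∈ st l, D P = 0) (h1 : All (Ont u) l D)
    (h2 : All (fun P D => Gen (u P).S (fun i => (u P).s.res (w i)) ((u P).r D) ((u P).r H)) l D) :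
    All (Ont u) l (D + H) ∧ ∀ f ∈ M.H0 (D + H), ∃ a : ι → K, (∀ i, a i ∈ M.H0 D) ∧
      f - ∑ i, a i * w i ∈ M.H0 (D + H - sl l) := by
  induction l generalizing D with
  | nil => exact ⟨trivial, fun f hf => ⟨0, fun _ => zero_mem _, by simpa [sl] using hf⟩⟩
  | cons P l ih =>
    obtain ⟨k1, k2⟩ := List.nodup_cons.1 hl
    rw [st_cons] at hH hD
    have d0 := hD _ (mem_insert _ _)
    have e0 := hH _ (mem_insert _ _)
    have s0 : (D + H) P.1 = 0 := by rw [Finsupp.add_apply, d0, e0, add_zero]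
    have g := gen_one hw e0 d0 h1.1 h2.1
    have m : ∀ a : ι → K, (∀ i, a i ∈ M.H0 D) → ∑ i, a i * w i ∈ M.H0 (D + H) := fun a ha =>
      sum_mem fun i _ => (fam_H0 M).mul (ha i) (hw i)
    obtain ⟨i1, i2⟩ := ih k2 (fun Q hQ => hH Q (mem_insert_of_mem _ hQ)) (int_ss iD P.1)
      (fun Q hQ => by
        rw [Finsupp.sub_apply, hD Q (mem_insert_of_mem _ hQ), Finsupp.single_eq_of_ne, sub_zero]
        rintro rfl
        exact not_st k1 hQ) h1.2 h2.2
    refine ⟨⟨fun v hv => ?_, by rwa [add_sub_right_comm]⟩, fun f hf => ?_⟩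
    · obtain ⟨a, a1, a2⟩ := g v hv
      exact ⟨_, m a a1, a2⟩
    · obtain ⟨a, a1, a2⟩ := g ((u P).s.res f) (by
        rw [r_eq _ s0]; exact (u P).rst.sec _ s0 f hf)
      have f1 : f - ∑ i, a i * w i ∈ M.H0 (D + H - Finsupp.single P.1 1) := by
        refine (ExsH.mem_sub (s := (u P).s) s0 (IsInt.add iD iH)).2 ⟨sub_mem hf (m a a1), ?_⟩
        have := (u P).s.res_add _ (mem_ring_of_H0 (sub_mem hf (m a a1)) (pr_sp P) s0) _
          (mem_ring_of_H0 (m a a1) (pr_sp P) s0)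
        rw [sub_add_cancel, a2] at this
        exact left_eq_add.1 (this.trans (add_comm _ _))
      obtain ⟨b, b1, b2⟩ := i2 _ (by rwa [add_sub_right_comm] at f1)
      refine ⟨a + b, fun i => add_mem (a1 i)
        (H0_mono (sub_le_self _ (Finsupp.single_nonneg.2 zero_le_one)) (b1 i)), ?_⟩
      simp only [Pi.add_apply, add_mul, Finset.sum_add_distrib]
      rwa [← sub_sub, sl, ← sub_sub, add_sub_right_comm]

end Vale.Agent.P277Z.F5.Mu
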