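import Vale.Agent.P277Z.F5.Bas
import Vale.Agent.P277Z.Bir.Alg
import Vale.Agent.P277Z.Lift.Cp
import Vale.Agent.P281.H511.Gen.Local

/-!
# P277Z, non-vanishing: sections of high multiplicity at a very general point
-/

set_option linter.all false

open Set Filter Topology
open Vale.Agent.P272.K (Cm)
open Vale.Agent.P297 (Place)
open Vale.Agent.P297Z.Pl

noncomputable section

namespace Vale.Agent.P277Z.F5

open FI

namespace PtH

variable {n N : ℕ} {K : Type} [Field K] [Algebra ℂ K] {M M' : Mdl n N K}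

/-- very general points -/
theorem exists_pt (hL : Loc M) (hc : Cpt M) {C : Set (Place K)} (hC : C.Countable) :
    ∃ x : M.F, ∀ P ∈ C, ¬ M.On x P := by
  haveI : CompactSpace M.F := isCompact_iff_compactSpace.1 M.cpt
  haveI : Nonempty M.F := M.conn.nonempty.to_subtype
  have h := dense_biInter_of_isOpen (f := fun P => {x : M.F | ¬ M.On x P})
    (fun P _ => isOpen_iff_mem_nhds.2 fun x hx => (hL.near x P).mono fun y a b => hx (a b)) hC
    fun P _ x => mem_closure_iff_frequently.2 fun a => by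
      have a1 : ∀ᶠ y in 𝓝 x, M.On y P := a.mono fun y => not_not.1
      obtain ⟨t, ht⟩ := a1.self_of_nhds
      have a2 : ∀ᶠ y : M.F in 𝓝 x, M.val t y = 0 :=
        (a1.and (hL.near_gn x P t ht)).mono fun y b => (b.2.1 b.1).van
      rw [nhds_subtype_eq_comap, eventually_comap] at a2
      refine M.not_zero (x := x) (gn_ne ht) ?_
      filter_upwards [a2, (hc.and M.fib).filter_mono (nhds_le_nhdsSet x.2)] with y b c
      exact b ⟨y, c.2.1 c.1⟩ rfl
  exact h.nonempty.imp fun x hx P hP => mem_iInter₂.1 hx P hP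

/-- the lemma of Hadamard -/
theorem had {x : M.F} {t : Fin n → K} (ht : M.Coord x t) {a : M.W → ℂ} (ha : Hol n a x) :
    ∃ b : Fin n → M.W → ℂ, (∀ i, Hol n (b i) x) ∧
      ∀ᶠ y in 𝓝 (x : M.W), a y = a x + ∑ i, b i y * M.val (t i) y := by
  obtain ⟨c, c0, c1, c2⟩ := SubH.exists_cht (fun j => (ht.1 j).1) ht.2
  have c3 : c x = 0 := funext fun j => (c2 _ c1 j).trans (ht.1 j).2
  obtain ⟨Q, q1, q2⟩ := P281.H511.Gen.exists_division 0 (by simp) (c0.inv _ c1 a ha)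
  refine ⟨fun i y => Q (c y) (Pi.single i 1), fun i e he => ?_, ?_⟩
  · exact (((ContinuousLinearMap.apply ℂ ℂ (Pi.single i 1 : Cm n)).analyticAt _).comp q1).comp_of_eq
      (analyticAt_pi_iff.2 fun j => c0.hol _ c1 j e he) (by rw [e.left_inv he.2])
  · filter_upwards [(c.continuousAt c1).eventually q2, c.open_source.mem_nhds c1] with y a1 a2
    rw [ContinuousLinearMap.zero_apply, add_zero, c.left_inv a2, c.left_inv c1, c3, sub_zero] at a1
    rw [← sub_eq_iff_eq_add', a1]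
    generalize Q (c y) = q
    rw [pi_eq_sum_univ' (c y), map_sum]
    exact Finset.sum_congr rfl fun i _ => by rw [map_smul, c2 y a2, smul_eq_mul, mul_comm]

/-- Taylor expansions -/
theorem taylor {m : Mod M' M} (hB : Bir M' M m) {y : M'.F} {t : Fin n → K}
    (ht : M.Coord (pt m y) t) {f : K} (f0 : f ≠ 0) (hf : ∀ i, t i / f ∈ M'.O y) (s : ℕ) :
    ∃ W : Submodule ℂ K, Module.Finite ℂ W ∧ ∀ a, Hol n a (m.g y) → ∃ w ∈ W, ∃ b, Hol n b (y : M'.W) ∧
      ∀ᶠ z in gen {(y : M'.W)}, a (m.g z) = M'.val w z + M'.val f z ^ s * b z := by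
  induction s with
  | zero => exact ⟨⊥, inferInstance, fun a ha => ⟨0, zero_mem _, _, m.hol y y.2 a ha,
      .of_forall fun z => by rw [M'.val_zero, zero_add, pow_zero, one_mul]⟩⟩
  | succ s ih =>
    obtain ⟨W, w0, hW⟩ := ih
    refine ⟨Submodule.span ℂ {1} ⊔ ⨆ i, W.map (LinearMap.mulRight ℂ (t i)), inferInstance,
      fun a ha => ?_⟩
    obtain ⟨b, b1, b2⟩ := had ht ha
    choose w w1 c c1 c2 using fun i => hW _ (b1 i)
    refine ⟨algebraMap ℂ K (a (m.g y)) + ∑ i, w i * t i, Submodule.add_mem_sup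
      (Submodule.mem_span_singleton.2 ⟨_, (Algebra.algebraMap_eq_smul_one _).symm⟩)
      (sum_mem fun i _ => Submodule.mem_iSup_of_mem i ⟨_, w1 i, rfl⟩),
      fun z => ∑ i, c i z * M'.val (t i / f) z,
      Lo.hol_sum _ fun i _ => Lo.hol_mul (c1 i) (hf i), ?_⟩
    filter_upwards [gen_of_nhds ((m.cont y y.2).eventually b2), eventually_all.2 c2,
      M'.at_pt (M'.val_add (algebraMap ℂ K (a (m.g y))) (∑ i, w i * t i)) y,
      M'.at_pt (M'.val_sum Finset.univ fun i => w i * t i) y,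
      M'.at_pt (eventually_all.2 fun i => (M'.val_mul (w i) (t i)).and
        ((M'.val_div (t i) f).and (m.val (t i)))) y, M'.at_pt (M'.val_ne f0) y]
      with z a1 a2 a3 a4 a5 a6
    rw [a1, a3, a4, M'.val_const, add_assoc, Finset.mul_sum, ← Finset.sum_add_distrib]
    refine congrArg _ (Finset.sum_congr rfl fun i _ => ?_)
    rw [a2, (a5 i).1, (a5 i).2.1, ← (a5 i).2.2]
    field_simp
    ring

end PtH

open PtH

/-- **PT** -/
theorem ptm (h : Tb) (n : ℕ) : PT n := by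
  classical
  intro N K _ _ M hM hc C hC
  have hL := h.box.loc _ N K M hM
  obtain ⟨x, hx⟩ := exists_pt hL hc hC
  obtain ⟨t, ht⟩ := hL.coord x
  obtain ⟨M', ⟨m⟩, hM', hG⟩ := h.box.hir _ N K M hM ∅ 1 (fun _ => Finset.univ.image t) finite_empty
    fun _ => ⟨t 0, Finset.mem_image_of_mem _ (Finset.mem_univ _), (h.box.co1 _ N K M hL x t 0 ht).1⟩
  have hL' := h.box.loc _ N K M' hM'
  have b := h.box.bir _ N K M hM M' m hM'
  obtain ⟨y, y1, y2⟩ := m.img.ge x.2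
  obtain rfl : pt m ⟨y, y1⟩ = x := Subtype.ext y2
  obtain ⟨f, f1, f0, f2⟩ := (hG ⟨y, y1⟩).1 0
  obtain ⟨i, -, rfl⟩ := Finset.mem_image.1 f1
  obtain ⟨l1, l2⟩ := b.le ⟨y, y1⟩ _ y2
  obtain ⟨E, e1, e2⟩ := hL'.van ⟨y, y1⟩ _ (l1 (ht.1 i).1) f0
    ((l2 _ (ht.1 i).1).self_of_nhds.trans (ht.1 i).2)
  have e3 := ct_pt b e1
  refine ⟨M', m, E, hM', ⟨_, e1⟩, fun G hG => (Bi.ordD_eq hL e3 G).trans (ordAt_eq_zero E
    fun P hP => by_contra fun a => hx P (hG (Finsupp.mem_support_iff.2 a)) hP), fun s => ?_⟩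
  obtain ⟨W, w0, hW⟩ := taylor b ht f0 (fun j => f2 _ (Finset.mem_image_of_mem _
    (Finset.mem_univ j))) s
  refine ⟨Module.finrank ℂ W, fun L hd hl => ?_⟩
  obtain ⟨F, hF⟩ : ∃ F : Div K, ∀ Q, F Q = ⌊L Q⌋ :=
    ⟨L.mapRange (fun r => (⌊r⌋ : ℝ)) (by simp), fun _ => rfl⟩
  have iF : IsInt F := fun Q => ⟨_, hF Q⟩
  obtain ⟨u0, u1⟩ := Lift.lg_eqD (x := pt m ⟨y, y1⟩) hL iF
  have u2 := Lift.ord_eqD (M := M) (x := pt m ⟨y, y1⟩) iF E
  generalize Lift.eqD M (pt m ⟨y, y1⟩) F = u at u0 u1 u2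
  let V : Submodule ℂ K := (Subalgebra.toSubmodule (M'.O ⟨y, y1⟩)).comap
    (LinearMap.mulRight ℂ (t i ^ s)⁻¹)
  let φ := V.mkQ ∘ₗ LinearMap.mulRight ℂ u ∘ₗ ((M.H0 L).restrictScalars ℂ).subtype
  have k1 : LinearMap.range φ ≤ W.map V.mkQ := by
    rintro _ ⟨g, rfl⟩
    have a1 : g.1 * u ∈ M.O (pt m ⟨y, y1⟩) := by
      by_cases g0 : g.1 = 0
      · rw [g0, zero_mul]; exact zero_mem _
      refine hL.mem _ _ fun P hP => ?_
      have a2 := (mem_H0.1 g.2).resolve_left g0 P ⟨_, hP⟩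
      have a3 := u1 P hP
      rw [hF, Int.cast_inj] at a3
      rw [ord_mul P g0 u0, a3, ← Int.floor_intCast_add]
      exact Int.floor_nonneg.2 a2
    obtain ⟨w, w1, c, c1, c2⟩ := hW _ a1
    refine ⟨w, w1, ((Submodule.Quotient.eq V).2 (M'.mem_O_of c1 ?_)).symm⟩
    filter_upwards [c2, M'.at_pt ((M'.val_mul (g.1 * u - w) (t i ^ s)⁻¹).and ((M'.val_sub (g.1 * u)
      w).and ((M'.val_inv (t i ^ s)).and ((M'.val_pow (t i) s).and ((m.val (g.1 * u)).and
      (M'.val_ne f0)))))) ⟨y, y1⟩] with z a2 ⟨a3, a4, a5, a6, a7, a8⟩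
    refine a3.trans ?_
    rw [a4, a5, a6, a7, a2]
    field_simp
    ring
  obtain ⟨g, g1, g0⟩ := Submodule.exists_mem_ne_zero_of_ne_bot (p := LinearMap.ker φ) fun a =>
    hl.not_ge ((LinearMap.finrank_range_of_inj (LinearMap.ker_eq_bot.1 a)).ge.trans
      ((Submodule.finrank_mono k1).trans (Submodule.finrank_map_le _ _)))
  have g2 : g.1 ≠ 0 := fun a => g0 (Subtype.ext a)
  have g3 : 0 ≤ E.ord (g.1 * u * (t i ^ s)⁻¹) := ord_nonneg_of_mem E
    (ct_of_on e1 _ ((Submodule.Quotient.mk_eq_zero V).1 g1))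
  rw [ord_mul E (mul_ne_zero g2 u0) (inv_ne_zero (pow_ne_zero s f0)), ord_mul E g2 u0, ord_inv,
    ← zpow_natCast, ord_zpow] at g3
  have g4 := ordAt_nonneg e3 (D := L - F) fun Q => by
    rw [Finsupp.sub_apply, hF]
    exact Int.fract_nonneg _
  refine ⟨g, g.2, g2, ?_⟩
  have g7 := ordAt_add (pt m ⟨y, y1⟩) E (L - F) F
  rw [sub_add_cancel, ← u2] at g7
  rw [Bi.ordD_eq hL e3, ordAt_add, ordAt_div hL e3 g2, g7]
  have g5 : (s : ℤ) ≤ E.ord g.1 + E.ord u := by nlinarith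
  have g6 := Int.cast_le (R := ℝ).2 g5
  push_cast at g6
  linarith

end Vale.Agent.P277Z.F5
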