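import Vale.Agent.P277Z.FI.Dv
import Vale.Agent.P277Z.FI.Sk3

/-!
# P277Z, non-vanishing (Cascini and Lazic, section 5) in the language of models. Statements.
-/

set_option linter.all false

open Set Filter Topology
open Vale.Agent.P297 (Place)

noncomputable section

namespace Vale.Agent.P277Z.F5

open FI

variable {n N : ℕ} {K : Type} [Field K] [Algebra ℂ K]

/-- Real combinations of principal divisors. -/
def PrR (M : Mdl n N K) : Submodule ℝ (Div K) := Submodule.span ℝ {Z | ∃ f, f ≠ 0 ∧ Z = M.div f}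

/-- `G` is an effective member of the real linear system of `D`. -/
def Rep (M : Mdl n N K) (D G : Div K) : Prop := 0 ≤ G ∧ G - D ∈ PrR M

/-- The real linear system is not empty. -/
def Eff (M : Mdl n N K) (D : Div K) : Prop := ∃ G, Rep M D G

/-- Pseudo-effective divisors. -/
def Psef (M : Mdl n N K) (D : Div K) : Prop := ∀ A, M.Dv A → M.Amp A → Eff M (D + A)

/-- `σ_P(D) = 0` -/
def Z (M : Mdl n N K) (D : Div K) (P : Place K) : Prop :=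
  ∀ A, M.Dv A → M.Amp A → ∀ η : ℝ, 0 < η → ∃ G, Rep M (D + A) G ∧ G P ≤ η

/-- The cone generated by finitely many divisors. -/
def Cone (s : Finset (Div K)) : Set (Div K) :=
  {v | ∃ a : Div K → ℝ, (∀ L, 0 ≤ a L) ∧ v = ∑ L ∈ s, a L • L}

/-- `B` is a boundary on `T`. -/
def Bd1 (T : Set (Place K)) (B : Div K) : Prop :=
  (B.support : Set (Place K)) ⊆ T ∧ ∀ P, 0 ≤ B P ∧ B P ≤ 1

/-- Log smooth data. -/
structure Lg (M : Mdl n N K) (κ : Div K) (T : Set (Place K)) : Prop where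
  can : IsCan M κ
  fin : T.Finite
  snc : M.Snc T

/-- The model is a compact manifold. -/
def Cpt (M : Mdl n N K) : Prop := ∀ᶠ y in 𝓝ˢ M.F, M.π y = 0

/-- The dimension of the space of sections. -/
def h0 (M : Mdl n N K) (D : Div K) : ℕ := Module.finrank ℂ ((M.H0 D).restrictScalars ℂ)

/-- Integral divisors `P` with `P` and `-P` nef. -/
def NT (M : Mdl n N K) : Set (Div K) := {P | M.Dv P ∧ IsInt P ∧ M.Nef P ∧ M.Nef (-P)}

/-- `H` is integral, ample and free. -/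
structure Pol (M : Mdl n N K) (H : Div K) : Prop where
  dv : M.Dv H
  int : IsInt H
  amp : M.Amp H
  free : ∀ x, M.Free H x

/-- **AR**: ample divisors move; rational points of real linear systems -/
def AR (n : ℕ) : Prop := ForM n fun _ K _ _ M =>
  (∀ (A : Div K) (T : Set (Place K)), M.Dv A → M.Amp A → T.Finite →
    ∃ G, Rep M A G ∧ ∀ P ∈ T, G P = 0) ∧
  ∀ (s : Finset (Div K)) (T : Set (Place K)) (v G : Div K), (∀ L ∈ s, M.Dv L ∧ IsInt L) →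
    v ∈ Cone s → Rep M v G → (∀ P ∈ T, G P = 0) → ∃ s' : Finset (Div K), v ∈ Cone s' ∧
      ∀ L ∈ s', L ∈ AddSubmonoid.closure (s : Set (Div K)) ∧
        ∃ f ∈ M.H0 L, f ≠ 0 ∧ ∀ P ∈ T, (M.div f + L) P = 0

/-- **T43**: Cascini and Lazic, Theorem 4.3 -/
def T43 (n : ℕ) : Prop := ForM n fun _ K _ _ M => ∀ (κ : Div K) (P : Place K)
  (T : Set (Place K)), P ∉ T → IsCan M κ → T.Finite → M.Snc (insert P T) →
  (∀ v, M.Dv v → Adj M (κ + Finsupp.single P 1) T v → Z M v P → Eff M v) ∧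
  ∀ s : Finset (Div K), (∀ L ∈ s, M.Dv L ∧ IsInt L ∧ Adj M (κ + Finsupp.single P 1) T L) →
    ∃ s' : Finset (Div K), (∀ L ∈ s', Eff M L) ∧ ∀ v ∈ Cone s, Z M v P → v ∈ Cone s'

/-- **LR**: adjoint divisors on log resolutions -/
def LR (n : ℕ) : Prop := ForM n fun N K _ _ M => ∀ (κ B D : Div K) (T : Set (Place K))
  (M₁ : Mdl n N K) (_ : Mod M₁ M), Lg M κ T → Bd1 T B → M.Amp (D - κ - B) → M₁.Proj →
  ∃ a : Place K → ℝ, ∀ T₁ : Set (Place K), T₁.Finite →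
    ∃ (M' : Mdl n N K) (_ : Mod M' M) (κ' Ψ : Div K) (T' : Set (Place K)), M'.Proj ∧ Lg M' κ' T' ∧
      (∀ Q, M₁.Pr Q → M'.Pr Q ∧ a Q ≤ Ψ Q) ∧ (∀ Q, M'.Pr Q → Q ∈ T₁ ∨ Q ∈ Exc M' M → Q ∈ T') ∧
      (Ψ.support : Set (Place K)) ⊆ T' ∧ (∀ Q, Ψ Q < 1) ∧ (∀ Q, Q ∉ Exc M' M → 0 ≤ Ψ Q) ∧
      M'.Amp (M.pull M' D - κ' - Ψ)

/-- **PP**: pull back and push forward of real linear systems -/
def PP (n : ℕ) : Prop := ForM n fun N K _ _ M => ∀ (M' : Mdl n N K) (_ : Mod M' M), M'.Proj →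
  (Cpt M → Cpt M') ∧ (∀ D G, Rep M D G → Rep M' (M.pull M' D) (M.pull M' G)) ∧
  (∀ D, Psef M D → Psef M' (M.pull M' D)) ∧
  ∀ D F : Div K, M.Dv D → (∀ Q, Q ∉ Exc M' M → 0 ≤ F Q) → M'.Dv F → Eff M' (M.pull M' D - F) →
    Eff M D

/-- **BT**: general members, on a model and on a modification -/
def BT (n : ℕ) : Prop := ForM n fun N K _ _ M => ∀ (M' : Mdl n N K) (_ : Mod M' M)
  (T T' T₁ : Set (Place K)) (D : Div K), M'.Proj → T.Finite → M.Snc T → T'.Finite → M'.Snc T' →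
  Exc M' M ⊆ T' → T₁.Finite → M.Dv D → IsInt D → (∀ x, M.Free D x) →
  ∃ (f : K) (Y : Finset (Place K)), f ≠ 0 ∧ M.div f + D = ∑ P ∈ Y, Finsupp.single P 1 ∧
    M'.div f + M.pull M' D = ∑ P ∈ Y, Finsupp.single P 1 ∧ Disjoint (Y : Set (Place K)) T ∧
    Disjoint (Y : Set (Place K)) T₁ ∧ M.Snc (T ∪ Y) ∧ Disjoint (Y : Set (Place K)) T' ∧
    M'.Snc (T' ∪ Y)

/-- The identity. -/
def Mod.refl (M : Mdl n N K) : Mod M M where
  g := id
  cont _ _ := continuousAt_id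
  hol _ _ _ h := h
  img := image_id _
  dom _ _ := tendsto_id
  base := .of_forall fun _ => rfl
  val _ := .of_forall fun _ => rfl

/-- **TH**: the threshold argument -/
def TH (n : ℕ) : Prop := ForM n fun _ K _ _ M => ∀ (κ D Ψ W A : Div K) (T : Set (Place K)) (l : ℝ)
  (G : ℕ → Div K) (E : Place K), Lg M κ T → M.Dv D → M.Dv A → M.Amp A →
  (Ψ.support : Set (Place K)) ⊆ T → (W.support : Set (Place K)) ⊆ T → (∀ Q, Ψ Q ≤ 1) → 0 ≤ l →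
  M.Amp (D - κ - Ψ) → M.Amp ((1 + l) • D - κ - Ψ - W) →
  (∀ k : ℕ, Rep M (D + (1 / ((k : ℝ) + 1)) • A) (G k)) → (∃ᶠ k in atTop, G k E = 0) →
  1 ≤ (Ψ + W) E → ∃ (t : ℝ) (F : Div K), 0 ≤ t ∧ t ≤ 1 ∧ (F.support : Set (Place K)) ⊆ T ∧
    (∀ Q, 0 ≤ (Ψ + t • W) Q → 0 ≤ F Q) ∧ Eff M ((1 + t * l) • D - F)

/-- non-vanishing for the model `M` -/
def Nv (M : Mdl n N K) : Prop := ∀ (κ B D : Div K) (T : Set (Place K)), Lg M κ T → Bd1 T B →
  M.Dv D → M.Amp (D - κ - B) → Psef M D → Eff M D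

/-- **NV** -/
def NV (n : ℕ) : Prop := ForM n fun _ _ _ _ M => Nv M

/-- **NVR**: the relative case -/
def NVR (n : ℕ) : Prop := ForM n fun _ _ _ _ M => ¬ Cpt M → Nv M

/-- **CP**: compact models -/
def CP (n : ℕ) : Prop := ForM n fun _ K _ _ M =>
  (¬ Cpt M → ∃ f : K, f ≠ 0 ∧ 0 ≤ M.div f ∧ M.div f ≠ 0) ∧
  (Cpt M → (∀ D, Module.Finite ℂ ((M.H0 D).restrictScalars ℂ)) ∧
    (∀ f : K, f ≠ 0 → 0 ≤ M.div f → M.div f = 0) ∧ (n = 0 → ∀ D, h0 M D = 1) ∧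
    (0 < n → (∃ P, M.Pr P) ∧ ∀ G : Div K, M.Dv G → 0 ≤ G → ¬ M.Amp (-G)) ∧
    (n = 1 → ∀ T : Set (Place K), (∀ P ∈ T, M.Pr P) → M.Snc T))

/-- **PT**: sections of high multiplicity at a very general point -/
def PT (n : ℕ) : Prop := ForM (n + 1) fun N K _ _ M => Cpt M → ∀ C : Set (Place K), C.Countable →
  ∃ (M₁ : Mdl (n + 1) N K) (_ : Mod M₁ M) (E : Place K), M₁.Proj ∧ M₁.Pr E ∧
    (∀ G : Div K, (G.support : Set (Place K)) ⊆ C → M.ordD E G = 0) ∧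
    ∀ s : ℕ, ∃ c : ℕ, ∀ L, M.Dv L → c < h0 M L →
      ∃ f ∈ M.H0 L, f ≠ 0 ∧ (s : ℝ) ≤ M.ordD E (M.div f + L)

/-- **NV1**: the compact case, many sections -/
def NV1 (n : ℕ) : Prop := ForM (n + 1) fun _ K _ _ M => Cpt M → ∀ (κ B D H : Div K)
  (T : Set (Place K)), Lg M κ T → Bd1 T B → M.Dv D → M.Amp (D - κ - B) → Psef M D → M.Dv H →
  (∀ c : ℕ, ∃ m : ℕ, c < h0 M ((m : ℝ) • D + H)) → Eff M D

/-- **EXT1**: extension of sections of adjoint divisors -/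
def EXT1 (n : ℕ) : Prop := ForM (n + 1) fun N K _ _ M => ∀ (L' : Type) [Field L'] [Algebra ℂ L']
  (S : Mdl n N L') (P : Place K) (s : Sub S M P) (κ L B : Div K) (T : Set (Place K)), S.Proj →
  P ∉ T → Lg M κ (insert P T) → Bd1 T B → M.Dv L → IsInt L → L P = 0 →
  M.Amp (L - κ - Finsupp.single P 1 - B) → ∀ u ∈ S.H0 (s.rs L), ∃ f ∈ M.H0 L, s.res f = u

/-- The toolbox. -/
structure Tb : Prop where
  box : Box
  bert : ∀ n, BERT n
  ext : ∀ n, EXT1 n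

/-- **EXS**: the restriction sequence, adjunction -/
def EXS (n : ℕ) : Prop := ForM (n + 1) fun N K _ _ M => Cpt M → ∀ (L' : Type) [Field L']
  [Algebra ℂ L'] (S : Mdl n N L') (P : Place K) (s : Sub S M P) (hR : Rst s) (t : K)
  (ht : M.div t P = 1), S.Proj → M.Snc {P} → Cpt S ∧
  (∀ L, M.Dv L → IsInt L →
    h0 M (L + Finsupp.single P 1) ≤ h0 M L + h0 S (rsn hR ht (L + Finsupp.single P 1))) ∧
  (∀ A, M.Amp A → S.Amp (rsn hR ht A)) ∧ (∀ D, M.Nef D → S.Nef (rsn hR ht D)) ∧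
  (∀ D, IsInt D → (∀ x, M.Free D x) → ∀ y, S.Free (rsn hR ht D) y) ∧
  (∀ D ∈ PrR M, rsn hR ht D ∈ PrR S) ∧
  ∀ κ T B, P ∉ T → Lg M κ (insert P T) → Bd1 T B →
    (∃ T', Lg S (rsn hR ht (κ + Finsupp.single P 1)) T' ∧ Bd1 T' (rsn hR ht B)) ∧
    ∀ L, M.Dv L → IsInt L → M.Amp (L - κ - B) →
      h0 M (L + Finsupp.single P 1) = h0 M L + h0 S (rsn hR ht (L + Finsupp.single P 1))

/-- **CONST**: `h⁰` of adjoint divisors is a numerical invariant -/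
def CONST (n : ℕ) : Prop := ForM n fun _ K _ _ M => Cpt M → ∀ (κ B L P : Div K)
  (T : Set (Place K)), Lg M κ T → Bd1 T B → M.Dv L → IsInt L → M.Amp (L - κ - B) → P ∈ NT M →
  h0 M (L + P) = h0 M L

/-- **POLY**: `h⁰` of adjoint divisors is a polynomial of degree at most `n` -/
def POLY (n : ℕ) : Prop := ForM n fun _ K _ _ M => Cpt M → ∀ (κ B L : Div K) (T : Set (Place K))
  (a : Fin (n + 1) → Div K), Lg M κ T → Bd1 T B → M.Dv L → IsInt L →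
  (∀ i, M.Dv (a i) ∧ IsInt (a i)) →
  (∀ J : Finset (Fin (n + 1)), M.Amp (L + ∑ i ∈ J, a i - κ - B)) →
  ∑ J : Finset (Fin (n + 1)), (-1 : ℤ) ^ J.card * (h0 M (L + ∑ i ∈ J, a i) : ℤ) = 0

/-- `z` is the intersection number of the integral divisors `a i`. -/
def IsI (M : Mdl n N K) (a : Fin n → Div K) (z : ℤ) : Prop := ∀ κ B L T, Lg M κ T → Bd1 T B →
  M.Dv L → IsInt L → (∀ J : Finset (Fin n), M.Amp (L + ∑ i ∈ J, a i - κ - B)) →
  ∑ J : Finset (Fin n), (-1 : ℤ) ^ (n - J.card) * (h0 M (L + ∑ i ∈ J, a i) : ℤ) = z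

open Classical in
/-- The degree `D · Hⁿ`. -/
def deg (M : Mdl (n + 1) N K) (H : Div K) : Div K →ₗ[ℝ] ℝ :=
  Finsupp.linearCombination ℝ fun P => if M.Pr P then
    (Classical.epsilon (IsI M (Fin.cons (Finsupp.single P 1) fun _ => H)) : ℤ) else 0

open Classical in
/-- **DEG**: properties of the degree -/
def DEG (n : ℕ) : Prop := ForM (n + 1) fun _ K _ _ M => Cpt M → ∀ H : Div K, M.Dv H → IsInt H →
  (∀ D, M.Dv D → IsInt D → ∃ z : ℤ, deg M H D = z ∧ IsI M (Fin.cons D fun _ => H) z) ∧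
  (∀ D ∈ PrR M, deg M H D = 0) ∧ (∀ f : K, f ≠ 0 → deg M (H + M.div f) = deg M H) ∧
  (n = 0 → ∀ P, M.Pr P → deg M H (Finsupp.single P 1) = 1)

/-- **DNN**: effective divisors have non negative degree -/
def DNN (n : ℕ) : Prop := ForM (n + 1) fun _ K _ _ M => Cpt M → ∀ H : Div K, Pol M H →
  ∀ G, 0 ≤ G → 0 ≤ deg M H G

/-- A smooth prime divisor as a model. -/
structure SubM (M : Mdl (n + 1) N K) (P : Place K) where
  /-- the function field -/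
  L : Type
  [fL : Field L]
  [aL : Algebra ℂ L]
  /-- the model -/
  S : Mdl n N L
  /-- the embedding -/
  s : Sub S M P
  proj : S.Proj
  rst : Rst s
  /-- a uniformizer -/
  t : K
  ht : M.div t P = 1

attribute [instance] SubM.fL SubM.aL

/-- The restriction of divisors. -/
def SubM.r {M : Mdl (n + 1) N K} {P : Place K} (u : SubM M P) : Div K →ₗ[ℝ] Div u.L :=
  rsn u.rst u.ht

/-- **DRS**: the degree can be computed on a member of `|k H|` -/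
def DRS (n : ℕ) : Prop := ForM (n + 2) fun _ K _ _ M => Cpt M → ∀ (H : Div K) (k : ℕ)
  (Y : Finset (Place K)) (u : ∀ P : Y, SubM M P), M.Dv H → IsInt H → (∀ P ∈ Y, M.Snc {P}) →
  ∑ P ∈ Y, Finsupp.single P (1 : ℝ) - (k : ℝ) • H ∈ PrR M → ∀ D, M.Dv D →
    ∑ P : Y, deg (u P).S ((u P).r H) ((u P).r D) = k * deg M H D

/-- **D1**: pseudo-effective divisors of degree zero are numerically trivial -/
def D1 (n : ℕ) : Prop := ForM (n + 1) fun _ K _ _ M => Cpt M → ∀ H D : Div K, Pol M H → M.Dv D →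
  Psef M D → deg M H D = 0 → D ∈ Submodule.span ℝ (NT M)

/-- **DPOS**: prime divisors have positive degree -/
def DPOS (n : ℕ) : Prop := ForM (n + 1) fun _ K _ _ M => Cpt M → ∀ H : Div K, Pol M H →
  ∀ P, M.Pr P → 1 ≤ deg M H (Finsupp.single P 1)

/-- **CNT**: counting sections on a general complete intersection curve -/
def CNT (n : ℕ) : Prop := ForM (n + 1) fun _ K _ _ M => Cpt M → ∀ κ H L Δ : Div K, IsCan M κ →
  Pol M H → M.Dv L → IsInt L → M.Dv Δ → (∀ P, 0 ≤ Δ P ∧ Δ P < 1) → M.Amp (L - Δ) →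
  deg M H L ≤ h0 M (κ + ((n : ℝ) + 1) • H + L)

/-- **FRAC**: bounded fractional parts -/
def FRAC : Prop := ∀ (ι : Type) (w : ι → ℝ) (a : ι →₀ ℝ) (d c : ℝ) (𝒢 : ℕ → Set (ι →₀ ℝ)),
  (∀ i, 0 ≤ w i) → (∀ l, ∀ G ∈ 𝒢 l, 0 ≤ G ∧ ∀ i ∈ G.support, 1 ≤ w i) → 0 ≤ a →
  (∀ l, (𝒢 l).Nonempty ∧ Convex ℝ (𝒢 l)) →
  (∀ l l' : ℕ, l ≤ l' → ∀ G ∈ 𝒢 l', G + (1 / ((l : ℝ) + 1) - 1 / ((l' : ℝ) + 1)) • a ∈ 𝒢 l) →
  (∀ l : ℕ, ∀ G ∈ 𝒢 l, (G.sum fun i g => g * w i) = d + (1 / ((l : ℝ) + 1)) * a.sum fun i g => g * w i) →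
  (∀ l, ∀ G ∈ 𝒢 l, ∀ m : ℕ, m ≤ l → (G.sum fun i g => Int.fract (m * g) * w i) ≤ c) →
  ∃ ν : ι →₀ ℝ, 0 ≤ ν ∧ (ν.sum fun i g => g * w i) = d ∧ ∀ η : ℝ, 0 < η → ∀ l₀, ∃ l, l₀ ≤ l ∧
    ∃ G ∈ 𝒢 l, ∀ i ∈ ν.support, i ∈ G.support ∧ ν i - η ≤ G i

/-- **C2**: the compact case, few sections -/
def C2 (n : ℕ) : Prop := ForM (n + 1) fun _ K _ _ M => Cpt M → ∀ H D : Div K, Pol M H → M.Dv D →
  Psef M D → (∀ H', M.Dv H' → ∃ c : ℕ, ∀ m : ℕ, h0 M ((m : ℝ) • D + H') ≤ c) →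
  ∃ ν : Div K, M.Dv ν ∧ 0 ≤ ν ∧ Psef M (D - ν) ∧ deg M H (D - ν) = 0

/-- **SHO**: the trick of Shokurov -/
def SHO (n : ℕ) : Prop := ForM n fun _ K _ _ M => Cpt M → ∀ (κ B D ν : Div K)
  (T : Set (Place K)), Lg M κ T → Bd1 T B → M.Dv D → M.Amp (D - κ - B) → M.Dv ν → 0 ≤ ν →
  D - ν ∈ Submodule.span ℝ (NT M) → Eff M D

end Vale.Agent.P277Z.F5
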