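import Vale.Agent.P277Z.F5.Sk

/-!
# P277Z, non-vanishing: Theorem 4.3 of Cascini and Lazic by linear inequalities. Statement.
-/

set_option linter.all false

open Set
open Vale.Agent.P297 (Place)

noncomputable section

namespace Vale.Agent.P277Z.F5

open FI

/-- **T43H** -/
def T43H (n : ℕ) : Prop := ForM n fun _ K _ _ M => ∀ (κ A : Div K) (P : Place K)
  (T : Set (Place K)), P ∉ T → IsCan M κ → T.Finite → M.Snc (insert P T) → M.Dv A → M.Amp A →
  ∃ (k : ℕ) (φ : Fin k → Div K →ₗ[ℝ] ℝ),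
    (∀ B, Bd1 T B → Z M (κ + Finsupp.single P 1 + A + B) P →
      ∀ i, 0 ≤ φ i (κ + Finsupp.single P 1 + A + B)) ∧
    ∀ B : Div K, (B.support : Set (Place K)) ⊆ T → (∀ i, 0 ≤ φ i (κ + Finsupp.single P 1 + A + B)) →
      Eff M (κ + Finsupp.single P 1 + A + B)

end Vale.Agent.P277Z.F5
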