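import Vale.Agent.P277Z.F5.MuD

/-!
# P277Z, non-vanishing: further statements
-/

set_option linter.all false

open Set
open Vale.Agent.P297 (Place)

noncomputable section

namespace Vale.Agent.P277Z.F5

open FI

/-- **CNTP**: counting sections on a modification -/
def CNTP (n : ℕ) : Prop := ForM (n + 1) fun N K _ _ M => Cpt M → ∀ (M' : Mdl (n + 1) N K)
  (_ : Mod M' M) (H κ' B' L' : Div K) (T' : Set (Place K)), M'.Proj → Pol M H → Lg M' κ' T' →
  Exc M' M ⊆ T' → Bd1 T' B' → M'.Dv L' → IsInt L' → M'.Amp (L' - B') →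
  deg M H (M.tr L') ≤ h0 M' (κ' + ((n : ℝ) + 1) • M.pull M' H + L')

/-- **PFZ**: pseudo-effective divisors of degree zero are killed by all flags -/
def PFZ (n : ℕ) : Prop := ForM (n + 1) fun _ K _ _ M => Cpt M → ∀ H D : Div K, Pol M H → M.Dv D →
  Psef M D → deg M H D = 0 → Fz (n + 1) M H D

/-- **RFZ**: the divisors killed by all flags form a rational subspace -/
def RFZ (n : ℕ) : Prop := ForM (n + 1) fun _ K _ _ M => Cpt M → ∀ H D : Div K, Pol M H → M.Dv D →
  Fz (n + 1) M H D → D ∈ Submodule.span ℝ {P | M.Dv P ∧ IsInt P ∧ Fz (n + 1) M H P}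

end Vale.Agent.P277Z.F5
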